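import Crest.Agent.R258.Defs
/-! rid 258: algebraic definitions for the ampleness proof (see `WW.lean`
for the basic lemmas). -/
set_option autoImplicit false
noncomputable section
namespace Crest.Agent.R258
open MvPolynomial

/-- polynomials in `x0, x1`. -/
abbrev SX (R : Type*) [CommRing R] := MvPolynomial (Fin 2) R
/-- polynomials in the frame symbols `X0, X1` over `R[x0,x1]`. -/
abbrev MX (R : Type*) [CommRing R] := MvPolynomial (Fin 2) (MvPolynomial (Fin 2) R)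

/-- `W_n^a(R)`: homogeneous of degree `n` in `X0, X1`, the coefficient of `X0^j X1^(n-j)` is
homogeneous of degree `2j + a` in `x0, x1`. -/
def WW (R : Type*) [CommRing R] (n a : ℕ) : Submodule R (MX R) where
  carrier := {Q | Q.IsHomogeneous n ∧ ∀ m, (Q.coeff m).IsHomogeneous (2 * m 0 + a)}
  add_mem' := by
    rintro P Q ⟨h1, h2⟩ ⟨h3, h4⟩
    refine ⟨h1.add h3, fun m => ?_⟩
    rw [coeff_add]
    exact (h2 m).add (h4 m)
  zero_mem' := ⟨isHomogeneous_zero _ _ _, fun m => by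
    rw [coeff_zero]; exact isHomogeneous_zero _ _ _⟩
  smul_mem' := by
    rintro c Q ⟨h1, h2⟩
    refine ⟨?_, fun m => ?_⟩
    · have : c • Q = C (C c) * Q := by
        rw [← MvPolynomial.algebraMap_eq, ← MvPolynomial.algebraMap_eq, Algebra.smul_def]; rfl
      rw [this]
      simpa using (isHomogeneous_C (Fin 2) (C c : SX R)).mul h1
    · rw [coeff_smul]
      have : c • coeff m Q = C c * coeff m Q := by rw [MvPolynomial.smul_eq_C_mul]
      rw [this]
      simpa using (isHomogeneous_C (Fin 2) c).mul (h2 m)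

section
variable {R : Type*} [CommRing R]

theorem mem_WW {n a : ℕ} {Q : MX R} :
    Q ∈ WW R n a ↔ Q.IsHomogeneous n ∧ ∀ m, (Q.coeff m).IsHomogeneous (2 * m 0 + a) := Iff.rfl

variable [Algebra ℚ R]

/-- `TT` as a polynomial in `x0,x1` over `R`. -/
def Tp (m y : R) : SX R := TT (C m) (X 0) (X 1) (C y)
/-- `nu` as a polynomial in `x0,x1` over `R`. -/
def Np (m y : R) : SX R := nu (C m) (X 0) (X 1) (C y)
/-- `PP` as a polynomial in `x0,x1` over `R`. -/
def Pp (m y : R) : SX R := PP (C m) (X 0) (X 1) (C y)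

/-- evaluation at `(X0, X1) = (TT, nu)`. -/
def ev (m y : R) : MX R →ₐ[SX R] SX R := aeval ![Tp m y, Np m y]

/-- `κ = nu X0 - TT X1`, generator of the kernel of `ev`. -/
def kap (m y : R) : MX R := C (Np m y) * X 0 - C (Tp m y) * X 1

/-- `Ω = U ∧ V = 4 y² - (1+y²) δ`. -/
def Om (m y : R) : R := 4 * y ^ 2 - (1 + y ^ 2) * del m y

end

/-! ## The two charts in the `y` direction -/

/-- `ℂ[y]`. -/
abbrev AA := Polynomial ℂ
/-- `ℂ[y, 1/y]`. -/
abbrev LL := LaurentPolynomial ℂ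

/-- `y ↦ y`. -/
def io0 : AA →+* LL := Polynomial.toLaurent
/-- `y ↦ 1/y`. -/
def io1 : AA →+* LL := (LaurentPolynomial.invert (R := ℂ)).toRingHom.comp Polynomial.toLaurent

/-- coefficient maps on `W_n^a`. -/
def jo0 : MX AA →+* MX LL := MvPolynomial.map (MvPolynomial.map io0)
def jo1 : MX AA →+* MX LL := MvPolynomial.map (MvPolynomial.map io1)

/-- `y` in `LL`. -/
def yL : LL := LaurentPolynomial.T 1
/-- `1/y` in `LL`. -/
def zL : LL := LaurentPolynomial.T (-1)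

/-- `μ_b` in `AA`. -/
def mA (b : Fin 2) : AA := Polynomial.C (muB b)
/-- `μ_b` in `LL`. -/
def mL (b : Fin 2) : LL := LaurentPolynomial.C (muB b)

/-- frame substitution `X0 ↦ y⁻⁴ X0`, `X1 ↦ y⁻³ PP X0 + y⁸ X1`. -/
def gS : MX LL →ₐ[SX LL] MX LL :=
  aeval ![C (C (zL ^ 4)) * X 0, C (C (zL ^ 3) * Pp (mL 0) yL) * X 0 + C (C (yL ^ 8)) * X 1]

/-- `H¹(Symⁿ E(0,3)) = 0`. -/
def VA (n : ℕ) : Prop := ∀ Q ∈ WW LL n 0, ∃ A0 ∈ WW AA n 0, ∃ A1 ∈ WW AA n 0,
  Q = jo0 A0 + C (C (yL ^ 3)) * gS (jo1 A1)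

/-- `H¹(Symⁿ E(2,-1)) = 0`. -/
def VB (n : ℕ) : Prop := ∀ Q ∈ WW LL n 2, ∃ A0 ∈ WW AA n 2, ∃ A1 ∈ WW AA n 2,
  Q = jo0 A0 + C (C zL) * gS (jo1 A1)

end Crest.Agent.R258
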