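import Crest.Agent.R258.Defs
import Crest.Agent.R258.Pullback
/-! Polynomial identities, the cocycle property, and the two
functionals `s₁ = (0,1)`, `s₂ = (TT, nu)`. (proofs: helper375) -/
set_option autoImplicit false
noncomputable section
namespace Crest.Agent.R258
open Crest.AlgGeometry.QuadricBundle
open scoped ComplexConjugate

theorem muB_sq (b : Fin 2) : (muB b) ^ 2 = 2 * muB b + 1 := by
  have h : ((Real.sqrt 2 : ℝ) : ℂ) ^ 2 = 2 := by
    rw [← Complex.ofReal_pow, Real.sq_sqrt (by norm_num)]; norm_num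
  unfold muB
  split_ifs
  · push_cast
    linear_combination h
  · push_cast
    linear_combination h

theorem muB_add : muB 0 + muB 1 = 2 := by
  simp only [muB, one_ne_zero, if_true, if_false]
  push_cast
  ring

theorem muB_neg {b c : Fin 2} (h : b ≠ c) : muB c = 2 - muB b := by
  have := muB_add
  fin_cases b <;> fin_cases c <;> simp at h ⊢
  · linear_combination this
  · linear_combination this

section ident
variable {R : Type*} [CommRing R] [Algebra ℚ R]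

theorem q32 : (32 : R) * algebraMap ℚ R (1 / 32) = 1 := by
  have : (32 : R) = algebraMap ℚ R 32 := by
    rw [map_ofNat]
  rw [this, ← map_mul]
  norm_num

set_option maxHeartbeats 1000000 in
/-- `T P = y³ ν'(1/y) - y¹¹ ν`. -/
theorem TT_mul_PP (m x0 x1 y z : R) (hm : m ^ 2 = 2 * m + 1) (hy : y * z = 1) :
    TT m x0 x1 y * PP m x0 x1 y = y ^ 3 * nu (2 - m) x0 x1 z - y ^ 11 * nu m x0 x1 y := by
  have hq := q32 (R := R)
  have h1 : y ^ 3 * z = y ^ 2 := by linear_combination y ^ 2 * hy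
  have h2 : y ^ 3 * z ^ 2 = y := by linear_combination y * (y * z + 1) * hy
  have h3 : y ^ 3 * z ^ 3 = 1 := by linear_combination ((y * z) ^ 2 + y * z + 1) * hy
  unfold TT nu PP t1 t2 del
  set q : R := algebraMap ℚ R (1 / 32)
  linear_combination (q * ((26) * x1 ^ 4 * y + (-16) * x1 ^ 4 * y ^ 3 + (-8) * x1 ^ 4 * y ^ 5
    + (8) * x1 ^ 4 * y ^ 9 + (16) * x1 ^ 4 * y ^ 11 + (-26) * x1 ^ 4 * y ^ 13
    + (-13) * x0 * x1 ^ 3 + (-83) * x0 * x1 ^ 3 * y ^ 2 + (88) * x0 * x1 ^ 3 * y ^ 4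
    + (8) * x0 * x1 ^ 3 * y ^ 6 + (-8) * x0 * x1 ^ 3 * y ^ 8 + (-88) * x0 * x1 ^ 3 * y ^ 10
    + (83) * x0 * x1 ^ 3 * y ^ 12 + (13) * x0 * x1 ^ 3 * y ^ 14
    + (423) * x0 ^ 2 * x1 ^ 2 * y + (-383) * x0 ^ 2 * x1 ^ 2 * y ^ 3
    + (-40) * x0 ^ 2 * x1 ^ 2 * y ^ 5 + (40) * x0 ^ 2 * x1 ^ 2 * y ^ 9
    + (383) * x0 ^ 2 * x1 ^ 2 * y ^ 11 + (-423) * x0 ^ 2 * x1 ^ 2 * y ^ 13
    + (-192) * x0 ^ 3 * x1 + (192) * x0 ^ 3 * x1 * y ^ 4 + (-192) * x0 ^ 3 * x1 * y ^ 10
    + (192) * x0 ^ 3 * x1 * y ^ 14)) * hm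
    + ((1) * x1 ^ 4 * y ^ 3 + (-1) * x1 ^ 4 * y ^ 11 + (5) * x0 ^ 4 * y ^ 3
    + (-29) * x0 ^ 4 * y ^ 11 + (12) * m * x0 ^ 4 * y ^ 3 + (12) * m * x0 ^ 4 * y ^ 11) * hq
    - (q * (-2962 + 1231 * (2 - m)) * x0 ^ 3 * x1 + q * (-699 + 272 * (2 - m)) * x0 * x1 ^ 3) * h1
    - (q * (926 - 384 * (2 - m)) * x0 ^ 4 + q * (2533 - 1043 * (2 - m)) * x0 ^ 2 * x1 ^ 2
      + q * (178 - 76 * (2 - m)) * x1 ^ 4) * h2
    - (q * (-1118 + 463 * (2 - m)) * x0 ^ 3 * x1 + q * (-89 + 38 * (2 - m)) * x0 * x1 ^ 3) * h3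

/-- `T'(1/y) = y⁻⁴ T(y)`. -/
theorem TT_inv (m x0 x1 y z : R) (_hm : m ^ 2 = 2 * m + 1) (hy : y * z = 1) :
    TT (2 - m) x0 x1 z = z ^ 4 * TT m x0 x1 y := by
  have e1 : t1 x0 x1 z = z ^ 2 * t1 x0 x1 y := by
    unfold t1
    linear_combination (-2 * z * x1 + (y * z + 1) * x0) * hy
  have e2 : t2 (2 - m) x0 x1 z = z ^ 2 * t2 m x0 x1 y := by
    unfold t2 del
    linear_combination (2 * z * x0 + (m - 2) * (y * z + 1) * x1) * hy
  unfold TT
  rw [e1, e2]; ring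

/-- `y¹⁰ P'(1/y) = - P(y)`. -/
theorem PP_inv (m x0 x1 y z : R) (_hm : m ^ 2 = 2 * m + 1) (hy : y * z = 1) :
    PP (2 - m) x0 x1 z = -(z ^ 10 * PP m x0 x1 y) := by
  have hk : ∀ i j : ℕ, z ^ (i + j) * y ^ i = z ^ j := by
    intro i j
    rw [pow_add, mul_comm (z ^ i), mul_assoc, ← mul_pow, mul_comm z y, hy, one_pow, mul_one]
  have h1 := hk 1 9
  have h2 := hk 2 8
  have h3 := hk 3 7
  have h4 := hk 4 6
  have h5 := hk 5 5
  have h6 := hk 6 4
  have h7 := hk 7 3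
  have h8 := hk 8 2
  have h9 := hk 9 1
  have h10 := hk 10 0
  norm_num at h1 h2 h3 h4 h5 h6 h7 h8 h9 h10
  unfold PP
  linear_combination (-13 - 39 * m) * x0 * x1 * h1 + (x0 ^ 2 + (2 + 5 * m) * x1 ^ 2) * h2
    + (-1 - m) * x0 * x1 * h3 + (-x0 ^ 2 + m * x1 ^ 2) * h4 + (-1 + m) * x0 * x1 * h5
    + (x0 ^ 2 + (-2 + m) * x1 ^ 2) * h6 + (3 - m) * x0 * x1 * h7
    + (-x0 ^ 2 + (-12 + 5 * m) * x1 ^ 2) * h8 + (91 - 39 * m) * x0 * x1 * h9
    + ((-463 + 192 * m) * x0 ^ 2 + (-38 + 13 * m) * x1 ^ 2) * h10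

/-- `ν(U) = 1`. -/
theorem nu_U (m y : R) (_hm : m ^ 2 = 2 * m + 1) : nu m (2 * y) (1 + y ^ 2) y = 1 := by
  have hq := q32 (R := R)
  unfold nu
  set q : R := algebraMap ℚ R (1 / 32)
  linear_combination (-(((29 - 12 * m) * (2 * y) ^ 4 + (1 + y ^ 2) ^ 4) - 1)) * hq

set_option maxHeartbeats 1000000 in
/-- `ν(V) = 1`. -/
theorem nu_V (m y : R) (hm : m ^ 2 = 2 * m + 1) : nu m (del m y) (2 * y) y = 1 := by
  have hq := q32 (R := R)
  unfold nu del
  set q : R := algebraMap ℚ R (1 / 32)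
  linear_combination (-(((29 - 12 * m) * (m - (m - 2) * y ^ 2) ^ 4 + (2 * y) ^ 4) - 1)) * hq
    + q * ((32) + (-512) * y ^ 4 + (3968) * y ^ 6 + (-6560) * y ^ 8 + (3072) * y ^ 10 + (-64) * m
    + (2248) * m * y ^ 4 + (-8848) * m * y ^ 6 + (11272) * m * y ^ 8 + (-4608) * m * y ^ 10
    + (160) * m ^ 2 + (-1092) * m ^ 2 * y ^ 2 + (12) * m ^ 2 * y ^ 4
    + (4916) * m ^ 2 * y ^ 6 + (-6300) * m ^ 2 * y ^ 8 + (2304) * m ^ 2 * y ^ 10
    + (-384) * m ^ 3 + (1152) * m ^ 3 * y ^ 2 + (-768) * m ^ 3 * y ^ 4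
    + (-768) * m ^ 3 * y ^ 6 + (1152) * m ^ 3 * y ^ 8 + (-384) * m ^ 3 * y ^ 10) * hm

/-- homogeneity in `x`. -/
theorem TT_smul (m t x0 x1 y : R) : TT m (t * x0) (t * x1) y = t ^ 2 * TT m x0 x1 y := by
  unfold TT t1 t2; ring

theorem nu_smul (m t x0 x1 y : R) : nu m (t * x0) (t * x1) y = t ^ 4 * nu m x0 x1 y := by
  unfold nu; ring

theorem PP_smul (m t x0 x1 y : R) : PP m (t * x0) (t * x1) y = t ^ 2 * PP m x0 x1 y := by
  unfold PP; ring

end ident

theorem hx0_flip {a b : Fin 2} (h : a ≠ b) {x : ℂ} (hx : x ≠ 0) : hx0 a x = x * hx0 b x⁻¹ := by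
  fin_cases a <;> fin_cases b <;> simp [hx0, hx] at h ⊢

theorem hx1_flip {a b : Fin 2} (h : a ≠ b) {x : ℂ} (hx : x ≠ 0) : hx1 a x = x * hx1 b x⁻¹ := by
  fin_cases a <;> fin_cases b <;> simp [hx1, hx] at h ⊢

theorem tau_zero (α β : Chart) (p : Fin 2 → ℂ) :
    tau α β p 0 = if α.1 = β.1 then p 0 else (p 0)⁻¹ := rfl

theorem tau_one (α β : Chart) (p : Fin 2 → ℂ) :
    tau α β p 1 = if α.2 = β.2 then p 1 else (p 1)⁻¹ := rfl

/-- off diagonal entry. -/
def offB (α : Chart) (p : Fin 2 → ℂ) : ℂ :=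
  ((p 1) ^ 3)⁻¹ * PP (muB α.2) (hx0 α.1 (p 0)) (hx1 α.1 (p 0)) (p 1)

theorem lineTrans_two_neg_four (α β : Chart) (p : Fin 2 → ℂ) : lineTrans 2 (-4) α β p =
    (if α.1 = β.1 then 1 else (p 0) ^ 2) * (if α.2 = β.2 then 1 else ((p 1) ^ 4)⁻¹) := by
  unfold lineTrans
  have e1 : (p 0 : ℂ) ^ (2 : ℤ) = p 0 ^ 2 := by norm_cast
  have e2 : (p 1 : ℂ) ^ (-4 : ℤ) = (p 1 ^ 4)⁻¹ := by rw [zpow_neg]; norm_cast
  rw [e1, e2]

theorem lineTrans_zero_eight' (α β : Chart) (p : Fin 2 → ℂ) : lineTrans 0 8 α β p =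
    (if α.2 = β.2 then 1 else (p 1) ^ 8) := by
  unfold lineTrans
  have e2 : (p 1 : ℂ) ^ (8 : ℤ) = p 1 ^ 8 := by norm_cast
  rw [e2, zpow_zero, ite_self, one_mul]

theorem lineTrans_four_zero (α β : Chart) (p : Fin 2 → ℂ) : lineTrans 4 0 α β p =
    (if α.1 = β.1 then 1 else (p 0) ^ 4) := by
  unfold lineTrans
  have e2 : (p 0 : ℂ) ^ (4 : ℤ) = p 0 ^ 4 := by norm_cast
  rw [e2, zpow_zero, ite_self, mul_one]

theorem gBase_eq (α β : Chart) (p : Fin 2 → ℂ) : gBase α β p =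
    !![lineTrans 2 (-4) α β p, if α.2 = β.2 then 0 else offB α p; 0, lineTrans 0 8 α β p] := by
  rw [lineTrans_two_neg_four, lineTrans_zero_eight']
  rfl

/-- same `y`-chart: the off diagonal entry only picks up the `x`-twist. -/
theorem offB_same {α β : Chart} (h : α.2 = β.2) {p : Fin 2 → ℂ} (hp : p ∈ overlap α β) :
    offB α p = lineTrans 2 (-4) α β p * offB β (tau α β p) := by
  rw [lineTrans_two_neg_four]
  unfold offB
  rw [tau_zero, tau_one, if_pos h, if_pos h, ← h]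
  by_cases h1 : α.1 = β.1
  · rw [if_pos h1, if_pos h1, ← h1]; ring
  · rw [if_neg h1, if_neg h1, hx0_flip h1 (hp.1 h1), hx1_flip h1 (hp.1 h1), PP_smul]
    ring

/-- opposite `y`-chart. -/
theorem offB_flip {α β : Chart} (h : α.2 ≠ β.2) {p : Fin 2 → ℂ} (hp : p ∈ overlap α β) :
    lineTrans 2 (-4) α β p * offB β (tau α β p) + offB α p * lineTrans 0 8 β α (tau α β p) = 0 := by
  have hy := hp.2 h
  have h' : β.2 ≠ α.2 := fun e => h e.symm
  rw [lineTrans_two_neg_four, lineTrans_zero_eight']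
  unfold offB
  rw [tau_zero, tau_one, if_neg h, if_neg h, if_neg h', muB_neg h,
    PP_inv (muB α.2) _ _ (p 1) (p 1)⁻¹ (muB_sq _) (mul_inv_cancel₀ hy)]
  by_cases h1 : α.1 = β.1
  · rw [if_pos h1, if_pos h1, ← h1]
    field_simp
    ring
  · rw [if_neg h1, if_neg h1, hx0_flip h1 (hp.1 h1), hx1_flip h1 (hp.1 h1), PP_smul]
    field_simp
    ring

theorem differentiable_hx0 (a : Fin 2) : Differentiable ℂ (fun p : Fin 2 → ℂ => hx0 a (p 0)) := by
  unfold hx0
  split_ifs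
  · exact differentiable_const _
  · exact differentiable_apply 0

theorem differentiable_hx1 (a : Fin 2) : Differentiable ℂ (fun p : Fin 2 → ℂ => hx1 a (p 0)) := by
  unfold hx1
  split_ifs
  · exact differentiable_apply 0
  · exact differentiable_const _

theorem differentiableOn_offB {α β : Chart} (h : α.2 ≠ β.2) :
    DifferentiableOn ℂ (offB α) (overlap α β) := by
  have h0 := differentiable_hx0 α.1
  have h1 := differentiable_hx1 α.1
  have hy : Differentiable ℂ (fun p : Fin 2 → ℂ => p 1) := differentiable_apply 1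
  have hPP : Differentiable ℂ (fun p : Fin 2 → ℂ =>
      PP (muB α.2) (hx0 α.1 (p 0)) (hx1 α.1 (p 0)) (p 1)) := by
    unfold PP
    fun_prop
  intro p hp
  have hne : p 1 ≠ 0 := hp.2 h
  unfold offB
  refine DifferentiableAt.differentiableWithinAt ?_
  refine DifferentiableAt.mul ?_ (hPP p)
  exact ((hy p).pow 3).inv (pow_ne_zero _ hne)

theorem gBase_cocycle : IsHoloCocycle gBase where
  refl α p := by
    rw [gBase_eq, lineTrans_self, lineTrans_self, if_pos rfl]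
    exact Matrix.one_fin_two.symm
  holo α β i j := by
    simp only [gBase_eq]
    fin_cases i <;> fin_cases j
    · exact differentiableOn_lineTrans 2 (-4) α β
    · change DifferentiableOn ℂ (fun p => if α.2 = β.2 then 0 else offB α p) (overlap α β)
      split_ifs with h
      · exact differentiableOn_const _
      · exact differentiableOn_offB h
    · exact differentiableOn_const _
    · exact differentiableOn_lineTrans 0 8 α β
  cocycle α β γ p hp := by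
    have k1 := lineTrans_cocycle' 2 (-4) γ hp.1
    have k2 := lineTrans_cocycle' 0 8 γ hp.1
    have e08 : ∀ δ : Chart, γ.2 = δ.2 →
        lineTrans 0 8 β γ (tau α β p) = lineTrans 0 8 β δ (tau α β p) := by
      intro δ hδ
      rw [lineTrans_zero_eight', lineTrans_zero_eight', hδ]
    rw [gBase_eq, gBase_eq, gBase_eq]
    ext i j
    fin_cases i <;> fin_cases j
    · simpa [Matrix.mul_apply, Fin.sum_univ_two] using k1
    · have key : lineTrans 2 (-4) α β p * (if β.2 = γ.2 then 0 else offB β (tau α β p)) +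
          (if α.2 = β.2 then 0 else offB α p) * lineTrans 0 8 β γ (tau α β p) =
          (if α.2 = γ.2 then 0 else offB α p) := by
        by_cases h1 : α.2 = β.2
        · by_cases h2 : β.2 = γ.2
          · rw [if_pos h2, if_pos h1, if_pos (h1.trans h2)]; ring
          · rw [if_neg h2, if_pos h1, if_neg (h1 ▸ h2), offB_same h1 hp.1]; ring
        · by_cases h2 : β.2 = γ.2
          · rw [if_pos h2, if_neg h1, if_neg (h2 ▸ h1), e08 β h2.symm,
              lineTrans_self]; ring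
          · have h3 : α.2 = γ.2 := by omega
            rw [if_neg h2, if_neg h1, if_pos h3, e08 α h3.symm]
            exact offB_flip h1 hp.1
      simpa [Matrix.mul_apply, Fin.sum_univ_two] using key
    · simp [Matrix.mul_apply, Fin.sum_univ_two]
    · simpa [Matrix.mul_apply, Fin.sum_univ_two] using k2

/-- the functional `s₂` on the chart `α`. -/
def sTwo (α : Chart) (p : Fin 2 → ℂ) : Fin 2 → ℂ :=
  ![TT (muB α.2) (hx0 α.1 (p 0)) (hx1 α.1 (p 0)) (p 1),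
    nu (muB α.2) (hx0 α.1 (p 0)) (hx1 α.1 (p 0)) (p 1)]

theorem sOne_trans {α β : Chart} {p : Fin 2 → ℂ} (hp : p ∈ overlap α β) :
    (gBase α β p).transpose.mulVec ![0, 1] = lineTrans 0 8 α β p • (![0, 1] : Fin 2 → ℂ) := by
  rw [gBase_eq]
  ext i
  fin_cases i
  · simp [Matrix.mulVec, dotProduct, Fin.sum_univ_two, Matrix.transpose_apply]
  · simp [Matrix.mulVec, dotProduct, Fin.sum_univ_two, Matrix.transpose_apply]

/-- `TT` is a section of `O(2,4)`. -/
theorem TT_trans {α β : Chart} {p : Fin 2 → ℂ} (hp : p ∈ overlap α β) :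
    TT (muB α.2) (hx0 α.1 (p 0)) (hx1 α.1 (p 0)) (p 1) * lineTrans 2 (-4) α β p =
    lineTrans 4 0 α β p * TT (muB β.2) (hx0 β.1 (tau α β p 0)) (hx1 β.1 (tau α β p 0))
      (tau α β p 1) := by
  rw [lineTrans_two_neg_four, lineTrans_four_zero, tau_zero, tau_one]
  by_cases h2 : α.2 = β.2
  · by_cases h1 : α.1 = β.1
    · simp only [h1, h2, if_true]; ring
    · rw [if_neg h1, if_neg h1, if_neg h1, if_pos h2, if_pos h2, h2, hx0_flip h1 (hp.1 h1),
        hx1_flip h1 (hp.1 h1), TT_smul]; ring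
  · have hy := hp.2 h2
    rw [if_neg h2, if_neg h2, muB_neg h2,
      TT_inv (muB α.2) _ _ (p 1) (p 1)⁻¹ (muB_sq _) (mul_inv_cancel₀ hy)]
    by_cases h1 : α.1 = β.1
    · rw [if_pos h1, if_pos h1, if_pos h1, h1]
      field_simp
    · rw [if_neg h1, if_neg h1, if_neg h1, hx0_flip h1 (hp.1 h1), hx1_flip h1 (hp.1 h1), TT_smul]
      field_simp

theorem nu_trans {α β : Chart} {p : Fin 2 → ℂ} (hp : p ∈ overlap α β) :
    TT (muB α.2) (hx0 α.1 (p 0)) (hx1 α.1 (p 0)) (p 1) * (if α.2 = β.2 then 0 else offB α p) +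
    nu (muB α.2) (hx0 α.1 (p 0)) (hx1 α.1 (p 0)) (p 1) * lineTrans 0 8 α β p =
    lineTrans 4 0 α β p * nu (muB β.2) (hx0 β.1 (tau α β p 0)) (hx1 β.1 (tau α β p 0))
      (tau α β p 1) := by
  rw [lineTrans_zero_eight', lineTrans_four_zero, tau_zero, tau_one]
  unfold offB
  by_cases h2 : α.2 = β.2
  · by_cases h1 : α.1 = β.1
    · simp only [h1, h2, if_true]; ring
    · rw [if_neg h1, if_neg h1, if_pos h2, if_pos h2, if_pos h2, h2, hx0_flip h1 (hp.1 h1),
        hx1_flip h1 (hp.1 h1), nu_smul]; ring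
  · have hy := hp.2 h2
    have key := fun a b => TT_mul_PP (muB α.2) a b (p 1) (p 1)⁻¹ (muB_sq _) (mul_inv_cancel₀ hy)
    rw [if_neg h2, if_neg h2, if_neg h2, muB_neg h2]
    have h4 : ∀ a b : ℂ, TT (muB α.2) a b (p 1) * (((p 1) ^ 3)⁻¹ * PP (muB α.2) a b (p 1)) +
        nu (muB α.2) a b (p 1) * p 1 ^ 8 = nu (2 - muB α.2) a b (p 1)⁻¹ := by
      intro a b
      have hy3 : p 1 ^ 3 ≠ 0 := pow_ne_zero _ hy
      apply mul_left_cancel₀ hy3
      have : p 1 ^ 3 * (TT (muB α.2) a b (p 1) * (((p 1) ^ 3)⁻¹ * PP (muB α.2) a b (p 1)) +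
        nu (muB α.2) a b (p 1) * p 1 ^ 8) = TT (muB α.2) a b (p 1) * PP (muB α.2) a b (p 1) +
        p 1 ^ 11 * nu (muB α.2) a b (p 1) := by
        field_simp
      rw [this, key]; ring
    rw [h4]
    by_cases h1 : α.1 = β.1
    · rw [if_pos h1, if_pos h1, h1]; ring
    · rw [if_neg h1, if_neg h1, hx0_flip h1 (hp.1 h1), hx1_flip h1 (hp.1 h1), nu_smul]

theorem sTwo_trans {α β : Chart} {p : Fin 2 → ℂ} (hp : p ∈ overlap α β) :
    (gBase α β p).transpose.mulVec (sTwo α p) = lineTrans 4 0 α β p • sTwo β (tau α β p) := by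
  rw [gBase_eq]
  ext i
  fin_cases i
  · have := TT_trans hp
    simp [Matrix.mulVec, dotProduct, Fin.sum_univ_two, Matrix.transpose_apply, sTwo]
    linear_combination this
  · have := nu_trans hp
    simp only [Matrix.mulVec, dotProduct, Fin.sum_univ_two, Matrix.transpose_apply, sTwo]
    simp
    by_cases h2 : α.2 = β.2
    · rw [if_pos h2] at this ⊢
      linear_combination this
    · rw [if_neg h2] at this ⊢
      linear_combination this

theorem sTwo_differentiable (α : Chart) (i : Fin 2) : Differentiable ℂ (fun p => sTwo α p i) := by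
  have h0 := differentiable_hx0 α.1
  have h1 := differentiable_hx1 α.1
  have hy : Differentiable ℂ (fun p : Fin 2 → ℂ => p 1) := differentiable_apply 1
  fin_cases i
  · change Differentiable ℂ (fun p : Fin 2 → ℂ =>
      TT (muB α.2) (hx0 α.1 (p 0)) (hx1 α.1 (p 0)) (p 1))
    unfold TT t1 t2 del
    fun_prop
  · change Differentiable ℂ (fun p : Fin 2 → ℂ =>
      nu (muB α.2) (hx0 α.1 (p 0)) (hx1 α.1 (p 0)) (p 1))
    unfold nu
    fun_prop

end Crest.Agent.R258
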