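import Crest.Agent.R258.Pullback

/-!
Row 258 (S0396): the explicit untwisted bundle `E` on the quadric.

`s = √2`, `μ = 1 + s`, `1/μ = s - 1`; chart `(a, b)` uses `s_b = s` (`b = 0`), `s_b = -s` (`b = 1`).
* `fE α p`  : equation of the curve `D = C1 ∪ C2`, a section of `O(2,4)`;
* `vE α p`  : the lift, `vE = λ⁻¹` on `D`;
* `gE α β p = [[lineTrans 2 (-4), c], [0, lineTrans 0 8]]`.
* the dual sections are `s1 = (0, 1)` (with values in `O(0,8)`) and `s2 = (fE α, vE α)` (with values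
  in `O(4,0)`), see `sec2_zero`, `sec2_one`.
-/

set_option autoImplicit false

noncomputable section

open Crest Crest.AlgGeometry Crest.AlgGeometry.QuadricBundle

namespace Crest.Agent.R258.B375

/-- `√2` as a complex number. -/
def sq2 : ℂ := ((Real.sqrt 2 : ℝ) : ℂ)

theorem sq2_sq : sq2 ^ 2 = 2 := by
  unfold sq2
  rw [← Complex.ofReal_pow, Real.sq_sqrt (by norm_num)]
  norm_num

/-- sign choice `±√2` according to the chart of the second factor. -/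
def sE (b : Fin 2) : ℂ := if b = 0 then sq2 else -sq2

theorem sE_sq (b : Fin 2) : sE b ^ 2 = 2 := by
  unfold sE; split_ifs
  · exact sq2_sq
  · rw [neg_sq]; exact sq2_sq

theorem sE_neg {b c : Fin 2} (h : b ≠ c) : sE c = - sE b := by
  unfold sE
  fin_cases b <;> fin_cases c <;> simp_all

/-- equation of `C1`, bidegree `(1,2)`. -/
def f1P (a : Fin 2) (x y : ℂ) : ℂ := if a = 0 then 2 * x * y - 1 - y ^ 2 else 2 * y - x * (1 + y ^ 2)

/-- equation of `C2`, bidegree `(1,2)`. -/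
def f2P (s : ℂ) (a : Fin 2) (x y : ℂ) : ℂ :=
  if a = 0 then x * ((1 + s) - (s - 1) * y ^ 2) - 2 * y
  else ((1 + s) - (s - 1) * y ^ 2) - 2 * x * y

def fP (s : ℂ) (a : Fin 2) (x y : ℂ) : ℂ := f1P a x y * f2P s a x y

def nE0 (s y : ℂ) : ℂ :=
  (17) + (271/16) * y ^ 2 + (-12) * s + (-12) * s * y ^ 2

def nE1 (s y : ℂ) : ℂ :=
  (-1731/32) * y + (-655/32) * y ^ 3 + (1231/32) * s * y + (463/32) * s * y ^ 3

def nE2 (s y : ℂ) : ℂ :=
  (39/8) + (745/16) * y ^ 2 + (-117/32) * s + (-1043/32) * s * y ^ 2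

def nE3 (s y : ℂ) : ℂ :=
  (-427/32) * y + (-51/32) * y ^ 3 + (17/2) * s * y + (19/16) * s * y ^ 3

def nE4 (s y : ℂ) : ℂ :=
  (1) + (51/16) * y ^ 2 + (-19/8) * s * y ^ 2

def cE0 (s y : ℂ) : ℂ :=
  (271/32) + (1/32) * y ^ 2 + (-1/32) * y ^ 4 + (1/32) * y ^ 6 + (-1/32) * y ^ 8
    + (-271/32) * y ^ 10 + (6) * s + (6) * s * y ^ 10

def cE1 (s y : ℂ) : ℂ :=
  (-13/8) * y + (-1/16) * y ^ 3 + (1/16) * y ^ 7 + (13/8) * y ^ 9 + (-39/32) * s * y
    + (-1/32) * s * y ^ 3 + (1/32) * s * y ^ 5 + (-1/32) * s * y ^ 7 + (-39/32) * s * y ^ 9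

def cE2 (s y : ℂ) : ℂ :=
  (25/32) + (7/32) * y ^ 2 + (1/32) * y ^ 4 + (-1/32) * y ^ 6 + (-7/32) * y ^ 8
    + (-25/32) * y ^ 10 + (13/32) * s + (5/32) * s * y ^ 2 + (1/32) * s * y ^ 4
    + (1/32) * s * y ^ 6 + (5/32) * s * y ^ 8 + (13/32) * s * y ^ 10

/-- the lift of the generator of `O(0,8)`; polynomial of bidegree `(4,4)`. -/
def vP (s : ℂ) (a : Fin 2) (x y : ℂ) : ℂ :=
  if a = 0 then nE0 s y + nE1 s y * x + nE2 s y * x ^ 2 + nE3 s y * x ^ 3 + nE4 s y * x ^ 4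
  else nE0 s y * x ^ 4 + nE1 s y * x ^ 3 + nE2 s y * x ^ 2 + nE3 s y * x + nE4 s y

def cP (s : ℂ) (a : Fin 2) (x y : ℂ) : ℂ :=
  if a = 0 then cE0 s y + cE1 s y * x + cE2 s y * x ^ 2
  else cE0 s y * x ^ 2 + cE1 s y * x + cE2 s y

def fE (α : Chart) (p : Fin 2 → ℂ) : ℂ := fP (sE α.2) α.1 (p 0) (p 1)
def vE (α : Chart) (p : Fin 2 → ℂ) : ℂ := vP (sE α.2) α.1 (p 0) (p 1)

/-- off diagonal entry of the transition matrix between two charts with different `y`. -/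
def offE (α : Chart) (p : Fin 2 → ℂ) : ℂ := (p 1) ^ (-3 : ℤ) * cP (sE α.2) α.1 (p 0) (p 1)

/-- The transition matrices of the untwisted bundle `E`. -/
def gE : Transition 2 := fun α β p =>
  !![lineTrans 2 (-4) α β p, if α.2 = β.2 then 0 else offE α p; 0, lineTrans 0 8 α β p]

/-! ### behaviour under `x ↦ 1/x` -/

theorem f1P_x {a b : Fin 2} (h : a ≠ b) {x : ℂ} (hx : x ≠ 0) (y : ℂ) :
    f1P a x y = x * f1P b x⁻¹ y := by
  fin_cases a <;> fin_cases b <;> simp [f1P] at h ⊢ <;> field_simp <;> ring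

theorem f2P_x (s : ℂ) {a b : Fin 2} (h : a ≠ b) {x : ℂ} (hx : x ≠ 0) (y : ℂ) :
    f2P s a x y = x * f2P s b x⁻¹ y := by
  fin_cases a <;> fin_cases b <;> simp [f2P] at h ⊢ <;> field_simp

theorem fP_x (s : ℂ) {a b : Fin 2} (h : a ≠ b) {x : ℂ} (hx : x ≠ 0) (y : ℂ) :
    fP s a x y = x ^ 2 * fP s b x⁻¹ y := by
  unfold fP
  rw [f1P_x h hx, f2P_x s h hx]; ring

theorem vP_x (s : ℂ) {a b : Fin 2} (h : a ≠ b) {x : ℂ} (hx : x ≠ 0) (y : ℂ) :
    vP s a x y = x ^ 4 * vP s b x⁻¹ y := by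
  fin_cases a <;> fin_cases b <;> simp [vP] at h ⊢ <;> field_simp

theorem cP_x (s : ℂ) {a b : Fin 2} (h : a ≠ b) {x : ℂ} (hx : x ≠ 0) (y : ℂ) :
    cP s a x y = x ^ 2 * cP s b x⁻¹ y := by
  fin_cases a <;> fin_cases b <;> simp [cP] at h ⊢ <;> field_simp

/-! ### behaviour under `y ↦ 1/y` -/

theorem f1P_y (a : Fin 2) (x : ℂ) {y : ℂ} (hy : y ≠ 0) :
    f1P a x y = y ^ 2 * f1P a x y⁻¹ := by
  fin_cases a <;> simp [f1P] <;> field_simp <;> ring

theorem f2P_y (s : ℂ) (a : Fin 2) (x : ℂ) {y : ℂ} (hy : y ≠ 0) :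
    f2P s a x y = y ^ 2 * f2P (-s) a x y⁻¹ := by
  fin_cases a <;> simp [f2P] <;> field_simp <;> ring

theorem fP_y (s : ℂ) (a : Fin 2) (x : ℂ) {y : ℂ} (hy : y ≠ 0) :
    fP s a x y = y ^ 4 * fP (-s) a x y⁻¹ := by
  unfold fP
  rw [f1P_y a x hy, f2P_y s a x hy]; ring

theorem cP_y (s : ℂ) (a : Fin 2) (x : ℂ) {y : ℂ} (hy : y ≠ 0) :
    cP s a x y = - (y ^ 10 * cP (-s) a x y⁻¹) := by
  fin_cases a <;> simp [cP, cE0, cE1, cE2] <;> field_simp <;> ring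

/-- `y ^ 4 * vP (-s) a x (1/y)` as a polynomial. -/
def vR (s : ℂ) (a : Fin 2) (x y : ℂ) : ℂ :=
  if a = 0 then ((17) * y ^ 4 + (271/16) * y ^ 2 + (12) * s * y ^ 4 + (12) * s * y ^ 2)
    + ((-1731/32) * y ^ 3 + (-655/32) * y + (-1231/32) * s * y ^ 3 + (-463/32) * s * y) * x
    + ((39/8) * y ^ 4 + (745/16) * y ^ 2 + (117/32) * s * y ^ 4 + (1043/32) * s * y ^ 2) * x ^ 2
    + ((-427/32) * y ^ 3 + (-51/32) * y + (-17/2) * s * y ^ 3 + (-19/16) * s * y) * x ^ 3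
    + (y ^ 4 + (51/16) * y ^ 2 + (19/8) * s * y ^ 2) * x ^ 4
  else ((17) * y ^ 4 + (271/16) * y ^ 2 + (12) * s * y ^ 4 + (12) * s * y ^ 2) * x ^ 4
    + ((-1731/32) * y ^ 3 + (-655/32) * y + (-1231/32) * s * y ^ 3 + (-463/32) * s * y) * x ^ 3
    + ((39/8) * y ^ 4 + (745/16) * y ^ 2 + (117/32) * s * y ^ 4 + (1043/32) * s * y ^ 2) * x ^ 2
    + ((-427/32) * y ^ 3 + (-51/32) * y + (-17/2) * s * y ^ 3 + (-19/16) * s * y) * x
    + (y ^ 4 + (51/16) * y ^ 2 + (19/8) * s * y ^ 2)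

theorem vP_inv (s : ℂ) (a : Fin 2) (x : ℂ) {y : ℂ} (hy : y ≠ 0) :
    y ^ 4 * vP (-s) a x y⁻¹ = vR s a x y := by
  have h1 : y ^ 4 * y⁻¹ = y ^ 3 := by field_simp
  have h2 : y ^ 4 * y⁻¹ ^ 2 = y ^ 2 := by field_simp
  have h3 : y ^ 4 * y⁻¹ ^ 3 = y := by field_simp
  fin_cases a
  · simp only [vP, nE0, nE1, nE2, nE3, nE4, vR, Fin.zero_eta, if_true]
    linear_combination (-1731/32 + -1231/32 * s) * x * h1 + (-427/32 + -17/2 * s) * x ^ 3 * h1
      + (271/16 + 12 * s) * h2 + (745/16 + 1043/32 * s) * x ^ 2 * h2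
      + (51/16 + 19/8 * s) * x ^ 4 * h2 + (-655/32 + -463/32 * s) * x * h3
      + (-51/32 + -19/16 * s) * x ^ 3 * h3
  · simp only [vP, nE0, nE1, nE2, nE3, nE4, vR, Fin.mk_one, one_ne_zero, if_false]
    linear_combination (-1731/32 + -1231/32 * s) * x ^ 3 * h1 + (-427/32 + -17/2 * s) * x * h1
      + (271/16 + 12 * s) * x ^ 4 * h2 + (745/16 + 1043/32 * s) * x ^ 2 * h2
      + (51/16 + 19/8 * s) * h2 + (-655/32 + -463/32 * s) * x ^ 3 * h3
      + (-51/32 + -19/16 * s) * x * h3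

set_option maxHeartbeats 1000000 in
/-- the key cocycle identity. -/
theorem key_y {s : ℂ} (hs : s ^ 2 = 2) (a : Fin 2) (x : ℂ) {y : ℂ} (hy : y ≠ 0) :
    fP s a x y * cP s a x y * y + vP s a x y * y ^ 12 = y ^ 4 * vP (-s) a x y⁻¹ := by
  rw [vP_inv s a x hy]
  fin_cases a
  · simp only [fP, f1P, f2P, cP, vP, cE0, cE1, cE2, nE0, nE1, nE2, nE3, nE4, vR,
      Fin.zero_eta, if_true]
    linear_combination ((-6) * x * y + (6) * x * y ^ 5 + (-6) * x * y ^ 11 + (6) * x * y ^ 15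
    + (423/32) * x ^ 2 * y ^ 2 + (-383/32) * x ^ 2 * y ^ 4 + (-5/4) * x ^ 2 * y ^ 6
    + (5/4) * x ^ 2 * y ^ 10 + (383/32) * x ^ 2 * y ^ 12 + (-423/32) * x ^ 2 * y ^ 14
    + (-13/32) * x ^ 3 * y + (-83/32) * x ^ 3 * y ^ 3 + (11/4) * x ^ 3 * y ^ 5
    + (1/4) * x ^ 3 * y ^ 7 + (-1/4) * x ^ 3 * y ^ 9 + (-11/4) * x ^ 3 * y ^ 11
    + (83/32) * x ^ 3 * y ^ 13 + (13/32) * x ^ 3 * y ^ 15 + (13/16) * x ^ 4 * y ^ 2
    + (-1/2) * x ^ 4 * y ^ 4 + (-1/4) * x ^ 4 * y ^ 6 + (1/4) * x ^ 4 * y ^ 10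
    + (1/2) * x ^ 4 * y ^ 12 + (-13/16) * x ^ 4 * y ^ 14) * hs
  · simp only [fP, f1P, f2P, cP, vP, cE0, cE1, cE2, nE0, nE1, nE2, nE3, nE4, vR,
      Fin.mk_one, one_ne_zero, if_false]
    linear_combination ((13/16) * y ^ 2 + (-1/2) * y ^ 4 + (-1/4) * y ^ 6 + (1/4) * y ^ 10
    + (1/2) * y ^ 12
    + (-13/16) * y ^ 14 + (-13/32) * x * y + (-83/32) * x * y ^ 3 + (11/4) * x * y ^ 5
    + (1/4) * x * y ^ 7 + (-1/4) * x * y ^ 9 + (-11/4) * x * y ^ 11 + (83/32) * x * y ^ 13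
    + (13/32) * x * y ^ 15 + (423/32) * x ^ 2 * y ^ 2 + (-383/32) * x ^ 2 * y ^ 4
    + (-5/4) * x ^ 2 * y ^ 6 + (5/4) * x ^ 2 * y ^ 10 + (383/32) * x ^ 2 * y ^ 12
    + (-423/32) * x ^ 2 * y ^ 14 + (-6) * x ^ 3 * y + (6) * x ^ 3 * y ^ 5
    + (-6) * x ^ 3 * y ^ 11 + (6) * x ^ 3 * y ^ 15) * hs

/-! ### the cocycle -/

theorem tau_zero (α β : Chart) (p : Fin 2 → ℂ) :
    tau α β p 0 = if α.1 = β.1 then p 0 else (p 0)⁻¹ := rfl

theorem tau_one (α β : Chart) (p : Fin 2 → ℂ) :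
    tau α β p 1 = if α.2 = β.2 then p 1 else (p 1)⁻¹ := rfl

theorem gE_zero_zero (α β : Chart) (p : Fin 2 → ℂ) : gE α β p 0 0 = lineTrans 2 (-4) α β p := rfl
theorem gE_zero_one (α β : Chart) (p : Fin 2 → ℂ) :
    gE α β p 0 1 = if α.2 = β.2 then 0 else offE α p := rfl
theorem gE_one_zero (α β : Chart) (p : Fin 2 → ℂ) : gE α β p 1 0 = 0 := rfl
theorem gE_one_one (α β : Chart) (p : Fin 2 → ℂ) : gE α β p 1 1 = lineTrans 0 8 α β p := rfl

/-- same `y`-chart: the off diagonal entry only picks up the `x`-twist. -/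
theorem offE_same {α β : Chart} (h : α.2 = β.2) {p : Fin 2 → ℂ} (hp : p ∈ overlap α β) :
    offE α p = lineTrans 2 (-4) α β p * offE β (tau α β p) := by
  unfold offE lineTrans
  rw [tau_zero, tau_one, if_pos h, if_pos h, ← h]
  by_cases h1 : α.1 = β.1
  · rw [if_pos h1, if_pos h1, ← h1]; ring
  · rw [if_neg h1, if_neg h1, cP_x (sE α.2) h1 (hp.1 h1)]
    have : (p 0 : ℂ) ^ (2 : ℤ) = p 0 ^ 2 := by norm_cast
    rw [this]; ring

/-- opposite `y`-chart. -/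
theorem offE_flip {α β : Chart} (h : α.2 ≠ β.2) {p : Fin 2 → ℂ} (hp : p ∈ overlap α β) :
    lineTrans 2 (-4) α β p * offE β (tau α β p) + offE α p * lineTrans 0 8 β α (tau α β p) = 0 := by
  have hy := hp.2 h
  have h' : β.2 ≠ α.2 := fun e => h e.symm
  unfold offE lineTrans
  rw [tau_zero, tau_one, if_neg h, if_neg h, if_neg h', sE_neg h,
    cP_y (sE α.2) α.1 (p 0) hy]
  by_cases h1 : α.1 = β.1
  · rw [if_pos h1, if_pos h1, if_pos h1.symm, ← h1]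
    simp only [zpow_neg, inv_zpow]
    norm_cast
    field_simp
    ring
  · rw [if_neg h1, if_neg h1, if_neg (fun e => h1 e.symm),
      cP_x (-sE α.2) h1 (hp.1 h1)]
    have hx := hp.1 h1
    simp only [zpow_neg, inv_zpow]
    norm_cast
    field_simp
    ring

theorem differentiableOn_offE {α β : Chart} (h : α.2 ≠ β.2) :
    DifferentiableOn ℂ (offE α) (overlap α β) := by
  unfold offE
  refine DifferentiableOn.mul ?_ (Differentiable.differentiableOn ?_)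
  · intro p hp
    exact ((differentiableAt_apply 1 p).zpow (Or.inl (hp.2 h))).differentiableWithinAt
  · unfold cP cE0 cE1 cE2
    have h0 : Differentiable ℂ (fun p : Fin 2 → ℂ => p 0) := differentiable_apply 0
    have h1 : Differentiable ℂ (fun p : Fin 2 → ℂ => p 1) := differentiable_apply 1
    split_ifs
    · fun_prop
    · fun_prop

theorem lineTrans_zero_eight (β γ δ : Chart) (h : γ.2 = δ.2) (p : Fin 2 → ℂ) :
    lineTrans 0 8 β γ p = lineTrans 0 8 β δ p := by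
  unfold lineTrans
  rw [h]; simp

theorem isHoloCocycle_gE : IsHoloCocycle gE where
  refl α p := by
    ext i j
    fin_cases i <;> fin_cases j
    · simp [gE, lineTrans_self]
    · simp [gE]
    · simp [gE]
    · simp [gE, lineTrans_self]
  holo α β i j := by
    fin_cases i <;> fin_cases j
    · exact differentiableOn_lineTrans 2 (-4) α β
    · change DifferentiableOn ℂ (fun p => if α.2 = β.2 then 0 else offE α p) (overlap α β)
      split_ifs with h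
      · exact differentiableOn_const _
      · exact differentiableOn_offE h
    · exact differentiableOn_const _
    · exact differentiableOn_lineTrans 0 8 α β
  cocycle α β γ p hp := by
    have k1 := lineTrans_cocycle' 2 (-4) γ hp.1
    have k2 := lineTrans_cocycle' 0 8 γ hp.1
    ext i j
    fin_cases i <;> fin_cases j
    · simpa [gE, Matrix.mul_apply, Fin.sum_univ_two] using k1
    · have key : lineTrans 2 (-4) α β p * (if β.2 = γ.2 then 0 else offE β (tau α β p)) +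
          (if α.2 = β.2 then 0 else offE α p) * lineTrans 0 8 β γ (tau α β p) =
          (if α.2 = γ.2 then 0 else offE α p) := by
        by_cases h1 : α.2 = β.2
        · by_cases h2 : β.2 = γ.2
          · rw [if_pos h2, if_pos h1, if_pos (h1.trans h2)]; ring
          · rw [if_neg h2, if_pos h1, if_neg (h1 ▸ h2), offE_same h1 hp.1]; ring
        · by_cases h2 : β.2 = γ.2
          · rw [if_pos h2, if_neg h1, if_neg (h2 ▸ h1), lineTrans_zero_eight β γ β h2.symm,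
              lineTrans_self]; ring
          · have h3 : α.2 = γ.2 := by omega
            rw [if_neg h2, if_neg h1, if_pos h3, lineTrans_zero_eight β γ α h3.symm]
            exact offE_flip h1 hp.1
      simpa [gE, Matrix.mul_apply, Fin.sum_univ_two] using key
    · simp [gE, Matrix.mul_apply, Fin.sum_univ_two]
    · simpa [gE, Matrix.mul_apply, Fin.sum_univ_two] using k2

/-! ### the second dual section -/

/-- `fE` is a section of `O(2,4)`. -/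
theorem fE_trans {α β : Chart} {p : Fin 2 → ℂ} (hp : p ∈ overlap α β) :
    fE α p = lineTrans 2 4 α β p * fE β (tau α β p) := by
  unfold fE lineTrans
  rw [tau_zero, tau_one]
  have e2 : (p 0 : ℂ) ^ (2 : ℤ) = p 0 ^ 2 := by norm_cast
  have e4 : (p 1 : ℂ) ^ (4 : ℤ) = p 1 ^ 4 := by norm_cast
  rw [e2, e4]
  by_cases h1 : α.1 = β.1
  · by_cases h2 : α.2 = β.2
    · simp only [h1, h2, if_true]; ring
    · rw [if_pos h1, if_pos h1, if_neg h2, if_neg h2, sE_neg h2, fP_y _ _ _ (hp.2 h2), h1]; ring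
  · by_cases h2 : α.2 = β.2
    · rw [if_neg h1, if_neg h1, if_pos h2, if_pos h2, h2, fP_x _ h1 (hp.1 h1)]; ring
    · rw [if_neg h1, if_neg h1, if_neg h2, if_neg h2, sE_neg h2, fP_y _ _ _ (hp.2 h2),
        fP_x _ h1 (hp.1 h1)]; ring

/-- first component of the transformation rule of `s2 = (fE, vE)`. -/
theorem sec2_zero {α β : Chart} {p : Fin 2 → ℂ} (hp : p ∈ overlap α β) :
    fE α p * gE α β p 0 0 + vE α p * gE α β p 1 0 =
      lineTrans 4 0 α β p * fE β (tau α β p) := by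
  rw [gE_zero_zero, gE_one_zero, fE_trans hp, mul_zero, add_zero]
  have := lineTrans_mul 2 4 2 (-4) hp
  norm_num at this
  linear_combination fE β (tau α β p) * this

/-- second component of the transformation rule of `s2 = (fE, vE)`. -/
theorem sec2_one {α β : Chart} {p : Fin 2 → ℂ} (hp : p ∈ overlap α β) :
    fE α p * gE α β p 0 1 + vE α p * gE α β p 1 1 =
      lineTrans 4 0 α β p * vE β (tau α β p) := by
  rw [gE_zero_one, gE_one_one]
  unfold fE vE offE lineTrans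
  rw [tau_zero, tau_one]
  have e4 : (p 0 : ℂ) ^ (4 : ℤ) = p 0 ^ 4 := by norm_cast
  have e8 : (p 1 : ℂ) ^ (8 : ℤ) = p 1 ^ 8 := by norm_cast
  simp only [zpow_zero, ite_self, one_mul, mul_one, e4, e8]
  by_cases h2 : α.2 = β.2
  · by_cases h1 : α.1 = β.1
    · simp only [h1, h2, if_true]; ring
    · rw [if_neg h1, if_neg h1, if_pos h2, if_pos h2, if_pos h2, h2, vP_x _ h1 (hp.1 h1)]; ring
  · have hy := hp.2 h2
    rw [if_neg h2, if_neg h2, if_neg h2, sE_neg h2]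
    have key := key_y (sE_sq α.2) α.1 (p 0) hy
    have e3 : (p 1 : ℂ) ^ (-3 : ℤ) = (p 1 ^ 3)⁻¹ := by rw [zpow_neg]; norm_cast
    have h4 : fP (sE α.2) α.1 (p 0) (p 1) * ((p 1) ^ (-3 : ℤ) * cP (sE α.2) α.1 (p 0) (p 1)) +
        vP (sE α.2) α.1 (p 0) (p 1) * p 1 ^ 8 = vP (-sE α.2) α.1 (p 0) (p 1)⁻¹ := by
      rw [e3]
      have hy4 : p 1 ^ 4 ≠ 0 := pow_ne_zero _ hy
      apply mul_left_cancel₀ hy4
      rw [← key]
      field_simp
    rw [h4]
    by_cases h1 : α.1 = β.1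
    · rw [if_pos h1, if_pos h1, h1]; ring
    · rw [if_neg h1, if_neg h1, vP_x _ h1 (hp.1 h1)]

/-! ### the value of `vE` on the curve (chart `(·, b)`, `x`-chart `0`) -/

/-- on `C1` (`2 x y = 1 + y²`), `v = (2 y)⁻⁴ = (x - y/2)⁴`. -/
theorem vP_C1 (s x y : ℂ) : vP s 0 x y = (x - y / 2) ^ 4 + f1P 0 x y *
    ((-17) + (1/16) * y ^ 2 + (643/32) * x * y + (-39/8) * x ^ 2 + (51/32) * x ^ 3 * y
    + (12) * s + (-463/32) * s * x * y + (117/32) * s * x ^ 2 + (-19/16) * s * x ^ 3 * y) := by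
  simp only [f1P, vP, nE0, nE1, nE2, nE3, nE4, if_true]
  ring

theorem vP_C1_mul {s x y : ℂ} (h : f1P 0 x y = 0) : vP s 0 x y * (2 * y) ^ 4 = 1 := by
  rw [vP_C1, h, zero_mul, add_zero]
  simp only [f1P, if_true] at h
  have h1 : (x - y / 2) * (2 * y) = 1 := by linear_combination h
  rw [← mul_pow, h1, one_pow]

/-- on `C2` (`x (μ - y²/μ) = 2 y`), `v = (μ - y²/μ)⁻⁴ = (1/μ + x y/(2 μ²))⁴`. -/
theorem vP_C2 {s : ℂ} (hs : s ^ 2 = 2) (x y : ℂ) :
    vP s 0 x y = ((s - 1) + (3/2 - s) * (x * y)) ^ 4 + f2P s 0 x y *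
    ((-271/32) * y + (-195/16) * x + (1163/32) * x ^ 2 * y + (-1) * x ^ 3
    + (-239/16) * x ^ 3 * y ^ 2 + (6) * s * y + (273/32) * s * x + (-827/32) * s * x ^ 2 * y
    + (1) * s * x ^ 3 + (169/16) * s * x ^ 3 * y ^ 2) := by
  simp only [f2P, vP, nE0, nE1, nE2, nE3, nE4, if_true]
  linear_combination ((-8) + (32) * x * y + (6) * x * y ^ 3 + (-273/32) * x ^ 2
    + (-1887/32) * x ^ 2 * y ^ 2
    + (827/32) * x ^ 3 * y + (869/32) * x ^ 3 * y ^ 3 + (-1) * x ^ 4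
    + (-153/16) * x ^ 4 * y ^ 2 + (-79/16) * x ^ 4 * y ^ 4 + (4) * s + (-18) * s * x * y
    + (30) * s * x ^ 2 * y ^ 2 + (-22) * s * x ^ 3 * y ^ 3 + (6) * s * x ^ 4 * y ^ 4
    + (-1) * s ^ 2 + (4) * s ^ 2 * x * y + (-6) * s ^ 2 * x ^ 2 * y ^ 2
    + (4) * s ^ 2 * x ^ 3 * y ^ 3 + (-1) * s ^ 2 * x ^ 4 * y ^ 4) * hs

theorem vP_C2_mul {s x y : ℂ} (hs : s ^ 2 = 2) (h : f2P s 0 x y = 0) :
    vP s 0 x y * ((1 + s) - (s - 1) * y ^ 2) ^ 4 = 1 := by
  rw [vP_C2 hs, h, zero_mul, add_zero]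
  simp only [f2P, if_true] at h
  have h1 : ((s - 1) + (3/2 - s) * (x * y)) * ((1 + s) - (s - 1) * y ^ 2) = 1 := by
    linear_combination (3/2 - s) * y * h + (1 - y ^ 2) * hs
  rw [← mul_pow, h1, one_pow]

end Crest.Agent.R258.B375
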