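import Mathlib

/-!
Circle means of `C²` functions with non-negative Laplacian on the punctured plane.

Main results (namespace `Crest.Agent.R258`):
* `convexOn_cmean` : if `f : ℂ → ℝ` is `C²` at every `z ≠ 0` and has non-negative Levi form there
  (`lap2 f z v = D²f(z)(v,v) + D²f(z)(iv,iv) ≥ 0`), then `t ↦ cmean f t` (mean of `f` on the circle
  of radius `exp t`) is convex on all of `ℝ`.
* `monotone_cmean` : if moreover `f` is continuous at `0` it is monotone, and `f 0 ≤ cmean f t`.
-/

namespace Crest.Agent.R258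

open MeasureTheory Complex Set Filter Topology
open scoped Real

noncomputable section

/-- The second derivative form of `f` at `z` in the complex direction `v` (four times Levi form). -/
def lap2 (f : ℂ → ℝ) (z v : ℂ) : ℝ :=
  fderiv ℝ (fderiv ℝ f) z v v + fderiv ℝ (fderiv ℝ f) z (I * v) (I * v)

/-- The point of the circle of radius `exp t` at angle `θ`. -/
def pol (t θ : ℝ) : ℂ := Complex.exp (t + θ * I)

/-- Circle mean in logarithmic radius. -/
def cmean (f : ℂ → ℝ) (t : ℝ) : ℝ := (2 * π)⁻¹ * ∫ θ in (0:ℝ)..(2 * π), f (pol t θ)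

lemma pol_ne_zero (t θ : ℝ) : pol t θ ≠ 0 := Complex.exp_ne_zero _

lemma pol_add_two_pi (t θ : ℝ) : pol t (θ + 2 * π) = pol t θ := by
  unfold pol
  have : ((t : ℂ) + ((θ + 2 * π : ℝ) : ℂ) * I) = (t + θ * I) + 2 * π * I := by
    push_cast; ring
  rw [this, Complex.exp_add, Complex.exp_two_pi_mul_I, mul_one]

lemma norm_pol (t θ : ℝ) : ‖pol t θ‖ = Real.exp t := by
  unfold pol
  rw [Complex.norm_exp]
  simp

lemma pol_eq (t θ : ℝ) : pol t θ = (Real.exp t : ℂ) * Complex.exp (θ * I) := by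
  unfold pol
  rw [Complex.exp_add, Complex.ofReal_exp]

lemma hasDerivAt_pol_left (t θ : ℝ) : HasDerivAt (fun t : ℝ => pol t θ) (pol t θ) t := by
  have h1 : HasDerivAt (fun t : ℝ => ((t : ℂ) + (θ : ℂ) * I)) 1 t := by
    simpa using (Complex.ofRealCLM.hasDerivAt (x := t)).add_const ((θ : ℂ) * I)
  simpa [pol] using h1.cexp

lemma hasDerivAt_pol_right (t θ : ℝ) : HasDerivAt (fun θ : ℝ => pol t θ) (I * pol t θ) θ := by
  have h1 : HasDerivAt (fun θ : ℝ => ((t : ℂ) + (θ : ℂ) * I)) (1 * I) θ := by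
    have := ((Complex.ofRealCLM.hasDerivAt (x := θ)).mul_const I).const_add (t : ℂ)
    simpa using this
  have := h1.cexp
  simpa [pol, mul_comm] using this

lemma continuous_pol : Continuous (fun p : ℝ × ℝ => pol p.1 p.2) := by
  unfold pol; fun_prop

section C2

variable {f : ℂ → ℝ} (hf : ∀ z, z ≠ 0 → ContDiffAt ℝ 2 f z)
include hf

lemma hasFDerivAt_of_ne {z : ℂ} (hz : z ≠ 0) : HasFDerivAt f (fderiv ℝ f z) z :=
  ((hf z hz).differentiableAt (by norm_num)).hasFDerivAt

lemma contDiffAt_fderiv {z : ℂ} (hz : z ≠ 0) : ContDiffAt ℝ 1 (fderiv ℝ f) z :=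
  (hf z hz).fderiv_right (m := 1) (by norm_num)

lemma hasFDerivAt_fderiv {z : ℂ} (hz : z ≠ 0) :
    HasFDerivAt (fderiv ℝ f) (fderiv ℝ (fderiv ℝ f) z) z :=
  ((contDiffAt_fderiv hf hz).differentiableAt (by norm_num)).hasFDerivAt

lemma hasDerivAt_comp_left (t θ : ℝ) :
    HasDerivAt (fun t : ℝ => f (pol t θ)) (fderiv ℝ f (pol t θ) (pol t θ)) t :=
  (hasFDerivAt_of_ne hf (pol_ne_zero t θ)).comp_hasDerivAt t (hasDerivAt_pol_left t θ)

lemma hasDerivAt_comp_left2 (t θ : ℝ) :
    HasDerivAt (fun t : ℝ => fderiv ℝ f (pol t θ) (pol t θ))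
      (fderiv ℝ (fderiv ℝ f) (pol t θ) (pol t θ) (pol t θ) + fderiv ℝ f (pol t θ) (pol t θ)) t := by
  have h1 : HasDerivAt (fun t : ℝ => fderiv ℝ f (pol t θ))
      (fderiv ℝ (fderiv ℝ f) (pol t θ) (pol t θ)) t :=
    (hasFDerivAt_fderiv hf (pol_ne_zero t θ)).comp_hasDerivAt t (hasDerivAt_pol_left t θ)
  exact h1.clm_apply (hasDerivAt_pol_left t θ)

lemma hasDerivAt_comp_right2 (t θ : ℝ) :
    HasDerivAt (fun θ : ℝ => fderiv ℝ f (pol t θ) (I * pol t θ))
      (fderiv ℝ (fderiv ℝ f) (pol t θ) (I * pol t θ) (I * pol t θ)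
        - fderiv ℝ f (pol t θ) (pol t θ)) θ := by
  have h1 : HasDerivAt (fun θ : ℝ => fderiv ℝ f (pol t θ))
      (fderiv ℝ (fderiv ℝ f) (pol t θ) (I * pol t θ)) θ :=
    (hasFDerivAt_fderiv hf (pol_ne_zero t θ)).comp_hasDerivAt θ (hasDerivAt_pol_right t θ)
  have h2 : HasDerivAt (fun θ : ℝ => I * pol t θ) (-pol t θ) θ := by
    refine ((hasDerivAt_pol_right t θ).const_mul I).congr_deriv ?_
    rw [← mul_assoc, I_mul_I]; ring
  refine (h1.clm_apply h2).congr_deriv ?_
  rw [map_neg]; ring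

lemma continuous_comp_pol : Continuous (fun p : ℝ × ℝ => f (pol p.1 p.2)) := by
  rw [continuous_iff_continuousAt]
  intro p
  exact ContinuousAt.comp (g := f) (hf _ (pol_ne_zero _ _)).continuousAt
    continuous_pol.continuousAt

lemma continuous_fderiv_pol : Continuous (fun p : ℝ × ℝ => fderiv ℝ f (pol p.1 p.2)) := by
  rw [continuous_iff_continuousAt]
  intro p
  exact ContinuousAt.comp (g := fderiv ℝ f) (contDiffAt_fderiv hf (pol_ne_zero _ _)).continuousAt
    continuous_pol.continuousAt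

lemma continuous_fderiv2_pol :
    Continuous (fun p : ℝ × ℝ => fderiv ℝ (fderiv ℝ f) (pol p.1 p.2)) := by
  rw [continuous_iff_continuousAt]
  intro p
  have h : ContDiffAt ℝ 0 (fderiv ℝ (fderiv ℝ f)) (pol p.1 p.2) :=
    (contDiffAt_fderiv hf (pol_ne_zero p.1 p.2)).fderiv_right (m := 0) (by norm_num)
  exact ContinuousAt.comp (g := fderiv ℝ (fderiv ℝ f)) h.continuousAt continuous_pol.continuousAt

end C2

/-- Differentiation under the integral sign over a compact interval, continuous derivative. -/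
lemma hasDerivAt_integral_param {G G' : ℝ → ℝ → ℝ} {a b : ℝ}
    (hG : Continuous (fun p : ℝ × ℝ => G p.1 p.2))
    (hG' : Continuous (fun p : ℝ × ℝ => G' p.1 p.2))
    (h : ∀ t θ, HasDerivAt (fun t => G t θ) (G' t θ) t) (t₀ : ℝ) :
    HasDerivAt (fun t => ∫ θ in a..b, G t θ) (∫ θ in a..b, G' t₀ θ) t₀ := by
  have hK : IsCompact (Icc (t₀ - 1) (t₀ + 1) ×ˢ uIcc a b) := isCompact_Icc.prod isCompact_uIcc
  obtain ⟨C, hC⟩ := hK.exists_bound_of_continuousOn (f := fun p : ℝ × ℝ => G' p.1 p.2)
    hG'.continuousOn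
  have hs : Icc (t₀ - 1) (t₀ + 1) ∈ 𝓝 t₀ := Icc_mem_nhds (by linarith) (by linarith)
  refine (intervalIntegral.hasDerivAt_integral_of_dominated_loc_of_deriv_le
    (bound := fun _ => C) hs ?_ ?_ ?_ ?_ ?_ ?_).2
  · refine Eventually.of_forall fun t => ?_
    exact (hG.comp (by fun_prop : Continuous fun θ : ℝ => (t, θ))).aestronglyMeasurable
  · exact (hG.comp (by fun_prop : Continuous fun θ : ℝ => (t₀, θ))).intervalIntegrable _ _
  · exact (hG'.comp (by fun_prop : Continuous fun θ : ℝ => (t₀, θ))).aestronglyMeasurable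
  · refine Eventually.of_forall fun θ hθ t ht => ?_
    exact hC (t, θ) ⟨ht, uIoc_subset_uIcc hθ⟩
  · exact intervalIntegrable_const
  · exact Eventually.of_forall fun θ _ t _ => h t θ

section main

variable {f : ℂ → ℝ} (hf : ∀ z, z ≠ 0 → ContDiffAt ℝ 2 f z)
include hf

lemma hasDerivAt_cmean (t : ℝ) :
    HasDerivAt (cmean f) ((2 * π)⁻¹ * ∫ θ in (0:ℝ)..(2 * π), fderiv ℝ f (pol t θ) (pol t θ)) t := by
  unfold cmean
  refine HasDerivAt.const_mul _ (hasDerivAt_integral_param (G := fun t θ => f (pol t θ))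
    (G' := fun t θ => fderiv ℝ f (pol t θ) (pol t θ)) (continuous_comp_pol hf) ?_
    (fun t θ => hasDerivAt_comp_left hf t θ) t)
  exact (continuous_fderiv_pol hf).clm_apply continuous_pol

lemma hasDerivAt_deriv_cmean (t : ℝ) :
    HasDerivAt (deriv (cmean f))
      ((2 * π)⁻¹ * ∫ θ in (0:ℝ)..(2 * π), lap2 f (pol t θ) (pol t θ)) t := by
  have h0 : deriv (cmean f) = fun t => (2 * π)⁻¹ * ∫ θ in (0:ℝ)..(2 * π),
      fderiv ℝ f (pol t θ) (pol t θ) := by
    funext t; exact (hasDerivAt_cmean hf t).deriv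
  rw [h0]
  have c1 : Continuous (fun p : ℝ × ℝ => fderiv ℝ f (pol p.1 p.2) (pol p.1 p.2)) :=
    (continuous_fderiv_pol hf).clm_apply continuous_pol
  have c2 : Continuous (fun p : ℝ × ℝ =>
      fderiv ℝ (fderiv ℝ f) (pol p.1 p.2) (pol p.1 p.2) (pol p.1 p.2)) :=
    ((continuous_fderiv2_pol hf).clm_apply continuous_pol).clm_apply continuous_pol
  have c3 : Continuous (fun p : ℝ × ℝ =>
      fderiv ℝ (fderiv ℝ f) (pol p.1 p.2) (I * pol p.1 p.2) (I * pol p.1 p.2)) :=
    ((continuous_fderiv2_pol hf).clm_apply (continuous_const.mul continuous_pol)).clm_apply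
      (continuous_const.mul continuous_pol)
  have key := HasDerivAt.const_mul ((2 * π)⁻¹) (hasDerivAt_integral_param
    (a := 0) (b := 2 * π)
    (G := fun t θ => fderiv ℝ f (pol t θ) (pol t θ))
    (G' := fun t θ => fderiv ℝ (fderiv ℝ f) (pol t θ) (pol t θ) (pol t θ)
      + fderiv ℝ f (pol t θ) (pol t θ)) c1 (c2.add c1)
    (fun t θ => hasDerivAt_comp_left2 hf t θ) t)
  refine key.congr_deriv ?_
  congr 1
  -- the integral of the angular second derivative vanishes
  have hp : ∀ g : ℝ × ℝ → ℝ, Continuous g → Continuous (fun θ : ℝ => g (t, θ)) := fun g hg =>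
    hg.comp (by fun_prop : Continuous fun θ : ℝ => (t, θ))
  have hz : ∫ θ in (0:ℝ)..(2 * π), (fderiv ℝ (fderiv ℝ f) (pol t θ) (I * pol t θ) (I * pol t θ)
        - fderiv ℝ f (pol t θ) (pol t θ)) = 0 := by
    rw [intervalIntegral.integral_eq_sub_of_hasDerivAt
      (f := fun θ : ℝ => fderiv ℝ f (pol t θ) (I * pol t θ))
      (fun θ _ => hasDerivAt_comp_right2 hf t θ)
      ((((hp _ c3).sub (hp _ c1))).intervalIntegrable _ _)]
    have : pol t (2 * π) = pol t 0 := by
      have := pol_add_two_pi t 0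
      rwa [zero_add] at this
    simp only [this, sub_self]
  have i1 := (hp _ c1).intervalIntegrable (μ := volume) 0 (2 * π)
  have i2 := (hp _ c2).intervalIntegrable (μ := volume) 0 (2 * π)
  have i3 := (hp _ c3).intervalIntegrable (μ := volume) 0 (2 * π)
  rw [intervalIntegral.integral_sub i3 i1] at hz
  unfold lap2
  rw [intervalIntegral.integral_add i2 i3, intervalIntegral.integral_add i2 i1]
  linarith

/-- Circle means of a `C²` function on the punctured plane with non-negative Levi form are convex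
functions of the logarithm of the radius. -/
theorem convexOn_cmean (hlap : ∀ z, z ≠ 0 → ∀ v, 0 ≤ lap2 f z v) :
    ConvexOn ℝ univ (cmean f) := by
  refine convexOn_of_deriv2_nonneg convex_univ ?_ ?_ ?_ ?_
  · exact (continuous_iff_continuousAt.2 fun t =>
      (hasDerivAt_cmean hf t).continuousAt).continuousOn
  · intro t _; exact (hasDerivAt_cmean hf t).differentiableAt.differentiableWithinAt
  · intro t _; exact (hasDerivAt_deriv_cmean hf t).differentiableAt.differentiableWithinAt
  · intro t _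
    simp only [Function.iterate_succ, Function.iterate_zero, Function.comp_apply, id]
    rw [(hasDerivAt_deriv_cmean hf t).deriv]
    refine mul_nonneg (by positivity) ?_
    exact intervalIntegral.integral_nonneg (by positivity)
      (fun θ _ => hlap _ (pol_ne_zero _ _) _)

lemma continuous_cmean : Continuous (cmean f) :=
  continuous_iff_continuousAt.2 fun t => (hasDerivAt_cmean hf t).continuousAt

end main

lemma cmean_const (c t : ℝ) : cmean (fun _ => c) t = c := by
  unfold cmean
  rw [intervalIntegral.integral_const, sub_zero, smul_eq_mul]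
  field_simp

/-- If `f ≤ g` on the circle of radius `exp t` then the means are ordered. -/
lemma cmean_mono {f g : ℂ → ℝ} {t : ℝ} (hf : Continuous fun θ : ℝ => f (pol t θ))
    (hg : Continuous fun θ : ℝ => g (pol t θ))
    (h : ∀ θ, f (pol t θ) ≤ g (pol t θ)) : cmean f t ≤ cmean g t := by
  unfold cmean
  refine mul_le_mul_of_nonneg_left ?_ (by positivity)
  exact intervalIntegral.integral_mono_on (by positivity) (hf.intervalIntegrable _ _)
    (hg.intervalIntegrable _ _) (fun θ _ => h θ)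

lemma cmean_le_of_le {f : ℂ → ℝ} {t c : ℝ} (hf : Continuous fun θ : ℝ => f (pol t θ))
    (h : ∀ θ, f (pol t θ) ≤ c) : cmean f t ≤ c := by
  rw [← cmean_const c t]
  exact cmean_mono hf continuous_const h

lemma le_cmean_of_le {f : ℂ → ℝ} {t c : ℝ} (hf : Continuous fun θ : ℝ => f (pol t θ))
    (h : ∀ θ, c ≤ f (pol t θ)) : c ≤ cmean f t := by
  conv_lhs => rw [← cmean_const c t]
  exact cmean_mono continuous_const hf h

lemma cmean_nonneg {f : ℂ → ℝ} {t : ℝ} (h : ∀ z, 0 ≤ f z) : 0 ≤ cmean f t := by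
  unfold cmean
  exact mul_nonneg (by positivity)
    (intervalIntegral.integral_nonneg (by positivity) fun θ _ => h _)

/-- Circle means converge to the central value as the radius tends to `0`. -/
lemma tendsto_cmean_atBot {f : ℂ → ℝ} (hc : ContinuousAt f 0)
    (hf : ∀ z, z ≠ 0 → ContinuousAt f z) : Tendsto (cmean f) atBot (𝓝 (f 0)) := by
  have hcirc : ∀ t : ℝ, Continuous fun θ : ℝ => f (pol t θ) := fun t => by
    rw [continuous_iff_continuousAt]
    intro θ
    exact ContinuousAt.comp (g := f) (hf _ (pol_ne_zero _ _))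
      (hasDerivAt_pol_right t θ).continuousAt
  rw [Metric.tendsto_nhds]
  intro ε hε
  obtain ⟨δ, hδ, hδ'⟩ := Metric.continuousAt_iff.1 hc (ε / 2) (by linarith)
  have : ∀ᶠ t : ℝ in atBot, Real.exp t < δ :=
    (Real.tendsto_exp_atBot.eventually_lt_const hδ)
  filter_upwards [this] with t ht
  have hz : ∀ θ, |f (pol t θ) - f 0| < ε / 2 := fun θ => by
    have := hδ' (x := pol t θ) (by rw [dist_zero_right, norm_pol]; exact ht)
    rwa [Real.dist_eq] at this
  have h1 : cmean f t ≤ f 0 + ε / 2 :=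
    cmean_le_of_le (hcirc t) fun θ => by have := (abs_lt.1 (hz θ)).2; linarith
  have h2 : f 0 - ε / 2 ≤ cmean f t :=
    le_cmean_of_le (hcirc t) fun θ => by have := (abs_lt.1 (hz θ)).1; linarith
  rw [Real.dist_eq, abs_lt]
  constructor <;> linarith

/-- A convex function on `ℝ` with a finite limit at `-∞` is monotone. -/
lemma monotone_of_convexOn_of_tendsto {φ : ℝ → ℝ} (hφ : ConvexOn ℝ univ φ) {c : ℝ}
    (hc : Tendsto φ atBot (𝓝 c)) : Monotone φ := by
  intro a b hab
  by_contra hlt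
  rw [not_le] at hlt
  have hab' : a < b := lt_of_le_of_ne hab (by rintro rfl; exact lt_irrefl _ hlt)
  -- the slope `s < 0` at `(a, b)` bounds `φ` below by a decreasing line to the left of `a`
  set s := (φ b - φ a) / (b - a) with hs
  have hs0 : s < 0 := div_neg_of_neg_of_pos (by linarith) (by linarith)
  have hline : ∀ x < a, φ a + s * (x - a) ≤ φ x := by
    intro x hx
    have h3 := hφ.slope_mono_adjacent (mem_univ x) (mem_univ b) hx hab'
    rw [← hs, div_le_iff₀ (by linarith)] at h3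
    nlinarith
  have hbig : Tendsto (fun x => φ a + s * (x - a)) atBot atTop := by
    have h1 : Tendsto (fun x : ℝ => x - a) atBot atBot := tendsto_atBot_add_const_right _ _ tendsto_id
    exact tendsto_atTop_add_const_left _ _ (h1.const_mul_atBot_of_neg hs0)
  have hcontra : Tendsto φ atBot atTop := by
    refine tendsto_atTop_mono' _ ?_ hbig
    filter_upwards [eventually_lt_atBot a] with x hx using hline x hx
  exact not_tendsto_nhds_of_tendsto_atTop hcontra c hc

/-- Circle means of a function which is `C²` off `0`, continuous at `0` and has non-negative Levi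
form off `0` are monotone in the radius. -/
theorem monotone_cmean {f : ℂ → ℝ} (hf : ∀ z, z ≠ 0 → ContDiffAt ℝ 2 f z)
    (hc : ContinuousAt f 0) (hlap : ∀ z, z ≠ 0 → ∀ v, 0 ≤ lap2 f z v) : Monotone (cmean f) :=
  monotone_of_convexOn_of_tendsto (convexOn_cmean hf hlap)
    (tendsto_cmean_atBot hc fun z hz => (hf z hz).continuousAt)

/-- Sub-mean value property. -/
theorem le_cmean {f : ℂ → ℝ} (hf : ∀ z, z ≠ 0 → ContDiffAt ℝ 2 f z)
    (hc : ContinuousAt f 0) (hlap : ∀ z, z ≠ 0 → ∀ v, 0 ≤ lap2 f z v) (t : ℝ) :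
    f 0 ≤ cmean f t :=
  (monotone_cmean hf hc hlap).le_of_tendsto
    (tendsto_cmean_atBot hc fun z hz => (hf z hz).continuousAt) t

end

end Crest.Agent.R258
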