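import Mathlib

/-!
Row 258 (S0396): relaxed limits.

From a sequence of families `P N, Q N, E N : ℂ → ℂ → ℝ` (think: the dual norms of the three
functionals `s₁, s₂, e`, pushed forward to `X = x ^ (N+1)`, `Y = y ^ (N+1)` and normalised)
satisfying the triangle inequalities, growth bounds, near constancy and maximum principles
(`RelData`), we produce two functions `A, B : ℂ → ℝ` satisfying the exact relations of the limit.
-/

set_option autoImplicit false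

open Filter Topology Set

namespace Crest.Agent.R258

/-- Input data of the relaxed limit. -/
structure RelData (f v : ℂ → ℂ → ℂ) (P Q E : ℕ → ℂ → ℂ → ℝ) : Prop where
  P_nonneg : ∀ N X Y, 0 ≤ P N X Y
  Q_nonneg : ∀ N X Y, 0 ≤ Q N X Y
  E_nonneg : ∀ N X Y, 0 ≤ E N X Y
  tri1 : ∀ N X Y, Q N X Y ≤ ‖v X Y‖ * P N X Y + ‖f X Y‖ * E N X Y
  tri2 : ∀ N X Y, ‖v X Y‖ * P N X Y ≤ Q N X Y + ‖f X Y‖ * E N X Y
  tri3 : ∀ N X Y, ‖f X Y‖ * E N X Y ≤ Q N X Y + ‖v X Y‖ * P N X Y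
  growthP : ∀ N (ρ : ℝ) X Y, 1 ≤ ρ → ‖X‖ ≤ ρ → ‖Y‖ ≤ ρ → P N X Y ≤ ρ ^ 12
  growthQ : ∀ N (ρ : ℝ) X Y, 1 ≤ ρ → ‖X‖ ≤ ρ → ‖Y‖ ≤ ρ → Q N X Y ≤ ρ ^ 12
  ncP : ∀ N (X' Y : ℂ) (ε m : ℝ), 0 < ε → 0 ≤ m →
    (∀ X, dist X X' ≤ ε → P N X Y ≤ m) →
    ∀ X, ε ≤ dist X X' → P N X Y ≤ m * (dist X X' / ε) ^ ((2 : ℝ) / ((N : ℝ) + 1))
  ncQ : ∀ N (X Y' : ℂ) (ε m : ℝ), 0 < ε → 0 ≤ m →
    (∀ Y, dist Y Y' ≤ ε → Q N X Y ≤ m) →
    ∀ Y, ε ≤ dist Y Y' → Q N X Y ≤ m * (dist Y Y' / ε) ^ ((2 : ℝ) / ((N : ℝ) + 1))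
  mpE : ∀ N (Y : ℂ) (R m : ℝ), 0 < R → (∀ X : ℂ, ‖X‖ = R → E N X Y ≤ m) →
    ∀ X : ℂ, ‖X‖ ≤ R → E N X Y ≤ m
  mpQ : ∀ N (Y : ℂ) (m : ℝ), (∀ X : ℂ, ‖X‖ = 1 → Q N X Y ≤ m) →
    ∀ X : ℂ, ‖X‖ ≤ 1 → Q N X Y ≤ m
  mpP : ∀ N (X : ℂ) (m : ℝ), (∀ Y : ℂ, ‖Y‖ = 1 → P N X Y ≤ m) →
    ∀ Y : ℂ, ‖Y‖ ≤ 1 → P N X Y ≤ m
  annQ : ∀ N (Y : ℂ) (r R m : ℝ), 0 < r → r < R →
    (∀ X : ℂ, ‖X‖ = r → Q N X Y ≤ m * r ^ 2) → (∀ X : ℂ, ‖X‖ = R → Q N X Y ≤ m * R ^ 2) →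
    ∀ X : ℂ, r ≤ ‖X‖ → ‖X‖ ≤ R → Q N X Y ≤ m * ‖X‖ ^ 2
  norm : ∀ N (a b : ℝ), (∀ X Y : ℂ, ‖X‖ ≤ 1 → ‖Y‖ ≤ 1 → P N X Y ≤ a) →
    (∀ X Y : ℂ, ‖X‖ ≤ 1 → ‖Y‖ ≤ 1 → Q N X Y ≤ b) → 1 ≤ a + b

/-- Output data of the relaxed limit. -/
structure LimData (f v : ℂ → ℂ → ℂ) (A B : ℂ → ℝ) : Prop where
  A_nonneg : ∀ Y, 0 ≤ A Y
  B_nonneg : ∀ X, 0 ≤ B X
  growthA : ∀ (ρ : ℝ) (Y : ℂ), 1 ≤ ρ → ‖Y‖ ≤ ρ → A Y ≤ ρ ^ 12
  growthB : ∀ (ρ : ℝ) (X : ℂ), 1 ≤ ρ → ‖X‖ ≤ ρ → B X ≤ ρ ^ 12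
  rel : ∀ X Y, f X Y = 0 → v X Y ≠ 0 → B X = ‖v X Y‖ * A Y
  annB : ∀ (r R m : ℝ), 0 < r → r < R → (∀ X : ℂ, ‖X‖ = r → B X ≤ m * r ^ 2) →
    (∀ X : ℂ, ‖X‖ = R → B X ≤ m * R ^ 2) → ∀ X : ℂ, r < ‖X‖ → ‖X‖ < R → B X ≤ m * ‖X‖ ^ 2
  mpB : ∀ m : ℝ, (∀ X : ℂ, ‖X‖ = 1 → B X ≤ m) → ∀ X : ℂ, ‖X‖ ≤ 1 → B X ≤ m
  mpA : ∀ m : ℝ, (∀ Y : ℂ, ‖Y‖ = 1 → A Y ≤ m) → ∀ Y : ℂ, ‖Y‖ ≤ 1 → A Y ≤ m
  nonzero : ¬ ((∀ Y : ℂ, ‖Y‖ ≤ 1 → A Y = 0) ∧ (∀ X : ℂ, ‖X‖ ≤ 1 → B X = 0))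

/-- `F N ≤ a` eventually, uniformly near `(X, Y)`. -/
def EvLe (F : ℕ → ℂ → ℂ → ℝ) (X Y : ℂ) (a : ℝ) : Prop :=
  ∃ ε : ℝ, 0 < ε ∧ ∀ᶠ N in atTop, ∀ X' Y', dist X' X ≤ ε → dist Y' Y ≤ ε → F N X' Y' ≤ a

/-- The relaxed upper limit. -/
noncomputable def rl (F : ℕ → ℂ → ℂ → ℝ) (X Y : ℂ) : ℝ :=
  sInf {a : ℝ | 0 ≤ a ∧ EvLe F X Y a}

variable {F : ℕ → ℂ → ℂ → ℝ}

theorem EvLe.mono {X Y : ℂ} {a b : ℝ} (h : EvLe F X Y a) (hab : a ≤ b) : EvLe F X Y b := by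
  obtain ⟨ε, hε, h⟩ := h
  exact ⟨ε, hε, h.mono fun N hN X' Y' h1 h2 => (hN X' Y' h1 h2).trans hab⟩

theorem rl_nonneg (F : ℕ → ℂ → ℂ → ℝ) (X Y : ℂ) : 0 ≤ rl F X Y :=
  Real.sInf_nonneg fun _ ha => ha.1

theorem rl_le {X Y : ℂ} {a : ℝ} (ha : 0 ≤ a) (h : EvLe F X Y a) : rl F X Y ≤ a :=
  csInf_le ⟨0, fun _ hb => hb.1⟩ ⟨ha, h⟩

/-- local boundedness of the sequence -/
def LocBdd (F : ℕ → ℂ → ℂ → ℝ) : Prop := ∀ X Y, ∃ a, 0 ≤ a ∧ EvLe F X Y a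

theorem EvLe_of_rl_lt (hF : LocBdd F) {X Y : ℂ} {a : ℝ} (h : rl F X Y < a) : EvLe F X Y a := by
  obtain ⟨c, hc⟩ := hF X Y
  obtain ⟨b, hb, hba⟩ := exists_lt_of_csInf_lt (s := {a : ℝ | 0 ≤ a ∧ EvLe F X Y a}) ⟨c, hc⟩ h
  exact hb.2.mono hba.le

theorem rl_le_of_forall {X Y : ℂ} {a : ℝ} (ha : 0 ≤ a)
    (h : ∀ δ > 0, EvLe F X Y (a + δ)) : rl F X Y ≤ a := by
  refine le_of_forall_pos_le_add fun δ hδ => ?_
  exact rl_le (by positivity) (h δ hδ)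

/-- Uniform bound on compact sets. -/
theorem eventually_le_of_compact (hF : LocBdd F) {K : Set (ℂ × ℂ)} (hK : IsCompact K) {a : ℝ}
    (h : ∀ p ∈ K, rl F p.1 p.2 < a) : ∀ᶠ N in atTop, ∀ p ∈ K, F N p.1 p.2 ≤ a := by
  have hloc : ∀ p ∈ K, ∃ t ∈ 𝓝[K] p, ∀ᶠ N in atTop, ∀ q ∈ t, F N q.1 q.2 ≤ a := by
    intro p hp
    obtain ⟨ε, hε, hN⟩ := EvLe_of_rl_lt hF (h p hp)
    refine ⟨Metric.closedBall p ε, mem_nhdsWithin_of_mem_nhds (Metric.closedBall_mem_nhds p hε), ?_⟩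
    refine hN.mono fun N hN q hq => ?_
    rw [Metric.mem_closedBall, Prod.dist_eq, max_le_iff] at hq
    exact hN q.1 q.2 hq.1 hq.2
  refine hK.induction_on (p := fun t => ∀ᶠ N in atTop, ∀ q ∈ t, F N q.1 q.2 ≤ a) ?_ ?_ ?_ hloc
  · simp
  · intro s t hst ht
    exact ht.mono fun N hN q hq => hN q (hst hq)
  · intro s t hs ht
    filter_upwards [hs, ht] with N h1 h2 q hq
    rcases hq with hq | hq
    · exact h1 q hq
    · exact h2 q hq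

theorem tendsto_rpow_two_div (K : ℝ) (hK : 0 < K) :
    Tendsto (fun N : ℕ => K ^ ((2 : ℝ) / ((N : ℝ) + 1))) atTop (𝓝 1) := by
  have h1 : Tendsto (fun N : ℕ => (2 : ℝ) / ((N : ℝ) + 1)) atTop (𝓝 0) := by
    refine Tendsto.div_atTop tendsto_const_nhds ?_
    exact tendsto_atTop_add_const_right _ _ tendsto_natCast_atTop_atTop
  have h2 : Tendsto (fun e : ℝ => K ^ e) (𝓝 0) (𝓝 (K ^ (0 : ℝ))) :=
    (Real.continuousAt_const_rpow hK.ne').tendsto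
  rw [Real.rpow_zero] at h2
  exact h2.comp h1

section

variable {f v : ℂ → ℂ → ℂ} {P Q E : ℕ → ℂ → ℂ → ℝ}

theorem RelData.locBddP (h : RelData f v P Q E) : LocBdd P := by
  intro X Y
  set ρ : ℝ := 1 + (‖X‖ + ‖Y‖ + 1) with hρ
  refine ⟨ρ ^ 12, by positivity, 1, one_pos, Eventually.of_forall fun N X' Y' h1 h2 => ?_⟩
  have hX : ‖X'‖ ≤ ‖X‖ + 1 := by
    have := norm_sub_norm_le X' X
    rw [dist_eq_norm] at h1; linarith
  have hY : ‖Y'‖ ≤ ‖Y‖ + 1 := by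
    have := norm_sub_norm_le Y' Y
    rw [dist_eq_norm] at h2; linarith
  have := norm_nonneg X; have := norm_nonneg Y
  exact h.growthP N ρ X' Y' (by linarith) (by linarith) (by linarith)

theorem RelData.locBddQ (h : RelData f v P Q E) : LocBdd Q := by
  intro X Y
  set ρ : ℝ := 1 + (‖X‖ + ‖Y‖ + 1) with hρ
  refine ⟨ρ ^ 12, by positivity, 1, one_pos, Eventually.of_forall fun N X' Y' h1 h2 => ?_⟩
  have hX : ‖X'‖ ≤ ‖X‖ + 1 := by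
    have := norm_sub_norm_le X' X
    rw [dist_eq_norm] at h1; linarith
  have hY : ‖Y'‖ ≤ ‖Y‖ + 1 := by
    have := norm_sub_norm_le Y' Y
    rw [dist_eq_norm] at h2; linarith
  have := norm_nonneg X; have := norm_nonneg Y
  exact h.growthQ N ρ X' Y' (by linarith) (by linarith) (by linarith)

/-- (L1) one direction -/
theorem RelData.rlP_le (h : RelData f v P Q E) (X X' Y : ℂ) : rl P X Y ≤ rl P X' Y := by
  refine le_of_forall_pos_le_add fun δ hδ => ?_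
  have hnn := rl_nonneg P X' Y
  have hlt : rl P X' Y < rl P X' Y + δ / 2 := by linarith
  obtain ⟨ε, hε, hN⟩ := EvLe_of_rl_lt h.locBddP hlt
  set a := rl P X' Y + δ / 2 with ha
  have ha0 : 0 < a := by positivity
  set K : ℝ := (dist X X' + ε) / ε with hK
  have hK1 : 1 ≤ K := by
    rw [hK, le_div_iff₀ hε]; linarith [dist_nonneg (x := X) (y := X')]
  have hK0 : 0 < K := by linarith
  have hlim := (tendsto_rpow_two_div K hK0).const_mul a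
  rw [mul_one] at hlim
  have hev : ∀ᶠ N : ℕ in atTop, a * K ^ ((2 : ℝ) / ((N : ℝ) + 1)) < a + δ / 2 :=
    hlim.eventually (gt_mem_nhds (by linarith))
  refine rl_le (by positivity) ⟨ε, hε, ?_⟩
  filter_upwards [hN, hev] with N h1 h2 X'' Y'' hX hY
  by_cases hd : dist X'' X' ≤ ε
  · exact (h1 X'' Y'' hd hY).trans (by linarith)
  · push Not at hd
    have h3 := h.ncP N X' Y'' ε a hε ha0.le (fun X₀ hX₀ => h1 X₀ Y'' hX₀ hY) X'' hd.le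
    have h4 : (dist X'' X' / ε) ^ ((2 : ℝ) / ((N : ℝ) + 1)) ≤ K ^ ((2 : ℝ) / ((N : ℝ) + 1)) := by
      refine Real.rpow_le_rpow (by positivity) ?_ (by positivity)
      rw [hK]
      gcongr
      have := dist_triangle X'' X X'
      linarith
    have h5 := mul_le_mul_of_nonneg_left h4 ha0.le
    linarith

theorem RelData.rlQ_le (h : RelData f v P Q E) (X Y Y' : ℂ) : rl Q X Y ≤ rl Q X Y' := by
  refine le_of_forall_pos_le_add fun δ hδ => ?_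
  have hnn := rl_nonneg Q X Y'
  have hlt : rl Q X Y' < rl Q X Y' + δ / 2 := by linarith
  obtain ⟨ε, hε, hN⟩ := EvLe_of_rl_lt h.locBddQ hlt
  set a := rl Q X Y' + δ / 2 with ha
  have ha0 : 0 < a := by positivity
  set K : ℝ := (dist Y Y' + ε) / ε with hK
  have hK1 : 1 ≤ K := by
    rw [hK, le_div_iff₀ hε]; linarith [dist_nonneg (x := Y) (y := Y')]
  have hK0 : 0 < K := by linarith
  have hlim := (tendsto_rpow_two_div K hK0).const_mul a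
  rw [mul_one] at hlim
  have hev : ∀ᶠ N : ℕ in atTop, a * K ^ ((2 : ℝ) / ((N : ℝ) + 1)) < a + δ / 2 :=
    hlim.eventually (gt_mem_nhds (by linarith))
  refine rl_le (by positivity) ⟨ε, hε, ?_⟩
  filter_upwards [hN, hev] with N h1 h2 X'' Y'' hX hY
  by_cases hd : dist Y'' Y' ≤ ε
  · exact (h1 X'' Y'' hX hd).trans (by linarith)
  · push Not at hd
    have h3 := h.ncQ N X'' Y' ε a hε ha0.le (fun Y₀ hY₀ => h1 X'' Y₀ hX hY₀) Y'' hd.le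
    have h4 : (dist Y'' Y' / ε) ^ ((2 : ℝ) / ((N : ℝ) + 1)) ≤ K ^ ((2 : ℝ) / ((N : ℝ) + 1)) := by
      refine Real.rpow_le_rpow (by positivity) ?_ (by positivity)
      rw [hK]
      gcongr
      have := dist_triangle Y'' Y Y'
      linarith
    have h5 := mul_le_mul_of_nonneg_left h4 ha0.le
    linarith

theorem RelData.rlP_eq (h : RelData f v P Q E) (X X' Y : ℂ) : rl P X Y = rl P X' Y :=
  le_antisymm (h.rlP_le X X' Y) (h.rlP_le X' X Y)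

theorem RelData.rlQ_eq (h : RelData f v P Q E) (X Y Y' : ℂ) : rl Q X Y = rl Q X Y' :=
  le_antisymm (h.rlQ_le X Y Y') (h.rlQ_le X Y' Y)

/-- (L0) local boundedness of `E`. -/
theorem RelData.locBddE (h : RelData f v P Q E)
    (hf : Continuous (fun p : ℂ × ℂ => f p.1 p.2)) (hv : Continuous (fun p : ℂ × ℂ => v p.1 p.2))
    (hfR : ∀ (Y : ℂ) (ρ : ℝ), ∃ R ≥ ρ, ∀ X : ℂ, ‖X‖ = R → f X Y ≠ 0) : LocBdd E := by
  intro X₀ Y₀
  obtain ⟨R, hR, hfR⟩ := hfR Y₀ (‖X₀‖ + 2)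
  have hX0 := norm_nonneg X₀
  have hR0 : 0 < R := by linarith
  -- `|f| ≥ c` for `|X| = R`, `Y` near `Y₀`.
  have hcomp : IsCompact (Metric.sphere (0 : ℂ) R ×ˢ ({Y₀} : Set ℂ)) :=
    (isCompact_sphere _ _).prod isCompact_singleton
  have hne : ∀ p ∈ Metric.sphere (0 : ℂ) R ×ˢ ({Y₀} : Set ℂ), f p.1 p.2 ≠ 0 := by
    rintro ⟨X, Y⟩ ⟨hX, hY⟩
    simp only [mem_singleton_iff] at hY
    subst hY
    exact hfR X (by simpa using hX)
  obtain ⟨c, hc0, hc⟩ : ∃ c : ℝ, 0 < c ∧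
      ∀ p ∈ Metric.sphere (0 : ℂ) R ×ˢ ({Y₀} : Set ℂ), c < ‖f p.1 p.2‖ := by
    have hnonempty : (Metric.sphere (0 : ℂ) R ×ˢ ({Y₀} : Set ℂ)).Nonempty := by
      refine ⟨((R : ℂ), Y₀), ?_, rfl⟩
      simp [abs_of_pos hR0]
    obtain ⟨p, hp, hmin⟩ := hcomp.exists_isMinOn hnonempty
      (hf.norm.continuousOn (s := Metric.sphere (0 : ℂ) R ×ˢ ({Y₀} : Set ℂ)))
    have hpos : 0 < ‖f p.1 p.2‖ := norm_pos_iff.mpr (hne p hp)
    refine ⟨‖f p.1 p.2‖ / 2, by positivity, fun q hq => ?_⟩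
    have := hmin hq
    have this' : ‖f p.1 p.2‖ ≤ ‖f q.1 q.2‖ := this
    linarith
  have hopen : IsOpen {p : ℂ × ℂ | c < ‖f p.1 p.2‖} := isOpen_lt continuous_const hf.norm
  obtain ⟨V, hV⟩ : ∃ ε : ℝ, 0 < ε ∧ ∀ X Y : ℂ, ‖X‖ = R → dist Y Y₀ ≤ ε → c < ‖f X Y‖ := by
    obtain ⟨U, W, hU, hW, hSU, hYW, hUW⟩ := generalized_tube_lemma
      (isCompact_sphere (0 : ℂ) R) (isCompact_singleton (x := Y₀)) hopen hc
    obtain ⟨ε, hε, hball⟩ := Metric.isOpen_iff.mp hW Y₀ (hYW rfl)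
    refine ⟨ε / 2, by positivity, fun X Y hX hY => ?_⟩
    have hmem : ((X, Y) : ℂ × ℂ) ∈ U ×ˢ W :=
      ⟨hSU (by simpa using hX), hball (by rw [Metric.mem_ball]; simp only; linarith)⟩
    exact hUW hmem
  obtain ⟨hV0, hV⟩ := hV
  -- bound of `v` on the compact set
  set K2 : Set (ℂ × ℂ) := Metric.closedBall (0 : ℂ) R ×ˢ Metric.closedBall Y₀ 1 with hK2
  have hK2c : IsCompact K2 := (isCompact_closedBall _ _).prod (isCompact_closedBall _ _)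
  obtain ⟨Cv, hCv⟩ := hK2c.exists_bound_of_continuousOn (f := fun p : ℂ × ℂ => v p.1 p.2)
    hv.continuousOn
  set ρ : ℝ := 1 + (R + ‖Y₀‖ + 1) with hρ
  have hY0 := norm_nonneg Y₀
  have hCv0 : 0 ≤ Cv := by
    refine (norm_nonneg _).trans (hCv (0, Y₀) ⟨?_, ?_⟩)
    · simp [hR0.le]
    · simp
  set a : ℝ := (ρ ^ 12 + Cv * ρ ^ 12) / c with ha
  have ha0 : 0 ≤ a := by positivity
  refine ⟨a, ha0, min 1 V, lt_min one_pos hV0, Eventually.of_forall fun N X Y hX hY => ?_⟩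
  have hY1 : dist Y Y₀ ≤ 1 := hY.trans (min_le_left _ _)
  have hYV : dist Y Y₀ ≤ V := hY.trans (min_le_right _ _)
  have hX1 : dist X X₀ ≤ 1 := hX.trans (min_le_left _ _)
  have hXn : ‖X‖ ≤ R := by
    have := norm_sub_norm_le X X₀
    rw [dist_eq_norm] at hX1; linarith
  refine h.mpE N Y R a hR0 (fun X₁ hX₁ => ?_) X hXn
  have hYn : ‖Y‖ ≤ ρ := by
    have := norm_sub_norm_le Y Y₀
    rw [dist_eq_norm] at hY1; linarith
  have hP := h.growthP N ρ X₁ Y (by linarith) (by linarith) hYn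
  have hQ := h.growthQ N ρ X₁ Y (by linarith) (by linarith) hYn
  have hvb : ‖v X₁ Y‖ ≤ Cv := hCv (X₁, Y) ⟨by simp [hX₁], by simpa using hY1⟩
  have hfc := hV X₁ Y hX₁ hYV
  have h3 := h.tri3 N X₁ Y
  have hP0 := h.P_nonneg N X₁ Y
  have hE0 := h.E_nonneg N X₁ Y
  rw [ha, le_div_iff₀ hc0]
  calc E N X₁ Y * c ≤ ‖f X₁ Y‖ * E N X₁ Y := by
        rw [mul_comm]; exact mul_le_mul_of_nonneg_right hfc.le hE0
    _ ≤ Q N X₁ Y + ‖v X₁ Y‖ * P N X₁ Y := h3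
    _ ≤ ρ ^ 12 + Cv * ρ ^ 12 := by gcongr

/-- (L2) on `f = 0`: `rl Q ≤ |v| rl P`. -/
theorem RelData.rel_le (h : RelData f v P Q E)
    (hf : Continuous (fun p : ℂ × ℂ => f p.1 p.2)) (hv : Continuous (fun p : ℂ × ℂ => v p.1 p.2))
    (hfR : ∀ (Y : ℂ) (ρ : ℝ), ∃ R ≥ ρ, ∀ X : ℂ, ‖X‖ = R → f X Y ≠ 0) (X Y : ℂ)
    (h0 : f X Y = 0) : rl Q X Y ≤ ‖v X Y‖ * rl P X Y := by
  obtain ⟨C, hC0, εC, hεC, hC⟩ := h.locBddE hf hv hfR X Y
  have hpn := rl_nonneg P X Y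
  -- it suffices to bound by `(|v| + δ) (rl P + δ) + δ C` for all small `δ`
  have key : ∀ δ : ℝ, 0 < δ → rl Q X Y ≤ (‖v X Y‖ + δ) * (rl P X Y + δ) + δ * C := by
    intro δ hδ
    obtain ⟨εP, hεP, hP⟩ := EvLe_of_rl_lt h.locBddP (show rl P X Y < rl P X Y + δ by linarith)
    have hvc : ∀ᶠ p : ℂ × ℂ in 𝓝 (X, Y), ‖v p.1 p.2‖ < ‖v X Y‖ + δ :=
      (hv.norm.tendsto (X, Y)).eventually (gt_mem_nhds (by simpa using hδ))
    have hfc : ∀ᶠ p : ℂ × ℂ in 𝓝 (X, Y), ‖f p.1 p.2‖ < δ :=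
      (hf.norm.tendsto (X, Y)).eventually (gt_mem_nhds (by simpa [h0] using hδ))
    obtain ⟨ε₁, hε₁, hb⟩ := Metric.eventually_nhds_iff.mp (hvc.and hfc)
    refine rl_le (by positivity) ⟨min (ε₁ / 2) (min εC εP), by positivity, ?_⟩
    filter_upwards [hC, hP] with N hC hP X' Y' hX hY
    have h1 := hC X' Y' (hX.trans ((min_le_right _ _).trans (min_le_left _ _)))
      (hY.trans ((min_le_right _ _).trans (min_le_left _ _)))
    have h2 := hP X' Y' (hX.trans ((min_le_right _ _).trans (min_le_right _ _)))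
      (hY.trans ((min_le_right _ _).trans (min_le_right _ _)))
    have h3 : dist ((X', Y') : ℂ × ℂ) (X, Y) < ε₁ := by
      rw [Prod.dist_eq]
      refine max_lt ?_ ?_
      · have := hX.trans (min_le_left _ _); simp only; linarith
      · have := hY.trans (min_le_left _ _); simp only; linarith
    obtain ⟨h4, h5⟩ := hb h3
    simp only at h4 h5
    have h6 := h.tri1 N X' Y'
    have hP0 := h.P_nonneg N X' Y'
    have hE0 := h.E_nonneg N X' Y'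
    calc Q N X' Y' ≤ ‖v X' Y'‖ * P N X' Y' + ‖f X' Y'‖ * E N X' Y' := h6
      _ ≤ (‖v X Y‖ + δ) * (rl P X Y + δ) + δ * C := by gcongr
  have hlim : Tendsto (fun δ : ℝ => (‖v X Y‖ + δ) * (rl P X Y + δ) + δ * C) (𝓝[>] 0)
      (𝓝 ((‖v X Y‖ + 0) * (rl P X Y + 0) + 0 * C)) := by
    refine Tendsto.mono_left ?_ nhdsWithin_le_nhds
    have : Continuous (fun δ : ℝ => (‖v X Y‖ + δ) * (rl P X Y + δ) + δ * C) := by fun_prop
    exact this.tendsto 0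
  have := ge_of_tendsto hlim (eventually_mem_nhdsWithin.mono fun δ hδ => key δ hδ)
  simpa using this

theorem RelData.rel_ge (h : RelData f v P Q E)
    (hf : Continuous (fun p : ℂ × ℂ => f p.1 p.2)) (hv : Continuous (fun p : ℂ × ℂ => v p.1 p.2))
    (hfR : ∀ (Y : ℂ) (ρ : ℝ), ∃ R ≥ ρ, ∀ X : ℂ, ‖X‖ = R → f X Y ≠ 0) (X Y : ℂ)
    (h0 : f X Y = 0) (hv0 : v X Y ≠ 0) : ‖v X Y‖ * rl P X Y ≤ rl Q X Y := by
  obtain ⟨C, hC0, εC, hεC, hC⟩ := h.locBddE hf hv hfR X Y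
  have hqn := rl_nonneg Q X Y
  have hvpos : 0 < ‖v X Y‖ := norm_pos_iff.mpr hv0
  have key : ∀ δ : ℝ, 0 < δ → δ < ‖v X Y‖ →
      rl P X Y ≤ (rl Q X Y + δ + δ * C) / (‖v X Y‖ - δ) := by
    intro δ hδ hδv
    obtain ⟨εQ, hεQ, hQ⟩ := EvLe_of_rl_lt h.locBddQ (show rl Q X Y < rl Q X Y + δ by linarith)
    have hvc : ∀ᶠ p : ℂ × ℂ in 𝓝 (X, Y), ‖v X Y‖ - δ < ‖v p.1 p.2‖ :=
      (hv.norm.tendsto (X, Y)).eventually (lt_mem_nhds (by simpa using hδ))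
    have hfc : ∀ᶠ p : ℂ × ℂ in 𝓝 (X, Y), ‖f p.1 p.2‖ < δ :=
      (hf.norm.tendsto (X, Y)).eventually (gt_mem_nhds (by simpa [h0] using hδ))
    obtain ⟨ε₁, hε₁, hb⟩ := Metric.eventually_nhds_iff.mp (hvc.and hfc)
    have hpos : 0 < ‖v X Y‖ - δ := by linarith
    refine rl_le (by positivity) ⟨min (ε₁ / 2) (min εC εQ), by positivity, ?_⟩
    filter_upwards [hC, hQ] with N hC hQ X' Y' hX hY
    have h1 := hC X' Y' (hX.trans ((min_le_right _ _).trans (min_le_left _ _)))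
      (hY.trans ((min_le_right _ _).trans (min_le_left _ _)))
    have h2 := hQ X' Y' (hX.trans ((min_le_right _ _).trans (min_le_right _ _)))
      (hY.trans ((min_le_right _ _).trans (min_le_right _ _)))
    have h3 : dist ((X', Y') : ℂ × ℂ) (X, Y) < ε₁ := by
      rw [Prod.dist_eq]
      refine max_lt ?_ ?_
      · have := hX.trans (min_le_left _ _); simp only; linarith
      · have := hY.trans (min_le_left _ _); simp only; linarith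
    obtain ⟨h4, h5⟩ := hb h3
    simp only at h4 h5
    have h6 := h.tri2 N X' Y'
    have hP0 := h.P_nonneg N X' Y'
    have hE0 := h.E_nonneg N X' Y'
    rw [le_div_iff₀ hpos]
    calc P N X' Y' * (‖v X Y‖ - δ) ≤ ‖v X' Y'‖ * P N X' Y' := by
          rw [mul_comm]; exact mul_le_mul_of_nonneg_right h4.le hP0
      _ ≤ Q N X' Y' + ‖f X' Y'‖ * E N X' Y' := h6
      _ ≤ rl Q X Y + δ + δ * C := by gcongr
  have hlim : Tendsto (fun δ : ℝ => (rl Q X Y + δ + δ * C) / (‖v X Y‖ - δ)) (𝓝[>] 0)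
      (𝓝 ((rl Q X Y + 0 + 0 * C) / (‖v X Y‖ - 0))) := by
    refine Tendsto.mono_left ?_ nhdsWithin_le_nhds
    refine Tendsto.div ?_ ?_ (by simpa using hvpos.ne')
    · have : Continuous (fun δ : ℝ => rl Q X Y + δ + δ * C) := by fun_prop
      exact this.tendsto 0
    · have : Continuous (fun δ : ℝ => ‖v X Y‖ - δ) := by fun_prop
      exact this.tendsto 0
  have hev : ∀ᶠ δ : ℝ in 𝓝[>] 0, rl P X Y ≤ (rl Q X Y + δ + δ * C) / (‖v X Y‖ - δ) := by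
    filter_upwards [eventually_mem_nhdsWithin,
      (mem_nhdsWithin_of_mem_nhds (gt_mem_nhds hvpos : ∀ᶠ δ in 𝓝 (0 : ℝ), δ < ‖v X Y‖))]
      with δ h1 h2
    exact key δ h1 h2
  have := ge_of_tendsto hlim hev
  simp only [add_zero, zero_mul, sub_zero] at this
  rw [le_div_iff₀ hvpos] at this
  linarith

/-- Annulus maximum principle in the limit. -/
theorem RelData.ann_lim (h : RelData f v P Q E) (r R m : ℝ) (hr : 0 < r) (hrR : r < R)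
    (h1 : ∀ X : ℂ, ‖X‖ = r → rl Q X 0 ≤ m * r ^ 2)
    (h2 : ∀ X : ℂ, ‖X‖ = R → rl Q X 0 ≤ m * R ^ 2) (X : ℂ) (hX1 : r < ‖X‖) (hX2 : ‖X‖ < R) :
    rl Q X 0 ≤ m * ‖X‖ ^ 2 := by
  have hR : 0 < R := hr.trans hrR
  have hm : 0 ≤ m := by
    have h3 := h1 (r : ℂ) (by simp [abs_of_pos hr])
    have h4 := (rl_nonneg Q (r : ℂ) 0).trans h3
    by_contra hneg
    push Not at hneg
    nlinarith [sq_pos_of_pos hr]
  have key : ∀ δ : ℝ, 0 < δ → δ < 1 → rl Q X 0 ≤ (m + δ) * (‖X‖ + δ) ^ 2 := by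
    intro δ hδ hδ1
    have hK1 : IsCompact (Metric.sphere (0 : ℂ) r ×ˢ Metric.closedBall (0 : ℂ) 1) :=
      (isCompact_sphere _ _).prod (isCompact_closedBall _ _)
    have hK2 : IsCompact (Metric.sphere (0 : ℂ) R ×ˢ Metric.closedBall (0 : ℂ) 1) :=
      (isCompact_sphere _ _).prod (isCompact_closedBall _ _)
    have e1 := eventually_le_of_compact h.locBddQ hK1 (a := (m + δ) * r ^ 2) (by
      rintro ⟨X₁, Y₁⟩ ⟨hX₁, -⟩
      simp only [mem_sphere_zero_iff_norm] at hX₁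
      simp only
      rw [h.rlQ_eq X₁ Y₁ 0]
      refine (h1 X₁ hX₁).trans_lt ?_
      have : 0 < r ^ 2 := by positivity
      nlinarith)
    have e2 := eventually_le_of_compact h.locBddQ hK2 (a := (m + δ) * R ^ 2) (by
      rintro ⟨X₁, Y₁⟩ ⟨hX₁, -⟩
      simp only [mem_sphere_zero_iff_norm] at hX₁
      simp only
      rw [h.rlQ_eq X₁ Y₁ 0]
      refine (h2 X₁ hX₁).trans_lt ?_
      have : 0 < R ^ 2 := by positivity
      nlinarith)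
    refine rl_le (by positivity)
      ⟨min δ (min (‖X‖ - r) (R - ‖X‖)), lt_min hδ (lt_min (by linarith) (by linarith)), ?_⟩
    filter_upwards [e1, e2] with N e1 e2 X' Y' hX' hY'
    have hb1 := hX'.trans (min_le_left _ _)
    have hb2 := hX'.trans ((min_le_right _ _).trans (min_le_left _ _))
    have hb3 := hX'.trans ((min_le_right _ _).trans (min_le_right _ _))
    have hY1 : ‖Y'‖ ≤ 1 := by
      have := hY'.trans (min_le_left _ _)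
      rw [dist_zero_right] at this; linarith
    have hn1 : ‖X'‖ ≤ ‖X‖ + dist X' X := by
      have := norm_sub_norm_le X' X
      rw [dist_eq_norm]; linarith
    have hn2 : ‖X‖ ≤ ‖X'‖ + dist X' X := by
      have := norm_sub_norm_le X X'
      rw [dist_eq_norm, norm_sub_rev]; linarith
    have h3 := h.annQ N Y' r R (m + δ) hr hrR
      (fun X₁ hX₁ => e1 (X₁, Y') ⟨by simpa using hX₁, by simpa using hY1⟩)
      (fun X₁ hX₁ => e2 (X₁, Y') ⟨by simpa using hX₁, by simpa using hY1⟩) X'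
      (by linarith) (by linarith)
    refine h3.trans ?_
    have : ‖X'‖ ≤ ‖X‖ + δ := by linarith
    gcongr
  have hlim : Tendsto (fun δ : ℝ => (m + δ) * (‖X‖ + δ) ^ 2) (𝓝[>] 0)
      (𝓝 ((m + 0) * (‖X‖ + 0) ^ 2)) := by
    refine Tendsto.mono_left ?_ nhdsWithin_le_nhds
    have : Continuous (fun δ : ℝ => (m + δ) * (‖X‖ + δ) ^ 2) := by fun_prop
    exact this.tendsto 0
  have hev : ∀ᶠ δ : ℝ in 𝓝[>] 0, rl Q X 0 ≤ (m + δ) * (‖X‖ + δ) ^ 2 := by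
    filter_upwards [eventually_mem_nhdsWithin,
      (mem_nhdsWithin_of_mem_nhds (gt_mem_nhds one_pos : ∀ᶠ δ in 𝓝 (0 : ℝ), δ < 1))]
      with δ h1 h2
    exact key δ h1 h2
  have := ge_of_tendsto hlim hev
  simpa using this

theorem RelData.mpB_lim (h : RelData f v P Q E) (m : ℝ)
    (h1 : ∀ X : ℂ, ‖X‖ = 1 → rl Q X 0 ≤ m) (X : ℂ) (hX : ‖X‖ ≤ 1) : rl Q X 0 ≤ m := by
  rcases hX.eq_or_lt with hX | hX
  · exact h1 X hX
  have hm : 0 ≤ m := (rl_nonneg Q 1 0).trans (h1 1 (by simp))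
  refine rl_le_of_forall hm fun δ hδ => ?_
  have hK1 : IsCompact (Metric.sphere (0 : ℂ) 1 ×ˢ Metric.closedBall (0 : ℂ) 1) :=
    (isCompact_sphere _ _).prod (isCompact_closedBall _ _)
  have e1 := eventually_le_of_compact h.locBddQ hK1 (a := m + δ) (by
    rintro ⟨X₁, Y₁⟩ ⟨hX₁, -⟩
    simp only [mem_sphere_zero_iff_norm] at hX₁
    simp only
    rw [h.rlQ_eq X₁ Y₁ 0]
    linarith [h1 X₁ hX₁])
  refine ⟨min 1 (1 - ‖X‖), lt_min one_pos (by linarith), ?_⟩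
  filter_upwards [e1] with N e1 X' Y' hX' hY'
  have hb2 := hX'.trans (min_le_right _ _)
  have hY1 : ‖Y'‖ ≤ 1 := by
    have := hY'.trans (min_le_left _ _)
    rwa [dist_zero_right] at this
  have hn1 : ‖X'‖ ≤ ‖X‖ + dist X' X := by
    have := norm_sub_norm_le X' X
    rw [dist_eq_norm]; linarith
  exact h.mpQ N Y' (m + δ)
    (fun X₁ hX₁ => e1 (X₁, Y') ⟨by simpa using hX₁, by simpa using hY1⟩) X' (by linarith)

theorem RelData.mpA_lim (h : RelData f v P Q E) (m : ℝ)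
    (h1 : ∀ Y : ℂ, ‖Y‖ = 1 → rl P 0 Y ≤ m) (Y : ℂ) (hY : ‖Y‖ ≤ 1) : rl P 0 Y ≤ m := by
  rcases hY.eq_or_lt with hY | hY
  · exact h1 Y hY
  have hm : 0 ≤ m := (rl_nonneg P 0 1).trans (h1 1 (by simp))
  refine rl_le_of_forall hm fun δ hδ => ?_
  have hK1 : IsCompact (Metric.closedBall (0 : ℂ) 1 ×ˢ Metric.sphere (0 : ℂ) 1) :=
    (isCompact_closedBall _ _).prod (isCompact_sphere _ _)
  have e1 := eventually_le_of_compact h.locBddP hK1 (a := m + δ) (by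
    rintro ⟨X₁, Y₁⟩ ⟨-, hY₁⟩
    simp only [mem_sphere_zero_iff_norm] at hY₁
    simp only
    rw [h.rlP_eq X₁ 0 Y₁]
    linarith [h1 Y₁ hY₁])
  refine ⟨min 1 (1 - ‖Y‖), lt_min one_pos (by linarith), ?_⟩
  filter_upwards [e1] with N e1 X' Y' hX' hY'
  have hb2 := hY'.trans (min_le_right _ _)
  have hX1 : ‖X'‖ ≤ 1 := by
    have := hX'.trans (min_le_left _ _)
    rwa [dist_zero_right] at this
  have hn1 : ‖Y'‖ ≤ ‖Y‖ + dist Y' Y := by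
    have := norm_sub_norm_le Y' Y
    rw [dist_eq_norm]; linarith
  exact h.mpP N X' (m + δ)
    (fun Y₁ hY₁ => e1 (X', Y₁) ⟨by simpa using hX1, by simpa using hY₁⟩) Y' (by linarith)

/-- The relaxed limit theorem. -/
theorem relaxed_limit (h : RelData f v P Q E)
    (hf : Continuous (fun p : ℂ × ℂ => f p.1 p.2)) (hv : Continuous (fun p : ℂ × ℂ => v p.1 p.2))
    (hfR : ∀ (Y : ℂ) (ρ : ℝ), ∃ R ≥ ρ, ∀ X : ℂ, ‖X‖ = R → f X Y ≠ 0) :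
    ∃ A B : ℂ → ℝ, LimData f v A B := by
  refine ⟨fun Y => rl P 0 Y, fun X => rl Q X 0, ?_⟩
  refine
    { A_nonneg := fun Y => rl_nonneg P 0 Y
      B_nonneg := fun X => rl_nonneg Q X 0
      growthA := ?_
      growthB := ?_
      rel := ?_
      annB := fun r R m hr hrR h1 h2 X hX1 hX2 => h.ann_lim r R m hr hrR h1 h2 X hX1 hX2
      mpB := fun m h1 X hX => h.mpB_lim m h1 X hX
      mpA := fun m h1 Y hY => h.mpA_lim m h1 Y hY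
      nonzero := ?_ }
  · intro ρ Y hρ hY
    have key : ∀ δ : ℝ, 0 < δ → rl P 0 Y ≤ (ρ + δ) ^ 12 := by
      intro δ hδ
      refine rl_le (by positivity) ⟨δ, hδ, Eventually.of_forall fun N X' Y' hX' hY' => ?_⟩
      refine h.growthP N (ρ + δ) X' Y' (by linarith) ?_ ?_
      · rw [dist_zero_right] at hX'; linarith
      · have := norm_sub_norm_le Y' Y
        rw [dist_eq_norm] at hY'; linarith
    have hlim : Tendsto (fun δ : ℝ => (ρ + δ) ^ 12) (𝓝[>] 0) (𝓝 ((ρ + 0) ^ 12)) := by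
      refine Tendsto.mono_left ?_ nhdsWithin_le_nhds
      have : Continuous (fun δ : ℝ => (ρ + δ) ^ 12) := by fun_prop
      exact this.tendsto 0
    have := ge_of_tendsto hlim (eventually_mem_nhdsWithin.mono fun δ hδ => key δ hδ)
    simpa using this
  · intro ρ X hρ hX
    have key : ∀ δ : ℝ, 0 < δ → rl Q X 0 ≤ (ρ + δ) ^ 12 := by
      intro δ hδ
      refine rl_le (by positivity) ⟨δ, hδ, Eventually.of_forall fun N X' Y' hX' hY' => ?_⟩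
      refine h.growthQ N (ρ + δ) X' Y' (by linarith) ?_ ?_
      · have := norm_sub_norm_le X' X
        rw [dist_eq_norm] at hX'; linarith
      · rw [dist_zero_right] at hY'; linarith
    have hlim : Tendsto (fun δ : ℝ => (ρ + δ) ^ 12) (𝓝[>] 0) (𝓝 ((ρ + 0) ^ 12)) := by
      refine Tendsto.mono_left ?_ nhdsWithin_le_nhds
      have : Continuous (fun δ : ℝ => (ρ + δ) ^ 12) := by fun_prop
      exact this.tendsto 0
    have := ge_of_tendsto hlim (eventually_mem_nhdsWithin.mono fun δ hδ => key δ hδ)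
    simpa using this
  · intro X Y h0 hv0
    change rl Q X 0 = ‖v X Y‖ * rl P 0 Y
    rw [h.rlQ_eq X 0 Y, h.rlP_eq 0 X Y]
    exact le_antisymm (h.rel_le hf hv hfR X Y h0) (h.rel_ge hf hv hfR X Y h0 hv0)
  · rintro ⟨hA, hB⟩
    have hK : IsCompact (Metric.closedBall (0 : ℂ) 1 ×ˢ Metric.closedBall (0 : ℂ) 1) :=
      (isCompact_closedBall _ _).prod (isCompact_closedBall _ _)
    have e1 := eventually_le_of_compact h.locBddP hK (a := 1 / 4) (by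
      rintro ⟨X₁, Y₁⟩ ⟨-, hY₁⟩
      simp only [mem_closedBall_zero_iff] at hY₁
      simp only
      rw [h.rlP_eq X₁ 0 Y₁]
      have hA0 : rl P 0 Y₁ = 0 := hA Y₁ hY₁
      rw [hA0]; norm_num)
    have e2 := eventually_le_of_compact h.locBddQ hK (a := 1 / 4) (by
      rintro ⟨X₁, Y₁⟩ ⟨hX₁, -⟩
      simp only [mem_closedBall_zero_iff] at hX₁
      simp only
      rw [h.rlQ_eq X₁ Y₁ 0]
      have hB0 : rl Q X₁ 0 = 0 := hB X₁ hX₁
      rw [hB0]; norm_num)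
    obtain ⟨N, h1, h2⟩ := (e1.and e2).exists
    have := h.norm N (1 / 4) (1 / 4)
      (fun X Y hX hY => h1 (X, Y) ⟨by simpa using hX, by simpa using hY⟩)
      (fun X Y hX hY => h2 (X, Y) ⟨by simpa using hX, by simpa using hY⟩)
    norm_num at this

end

end Crest.Agent.R258
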