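import Crest.Agent.R258.FinalFE
import Crest.Agent.R258.Relaxed

/-!
The contradiction drawn from the relaxed limits, for a concrete curve `F₁ F₂ = 0`.
-/

namespace Crest.Agent.R258

noncomputable section

/-- The relaxed limits `A`, `B` cannot exist for data `f`, `v` adapted to the curve
`(2XY - 1 - Y²) (X (μ - Y²/μ) - 2Y) = 0`. -/
theorem relaxed_contra (f v : ℂ → ℂ → ℂ) (μ : ℝ) (hμ : 1 < μ)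
    (hf1 : ∀ X Y : ℂ, 2 * X * Y - 1 - Y ^ 2 = 0 → f X Y = 0)
    (hf2 : ∀ X Y : ℂ, X * ((μ : ℂ) - Y ^ 2 / μ) - 2 * Y = 0 → f X Y = 0)
    (hv1 : ∀ X Y : ℂ, 2 * X * Y - 1 - Y ^ 2 = 0 → v X Y * (2 * Y) ^ 4 = 1)
    (hv2 : ∀ X Y : ℂ, X * ((μ : ℂ) - Y ^ 2 / μ) - 2 * Y = 0 →
      v X Y * ((μ : ℂ) - Y ^ 2 / μ) ^ 4 = 1)
    (A B : ℂ → ℝ) (hA0 : ∀ Y, 0 ≤ A Y) (hB0 : ∀ X, 0 ≤ B X)
    (hAg : ∀ ρ : ℝ, 1 ≤ ρ → ∀ Y, ‖Y‖ ≤ ρ → A Y ≤ ρ ^ 12)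
    (hrel : ∀ X Y, f X Y = 0 → v X Y ≠ 0 → B X = ‖v X Y‖ * A Y)
    (hann : ∀ m r R : ℝ, 0 < r → r < R → (∀ X, ‖X‖ = r → B X ≤ m * r ^ 2) →
      (∀ X, ‖X‖ = R → B X ≤ m * R ^ 2) → ∀ X, r ≤ ‖X‖ → ‖X‖ ≤ R → B X ≤ m * ‖X‖ ^ 2)
    (hLB : ∀ b : ℝ, (∀ X, ‖X‖ = 1 → B X ≤ b) → ∀ X, ‖X‖ ≤ 1 → B X ≤ b)
    (hLA : ∀ b : ℝ, (∀ Y, ‖Y‖ = 1 → A Y ≤ b) → ∀ Y, ‖Y‖ ≤ 1 → A Y ≤ b)
    (hne : ¬ ((∀ Y, ‖Y‖ ≤ 1 → A Y = 0) ∧ (∀ X, ‖X‖ ≤ 1 → B X = 0))) : False := by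
  have key : ∀ X Y w : ℂ, f X Y = 0 → v X Y * w ^ 4 = 1 → B X * ‖w‖ ^ 4 = A Y := by
    intro X Y w h0 h1
    have hv0 : v X Y ≠ 0 := left_ne_zero_of_mul_eq_one h1
    have h2 : ‖v X Y‖ * ‖w‖ ^ 4 = 1 := by
      rw [← norm_pow, ← norm_mul, h1, norm_one]
    rw [hrel X Y h0 hv0]
    calc ‖v X Y‖ * A Y * ‖w‖ ^ 4 = (‖v X Y‖ * ‖w‖ ^ 4) * A Y := by ring
      _ = A Y := by rw [h2, one_mul]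
  refine hne (final_fe A B μ hμ hA0 hB0 ?_ ?_ ⟨μ ^ 12, fun Y hY => hAg μ hμ.le Y hY⟩ ?_ hLB hLA)
  · intro Y hY
    have h : 2 * ((1 + Y ^ 2) / (2 * Y)) * Y - 1 - Y ^ 2 = 0 := by
      field_simp; ring
    exact key _ Y (2 * Y) (hf1 _ _ h) (hv1 _ _ h)
  · intro Y hY
    have h : (2 * Y / ((μ : ℂ) - Y ^ 2 / μ)) * ((μ : ℂ) - Y ^ 2 / μ) - 2 * Y = 0 := by
      rw [div_mul_cancel₀ _ hY, sub_self]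
    exact key _ Y _ (hf2 _ _ h) (hv2 _ _ h)
  · intro r₀ R₀ b hr0 hr1 hR h1 h2 X hX
    have := hann b r₀ R₀ hr0 (hr1.trans hR) h1 h2 X (by rw [hX]; exact hr1.le)
      (by rw [hX]; exact hR.le)
    rwa [hX, one_pow, mul_one] at this

/-- The limit data `LimData` cannot exist for data `f`, `v` adapted to the curve. -/
theorem LimData.contra {f v : ℂ → ℂ → ℂ} {A B : ℂ → ℝ} (h : LimData f v A B) (μ : ℝ) (hμ : 1 < μ)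
    (hf1 : ∀ X Y : ℂ, 2 * X * Y - 1 - Y ^ 2 = 0 → f X Y = 0)
    (hf2 : ∀ X Y : ℂ, X * ((μ : ℂ) - Y ^ 2 / μ) - 2 * Y = 0 → f X Y = 0)
    (hv1 : ∀ X Y : ℂ, 2 * X * Y - 1 - Y ^ 2 = 0 → v X Y * (2 * Y) ^ 4 = 1)
    (hv2 : ∀ X Y : ℂ, X * ((μ : ℂ) - Y ^ 2 / μ) - 2 * Y = 0 →
      v X Y * ((μ : ℂ) - Y ^ 2 / μ) ^ 4 = 1) : False := by
  refine relaxed_contra f v μ hμ hf1 hf2 hv1 hv2 A B h.A_nonneg h.B_nonneg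
    (fun ρ hρ Y hY => h.growthA ρ Y hρ hY) h.rel ?_ h.mpB h.mpA h.nonzero
  intro m r R hr hrR h1 h2 X hX1 hX2
  rcases hX1.eq_or_lt with hX1 | hX1
  · rw [← hX1]; exact h1 X hX1.symm
  rcases hX2.eq_or_lt with hX2 | hX2
  · rw [hX2]; exact h2 X hX2
  exact h.annB r R m hr hrR h1 h2 X hX1 hX2

/-- No sequence `RelData` for data `f`, `v` adapted to the curve. -/
theorem RelData.contra {f v : ℂ → ℂ → ℂ} {P Q E : ℕ → ℂ → ℂ → ℝ} (h : RelData f v P Q E)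
    (hfc : Continuous fun p : ℂ × ℂ => f p.1 p.2) (hvc : Continuous fun p : ℂ × ℂ => v p.1 p.2)
    (hcirc : ∀ (Y : ℂ) (ρ : ℝ), ∃ R, ρ ≤ R ∧ ∀ X : ℂ, ‖X‖ = R → f X Y ≠ 0)
    (μ : ℝ) (hμ : 1 < μ)
    (hf1 : ∀ X Y : ℂ, 2 * X * Y - 1 - Y ^ 2 = 0 → f X Y = 0)
    (hf2 : ∀ X Y : ℂ, X * ((μ : ℂ) - Y ^ 2 / μ) - 2 * Y = 0 → f X Y = 0)
    (hv1 : ∀ X Y : ℂ, 2 * X * Y - 1 - Y ^ 2 = 0 → v X Y * (2 * Y) ^ 4 = 1)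
    (hv2 : ∀ X Y : ℂ, X * ((μ : ℂ) - Y ^ 2 / μ) - 2 * Y = 0 →
      v X Y * ((μ : ℂ) - Y ^ 2 / μ) ^ 4 = 1) : False := by
  obtain ⟨A, B, hAB⟩ := relaxed_limit h hfc hvc hcirc
  exact hAB.contra μ hμ hf1 hf2 hv1 hv2

/-- For `v` the explicit polynomial representatives of `1/(2Y)⁴`, resp. `1/(μ - Y²/μ)⁴`. -/
theorem inv_pow_four_C1 (X Y : ℂ) (h : 2 * X * Y - 1 - Y ^ 2 = 0) :
    (X - Y / 2) ^ 4 * (2 * Y) ^ 4 = 1 := by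
  have h1 : (X - Y / 2) * (2 * Y) = 1 := by linear_combination h
  rw [← mul_pow, h1, one_pow]

theorem inv_pow_four_C2 (μ : ℝ) (hμ : 1 < μ) (X Y : ℂ)
    (h : X * ((μ : ℂ) - Y ^ 2 / μ) - 2 * Y = 0) :
    ((X ^ 2 * ((μ : ℂ) - Y ^ 2 / μ) + 4 * μ) / (4 * (μ : ℂ) ^ 2)) ^ 4
      * ((μ : ℂ) - Y ^ 2 / μ) ^ 4 = 1 := by
  have hμ0 : (0 : ℝ) < μ := by linarith
  have hμc : (μ : ℂ) ≠ 0 := by exact_mod_cast hμ0.ne'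
  have h1 : ((X ^ 2 * ((μ : ℂ) - Y ^ 2 / μ) + 4 * μ) / (4 * (μ : ℂ) ^ 2))
      * ((μ : ℂ) - Y ^ 2 / μ) = 1 := by
    have h2 : X * ((μ : ℂ) - Y ^ 2 / μ) = 2 * Y := by linear_combination h
    have h3 : (X ^ 2 * ((μ : ℂ) - Y ^ 2 / μ) + 4 * μ) * ((μ : ℂ) - Y ^ 2 / μ)
        = (X * ((μ : ℂ) - Y ^ 2 / μ)) ^ 2 + 4 * μ * ((μ : ℂ) - Y ^ 2 / μ) := by ring
    rw [div_mul_eq_mul_div, h3, h2, div_eq_one_iff_eq (mul_ne_zero (by norm_num) (pow_ne_zero _ hμc))]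
    field_simp
    ring
  rw [← mul_pow, h1, one_pow]

end

end Crest.Agent.R258
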