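import Mathlib
import Crest.Prelude.Def_QuadricBundle

/-!
# rid 258 (S0396): definitions shared by all files

See `notes` (kind blueprint) in the team database for the mathematics.
-/

set_option autoImplicit false

noncomputable section

namespace Crest.Agent.R258

open Crest.AlgGeometry.QuadricBundle
open scoped ComplexConjugate

/-! ## Explicit polynomials (over any commutative `ℚ`-algebra / field of char 0)

`m` is a root of `m² = 2m+1`, `(x0,x1)` homogeneous coordinates in the first `ℙ¹`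
(`x = x1/x0`), `y` the affine coordinate of the second. -/

section polys
variable {R : Type*} [CommRing R] [Algebra ℚ R]

/-- `δ = m - (m-2) y²`. -/
def del (m y : R) : R := m - (m - 2) * y ^ 2

/-- `t₁ = U ∧ x`, `U = (2y, 1+y²)`. -/
def t1 (x0 x1 y : R) : R := 2 * y * x1 - (1 + y ^ 2) * x0

/-- `t₂ = V ∧ x`, `V = (δ, 2y)`. -/
def t2 (m x0 x1 y : R) : R := del m y * x1 - 2 * y * x0

/-- `T = t₁ t₂ / 32`, quadratic form in `x`. -/
def TT (m x0 x1 y : R) : R := algebraMap ℚ R (1 / 32) * (t1 x0 x1 y * t2 m x0 x1 y)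

/-- quartic form `ν` in `x` with `ν(U) = ν(V) = 1`. -/
def nu (m x0 x1 y : R) : R :=
  (29 - 12 * m) * x0 ^ 4 + algebraMap ℚ R (1 / 32) * (273 - 117 * m) * x0 ^ 2 * x1 ^ 2 + x1 ^ 4
  + (algebraMap ℚ R (1 / 32) * (-2962 + 1231 * m) * x0 ^ 3 * x1
      + algebraMap ℚ R (1 / 32) * (-699 + 272 * m) * x0 * x1 ^ 3) * y
  + (algebraMap ℚ R (1 / 32) * (926 - 384 * m) * x0 ^ 4
      + algebraMap ℚ R (1 / 32) * (2533 - 1043 * m) * x0 ^ 2 * x1 ^ 2
      + algebraMap ℚ R (1 / 32) * (178 - 76 * m) * x1 ^ 4) * y ^ 2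
  + (algebraMap ℚ R (1 / 32) * (-1118 + 463 * m) * x0 ^ 3 * x1
      + algebraMap ℚ R (1 / 32) * (-89 + 38 * m) * x0 * x1 ^ 3) * y ^ 3

/-- `y³ p(x,y)`, where `p` is the off-diagonal entry of the transition matrix. -/
def PP (m x0 x1 y : R) : R :=
  (79 + 192 * m) * x0 ^ 2 + (12 + 13 * m) * x1 ^ 2
  + (-13 - 39 * m) * x0 * x1 * y
  + (x0 ^ 2 + (2 + 5 * m) * x1 ^ 2) * y ^ 2
  + (-1 - m) * x0 * x1 * y ^ 3
  + (-x0 ^ 2 + m * x1 ^ 2) * y ^ 4
  + (-1 + m) * x0 * x1 * y ^ 5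
  + (x0 ^ 2 + (-2 + m) * x1 ^ 2) * y ^ 6
  + (3 - m) * x0 * x1 * y ^ 7
  + (-x0 ^ 2 + (-12 + 5 * m) * x1 ^ 2) * y ^ 8
  + (91 - 39 * m) * x0 * x1 * y ^ 9
  + ((-463 + 192 * m) * x0 ^ 2 + (-38 + 13 * m) * x1 ^ 2) * y ^ 10

end polys

/-- `μ₀ = 1+√2` for the chart `b = 0` of the second factor, `μ₁ = 1-√2` for `b = 1`. -/
def muB (b : Fin 2) : ℂ := if b = 0 then ((1 + Real.sqrt 2 : ℝ) : ℂ) else ((1 - Real.sqrt 2 : ℝ) : ℂ)

/-- homogeneous coordinates of the point `x` of the chart `a` of the first factor. -/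
def hx0 (a : Fin 2) (x : ℂ) : ℂ := if a = 0 then 1 else x
def hx1 (a : Fin 2) (x : ℂ) : ℂ := if a = 0 then x else 1

/-- transition matrices of the base bundle `E`. -/
def gBase : Transition 2 := fun α β p =>
  !![(if α.1 = β.1 then 1 else (p 0) ^ 2) * (if α.2 = β.2 then 1 else ((p 1) ^ 4)⁻¹),
     (if α.2 = β.2 then 0 else ((p 1) ^ 3)⁻¹ * PP (muB α.2) (hx0 α.1 (p 0)) (hx1 α.1 (p 0)) (p 1));
     0, (if α.2 = β.2 then 1 else (p 1) ^ 8)]

end Crest.Agent.R258
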