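import Crest.Prelude.Def_QuadricBundle

/-!
# Dual norms of a Griffiths positive metric

For a Hermitian metric on a rank two bundle, the dual norm square of a holomorphic functional is
smooth and plurisubharmonic (Levi form nonnegative in every direction) when the metric is
Griffiths positive.
-/

set_option autoImplicit false

noncomputable section

namespace Crest.Agent.R258

open Crest.AlgGeometry.QuadricBundle
open scoped ComplexConjugate ComplexOrder
open Complex Filter Topology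

/-- Explicit real quadratic form of a Hermitian `2 × 2` matrix. -/
def nForm (A : Matrix (Fin 2) (Fin 2) ℂ) (v : Fin 2 → ℂ) : ℝ :=
  (A 0 0).re * normSq (v 0) + 2 * (A 0 1 * v 0 * conj (v 1)).re + (A 1 1).re * normSq (v 1)

/-- Determinant of a Hermitian `2 × 2` matrix, as a real number. -/
def rdet (A : Matrix (Fin 2) (Fin 2) ℂ) : ℝ :=
  (A 0 0).re * (A 1 1).re - normSq (A 0 1)

/-- Numerator of the dual norm. -/
def mForm (A : Matrix (Fin 2) (Fin 2) ℂ) (f : Fin 2 → ℂ) : ℝ :=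
  (A 1 1).re * normSq (f 0) - 2 * (A 0 1 * f 1 * conj (f 0)).re + (A 0 0).re * normSq (f 1)

/-- The dual norm square of the functional `w ↦ f 0 * w 0 + f 1 * w 1`, for the Hermitian form
`v ↦ ∑ A i j v i conj (v j)`. -/
def dualNormSq (A : Matrix (Fin 2) (Fin 2) ℂ) (f : Fin 2 → ℂ) : ℝ :=
  mForm A f / rdet A

/-- The maximising vector for the functional `f` (unnormalised). -/
def maxVec (A : Matrix (Fin 2) (Fin 2) ℂ) (f : Fin 2 → ℂ) : Fin 2 → ℂ :=
  ![((A 1 1).re : ℂ) * conj (f 0) - conj (A 0 1) * conj (f 1),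
    -(A 0 1) * conj (f 0) + ((A 0 0).re : ℂ) * conj (f 1)]

lemma posDef_facts {A : Matrix (Fin 2) (Fin 2) ℂ} (hA : A.PosDef) :
    (A 0 0).im = 0 ∧ (A 1 1).im = 0 ∧ A 1 0 = conj (A 0 1) ∧ 0 < (A 0 0).re ∧ 0 < (A 1 1).re ∧
      0 < rdet A := by
  have hH := hA.1
  have h00 : conj (A 0 0) = A 0 0 := hH.apply 0 0
  have h11 : conj (A 1 1) = A 1 1 := hH.apply 1 1
  have h10 : conj (A 0 1) = A 1 0 := hH.apply 1 0
  have i00 : (A 0 0).im = 0 := by
    have := congrArg Complex.im h00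
    simp at this; linarith
  have i11 : (A 1 1).im = 0 := by
    have := congrArg Complex.im h11
    simp at this; linarith
  have hd0 : 0 < A 0 0 := hA.diag_pos
  have hd1 : 0 < A 1 1 := hA.diag_pos
  have hdet : 0 < A.det := hA.det_pos
  refine ⟨i00, i11, h10.symm, (Complex.lt_def.1 hd0).1, (Complex.lt_def.1 hd1).1, ?_⟩
  have h := (Complex.lt_def.1 hdet).1
  rw [Matrix.det_fin_two, ← h10] at h
  simp only [Complex.zero_re, Complex.sub_re, Complex.mul_re, Complex.conj_re, Complex.conj_im,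
    i00, i11] at h
  simp only [rdet, Complex.normSq_apply]
  linarith

lemma hNormSq_eq_nForm {H : MetricData 2} {α : Chart} {p : Fin 2 → ℂ} (hA : (H α p).PosDef)
    (v : Fin 2 → ℂ) : hNormSq H α p v = nForm (H α p) v := by
  obtain ⟨h0, h1, h2, -, -, -⟩ := posDef_facts hA
  simp only [hNormSq, nForm, Fin.sum_univ_two, h2]
  simp only [Complex.add_re, Complex.mul_re, Complex.mul_im, Complex.conj_re, Complex.conj_im,
    h0, h1, Complex.normSq_apply]
  ring

/-- The key algebraic identity (Cauchy–Schwarz with remainder). -/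
lemma nForm_mul_mForm (A : Matrix (Fin 2) (Fin 2) ℂ) (f w : Fin 2 → ℂ) :
    nForm A w * mForm A f - rdet A * normSq (f 0 * w 0 + f 1 * w 1) =
      normSq (w 0 * maxVec A f 1 - w 1 * maxVec A f 0) := by
  simp only [nForm, mForm, rdet, maxVec, Complex.normSq_apply, Matrix.cons_val_zero,
    Matrix.cons_val_one]
  simp only [Complex.add_re, Complex.add_im, Complex.sub_re, Complex.sub_im, Complex.mul_re,
    Complex.mul_im, Complex.conj_re, Complex.conj_im, Complex.neg_re, Complex.neg_im,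
    Complex.ofReal_re, Complex.ofReal_im]
  ring

lemma apply_maxVec (A : Matrix (Fin 2) (Fin 2) ℂ) (f : Fin 2 → ℂ) :
    f 0 * maxVec A f 0 + f 1 * maxVec A f 1 = (mForm A f : ℂ) := by
  simp only [mForm, maxVec, Matrix.cons_val_zero, Matrix.cons_val_one]
  apply Complex.ext
  · simp only [Complex.normSq_apply, Complex.add_re, Complex.add_im, Complex.sub_re,
      Complex.sub_im, Complex.mul_re,
      Complex.mul_im, Complex.conj_re, Complex.conj_im, Complex.neg_re, Complex.neg_im,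
      Complex.ofReal_re, Complex.ofReal_im]
    ring
  · simp only [Complex.normSq_apply, Complex.add_re, Complex.add_im, Complex.sub_re,
      Complex.sub_im, Complex.mul_re,
      Complex.mul_im, Complex.conj_re, Complex.conj_im, Complex.neg_re, Complex.neg_im,
      Complex.ofReal_re, Complex.ofReal_im]
    ring

lemma nForm_maxVec (A : Matrix (Fin 2) (Fin 2) ℂ) (f : Fin 2 → ℂ) :
    nForm A (maxVec A f) = rdet A * mForm A f := by
  simp only [nForm, mForm, rdet, maxVec, Matrix.cons_val_zero, Matrix.cons_val_one]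
  simp only [Complex.normSq_apply, Complex.add_re, Complex.add_im, Complex.sub_re,
      Complex.sub_im, Complex.mul_re,
      Complex.mul_im, Complex.conj_re, Complex.conj_im, Complex.neg_re, Complex.neg_im,
      Complex.ofReal_re, Complex.ofReal_im]
  ring

lemma nForm_nonneg {A : Matrix (Fin 2) (Fin 2) ℂ} (hA : A.PosDef) (v : Fin 2 → ℂ) :
    0 ≤ nForm A v := by
  obtain ⟨h0, h1, h2, h3, h4, h5⟩ := posDef_facts hA
  have key : (A 0 0).re * nForm A v =
      normSq ((A 0 0).re * v 0 + conj (A 0 1) * v 1) + rdet A * normSq (v 1) := by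
    simp only [nForm, rdet, Complex.normSq_apply, Complex.add_re, Complex.add_im, Complex.mul_re,
      Complex.mul_im, Complex.conj_re, Complex.conj_im, Complex.ofReal_re, Complex.ofReal_im]
    ring
  have : 0 ≤ (A 0 0).re * nForm A v := by
    rw [key]
    have := Complex.normSq_nonneg ((A 0 0).re * v 0 + conj (A 0 1) * v 1)
    have := mul_nonneg h5.le (Complex.normSq_nonneg (v 1))
    linarith
  exact nonneg_of_mul_nonneg_right this h3

lemma nForm_pos {A : Matrix (Fin 2) (Fin 2) ℂ} (hA : A.PosDef) {v : Fin 2 → ℂ} (hv : v ≠ 0) :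
    0 < nForm A v := by
  obtain ⟨h0, h1, h2, h3, h4, h5⟩ := posDef_facts hA
  have key : (A 0 0).re * nForm A v =
      normSq ((A 0 0).re * v 0 + conj (A 0 1) * v 1) + rdet A * normSq (v 1) := by
    simp only [nForm, rdet, Complex.normSq_apply, Complex.add_re, Complex.add_im, Complex.mul_re,
      Complex.mul_im, Complex.conj_re, Complex.conj_im, Complex.ofReal_re, Complex.ofReal_im]
    ring
  have hpos : 0 < (A 0 0).re * nForm A v := by
    rw [key]
    by_cases h : v 1 = 0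
    · have hv0 : v 0 ≠ 0 := by
        intro h'
        apply hv
        funext i
        fin_cases i <;> simp [h, h']
      have : 0 < normSq ((A 0 0).re * v 0 + conj (A 0 1) * v 1) := by
        rw [h, mul_zero, add_zero]
        apply Complex.normSq_pos.2
        exact mul_ne_zero (by exact_mod_cast h3.ne') hv0
      have := mul_nonneg h5.le (Complex.normSq_nonneg (v 1))
      linarith
    · have := Complex.normSq_nonneg ((A 0 0).re * v 0 + conj (A 0 1) * v 1)
      have := mul_pos h5 (Complex.normSq_pos.2 h)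
      linarith
  exact pos_of_mul_pos_right hpos h3.le

lemma mForm_nonneg {A : Matrix (Fin 2) (Fin 2) ℂ} (hA : A.PosDef) (f : Fin 2 → ℂ) :
    0 ≤ mForm A f := by
  obtain ⟨h0, h1, h2, h3, h4, h5⟩ := posDef_facts hA
  have h := nForm_nonneg hA (maxVec A f)
  rw [nForm_maxVec] at h
  exact nonneg_of_mul_nonneg_right h h5

lemma maxVec_ne_zero {A : Matrix (Fin 2) (Fin 2) ℂ} (hA : A.PosDef) {f : Fin 2 → ℂ} (hf : f ≠ 0) :
    maxVec A f ≠ 0 := by
  obtain ⟨h0, h1, h2, h3, h4, h5⟩ := posDef_facts hA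
  intro h
  apply hf
  have e0 : maxVec A f 0 = 0 := by rw [h]; rfl
  have e1 : maxVec A f 1 = 0 := by rw [h]; rfl
  simp only [maxVec, Matrix.cons_val_zero, Matrix.cons_val_one] at e0 e1
  -- solve the linear system
  have hd : ((rdet A : ℝ) : ℂ) ≠ 0 := by exact_mod_cast h5.ne'
  have hdet : ((rdet A : ℝ) : ℂ) = ((A 0 0).re : ℂ) * ((A 1 1).re : ℂ) - A 0 1 * conj (A 0 1) := by
    rw [Complex.mul_conj]; simp [rdet]
  have c0 : ((rdet A : ℝ) : ℂ) * conj (f 0) = 0 := by
    rw [hdet]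
    linear_combination ((A 0 0).re : ℂ) * e0 + conj (A 0 1) * e1
  have c1 : ((rdet A : ℝ) : ℂ) * conj (f 1) = 0 := by
    rw [hdet]
    linear_combination (A 0 1) * e0 + ((A 1 1).re : ℂ) * e1
  have f0 : f 0 = 0 := by
    have := (mul_eq_zero.1 c0).resolve_left hd
    exact (map_eq_zero _).1 this
  have f1 : f 1 = 0 := by
    have := (mul_eq_zero.1 c1).resolve_left hd
    exact (map_eq_zero _).1 this
  funext i
  fin_cases i <;> simp [f0, f1]

lemma mForm_pos {A : Matrix (Fin 2) (Fin 2) ℂ} (hA : A.PosDef) {f : Fin 2 → ℂ} (hf : f ≠ 0) :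
    0 < mForm A f := by
  obtain ⟨h0, h1, h2, h3, h4, h5⟩ := posDef_facts hA
  have h := nForm_pos hA (maxVec_ne_zero hA hf)
  rw [nForm_maxVec] at h
  exact pos_of_mul_pos_right h h5.le

lemma dualNormSq_nonneg {A : Matrix (Fin 2) (Fin 2) ℂ} (hA : A.PosDef) (f : Fin 2 → ℂ) :
    0 ≤ dualNormSq A f :=
  div_nonneg (mForm_nonneg hA f) (posDef_facts hA).2.2.2.2.2.le

lemma dualNormSq_pos {A : Matrix (Fin 2) (Fin 2) ℂ} (hA : A.PosDef) {f : Fin 2 → ℂ}
    (hf : f ≠ 0) : 0 < dualNormSq A f :=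
  div_pos (mForm_pos hA hf) (posDef_facts hA).2.2.2.2.2

lemma dualNormSq_zero (A : Matrix (Fin 2) (Fin 2) ℂ) : dualNormSq A 0 = 0 := by
  simp [dualNormSq, mForm]

/-- Cauchy–Schwarz for the dual norm. -/
lemma normSq_apply_le {A : Matrix (Fin 2) (Fin 2) ℂ} (hA : A.PosDef) (f w : Fin 2 → ℂ) :
    normSq (f 0 * w 0 + f 1 * w 1) ≤ dualNormSq A f * nForm A w := by
  have h5 := (posDef_facts hA).2.2.2.2.2
  have := nForm_mul_mForm A f w
  have h2 := Complex.normSq_nonneg (w 0 * maxVec A f 1 - w 1 * maxVec A f 0)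
  rw [dualNormSq, div_mul_eq_mul_div, le_div_iff₀ h5]
  nlinarith


/-! ### Calculus in one real variable -/

/-- Necessary second order condition at a local minimum. -/
lemma deriv_deriv_nonneg_of_isLocalMin {G : ℝ → ℝ} {x : ℝ} (hG : ContinuousAt G x)
    (hmin : IsLocalMin G x) : 0 ≤ deriv (deriv G) x := by
  by_contra hneg
  push Not at hneg
  have hmax := isLocalMax_of_deriv_deriv_neg hneg hmin.deriv_eq_zero hG
  have hconst : G =ᶠ[𝓝 x] fun _ => G x := by
    filter_upwards [hmin, hmax] with y h1 h2 using le_antisymm h2 h1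
  have h1 : deriv G =ᶠ[𝓝 x] fun _ => 0 := by
    have := hconst.deriv
    simpa using this
  have : deriv (deriv G) x = 0 := by
    rw [h1.deriv_eq]; simp
  linarith

lemma ContDiffAt_two_facts {F : ℝ → ℝ} {x : ℝ} (hF : ContDiffAt ℝ 2 F x) :
    (∀ᶠ t in 𝓝 x, HasDerivAt F (deriv F t) t) ∧ HasDerivAt (deriv F) (deriv (deriv F) x) x := by
  constructor
  · have := hF.eventually (by simp)
    filter_upwards [this] with t ht
    exact (ht.differentiableAt (by simp)).hasDerivAt
  · have h1 : ContDiffAt ℝ 1 (deriv F) x := by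
      have h := hF.fderiv_right (m := 1) (by norm_num)
      have h2 : ContDiffAt ℝ 1 (fun y => fderiv ℝ F y 1) x := h.clm_apply contDiffAt_const
      exact h2
    exact (h1.differentiableAt (by simp)).hasDerivAt

lemma deriv_deriv_mul_sub {F N u : ℝ → ℝ} {x : ℝ} (hF : ContDiffAt ℝ 2 F x)
    (hN : ContDiffAt ℝ 2 N x) (hu : ContDiffAt ℝ 2 u x) :
    deriv (fun t => F t * N t - u t) x = deriv F x * N x + F x * deriv N x - deriv u x ∧
    deriv (deriv (fun t => F t * N t - u t)) x =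
      deriv (deriv F) x * N x + 2 * (deriv F x * deriv N x) + F x * deriv (deriv N) x
        - deriv (deriv u) x := by
  obtain ⟨F1, F2⟩ := ContDiffAt_two_facts hF
  obtain ⟨N1, N2⟩ := ContDiffAt_two_facts hN
  obtain ⟨u1, u2⟩ := ContDiffAt_two_facts hu
  have e : deriv (fun t => F t * N t - u t) =ᶠ[𝓝 x]
      fun t => deriv F t * N t + F t * deriv N t - deriv u t := by
    filter_upwards [F1, N1, u1] with t h1 h2 h3
    exact ((h1.mul h2).sub h3).deriv
  refine ⟨e.self_of_nhds, ?_⟩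
  rw [e.deriv_eq]
  have h := ((F2.mul N1.self_of_nhds).add (F1.self_of_nhds.mul N2)).sub u2
  exact h.deriv.trans (by ring)

/-- The algebraic core of the estimate. -/
lemma core_ineq {N u F F1 F1' F2 F2' N1 N1' N2 N2' u1 u1' u2 u2' : ℝ} (hN : 0 < N) (hu : 0 < u)
    (hFN : F * N = u) (e1 : F1 * N + F * N1 = u1) (e2 : F2 * N + F * N2 = u2)
    (m1 : 0 ≤ F1' * N + 2 * (F1 * N1) + F * N1' - u1')
    (m2 : 0 ≤ F2' * N + 2 * (F2 * N2) + F * N2' - u2')
    (hu2 : u * (u1' + u2') = u1 ^ 2 + u2 ^ 2) (hN2 : N1' + N2' < 0) : 0 < F1' + F2' := by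
  have key : 0 < u * N ^ 3 * (F1' + F2') := by
    have a1 : 0 ≤ u * N ^ 2 * ((F1' * N + 2 * (F1 * N1) + F * N1' - u1')
        + (F2' * N + 2 * (F2 * N2) + F * N2' - u2')) :=
      mul_nonneg (by positivity) (add_nonneg m1 m2)
    have a2 : u * N ^ 3 * (F1' + F2') = u * N ^ 2 * ((F1' * N + 2 * (F1 * N1) + F * N1' - u1')
        + (F2' * N + 2 * (F2 * N2) + F * N2' - u2'))
        + ((N * u1 - u * N1) ^ 2 + (N * u2 - u * N2) ^ 2) + u ^ 2 * (N1 ^ 2 + N2 ^ 2)
        - u ^ 2 * N * (N1' + N2') := by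
      have h3 : N ^ 2 * (u * (u1' + u2')) = N ^ 2 * (u1 ^ 2 + u2 ^ 2) := by rw [hu2]
      have h4 : u * N ^ 2 * (F1 * N1) = u * N1 * (N * u1 - u * N1) := by
        rw [← e1, ← hFN]; ring
      have h5 : u * N ^ 2 * (F2 * N2) = u * N2 * (N * u2 - u * N2) := by
        rw [← e2, ← hFN]; ring
      have h6 : u * N ^ 2 * (F * N1') = u ^ 2 * N * N1' := by rw [← hFN]; ring
      have h7 : u * N ^ 2 * (F * N2') = u ^ 2 * N * N2' := by rw [← hFN]; ring
      linear_combination h3 - 2 * h4 - 2 * h5 - h6 - h7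
    have a3 : 0 < - (u ^ 2 * N * (N1' + N2')) := by
      have : 0 < u ^ 2 * N := by positivity
      nlinarith
    rw [a2]
    have a4 : 0 ≤ (N * u1 - u * N1) ^ 2 + (N * u2 - u * N2) ^ 2 := by positivity
    have a5 : 0 ≤ u ^ 2 * (N1 ^ 2 + N2 ^ 2) := by positivity
    linarith
  exact pos_of_mul_pos_right key (by positivity)

lemma hasDerivAt_re_conj_mul {h k : ℝ → ℂ} {h' k' : ℂ} {t : ℝ} (hh : HasDerivAt h h' t)
    (hk : HasDerivAt k k' t) :
    HasDerivAt (fun t => (conj (h t) * k t).re) ((conj h' * k t + conj (h t) * k').re) t := by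
  have h1 : HasDerivAt (fun t => conj (h t)) (conj h') t := hh.star
  exact (Complex.reCLM.hasFDerivAt.comp_hasDerivAt t (h1.mul hk))

lemma hasDerivAt_comp_line {ψ : ℂ → ℂ} {c : ℂ} {t : ℝ} {d : ℂ} (h : HasDerivAt ψ d ((t : ℂ) * c)) :
    HasDerivAt (fun t : ℝ => ψ ((t : ℂ) * c)) (d * c) t := by
  have h1 : HasDerivAt (fun t : ℝ => (t : ℂ) * c) c t := by
    simpa using (Complex.ofRealCLM.hasDerivAt (x := t)).mul_const c
  exact h.comp_of_eq t h1 rfl

lemma normSq_line {ψ : ℂ → ℂ} (hψ : AnalyticAt ℂ ψ 0) (c : ℂ) :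
    deriv (fun t : ℝ => normSq (ψ ((t : ℂ) * c))) 0 = 2 * (conj (ψ 0) * (deriv ψ 0 * c)).re ∧
    deriv (deriv (fun t : ℝ => normSq (ψ ((t : ℂ) * c)))) 0 =
      2 * (normSq (deriv ψ 0 * c) + (conj (ψ 0) * (deriv (deriv ψ) 0 * c ^ 2)).re) := by
  have hc : Tendsto (fun t : ℝ => (t : ℂ) * c) (𝓝 0) (𝓝 0) := by
    have : Continuous fun t : ℝ => (t : ℂ) * c := by fun_prop
    simpa using this.tendsto 0
  have h1 : ∀ᶠ t : ℝ in 𝓝 0, HasDerivAt ψ (deriv ψ ((t : ℂ) * c)) ((t : ℂ) * c) := by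
    have := hψ.eventually_analyticAt
    filter_upwards [hc.eventually this] with t ht using ht.differentiableAt.hasDerivAt
  have h2 : HasDerivAt (deriv ψ) (deriv (deriv ψ) (((0 : ℝ) : ℂ) * c)) (((0 : ℝ) : ℂ) * c) := by
    simpa using hψ.deriv.differentiableAt.hasDerivAt
  have hn : (fun t : ℝ => normSq (ψ ((t : ℂ) * c))) =
      fun t : ℝ => (conj (ψ ((t : ℂ) * c)) * ψ ((t : ℂ) * c)).re := by
    funext t
    rw [← Complex.normSq_eq_conj_mul_self, Complex.ofReal_re]
  have e : deriv (fun t : ℝ => normSq (ψ ((t : ℂ) * c))) =ᶠ[𝓝 0]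
      fun t : ℝ => 2 * (conj (ψ ((t : ℂ) * c)) * (deriv ψ ((t : ℂ) * c) * c)).re := by
    filter_upwards [h1] with t ht
    rw [hn]
    have := hasDerivAt_re_conj_mul (hasDerivAt_comp_line ht) (hasDerivAt_comp_line ht)
    rw [this.deriv]
    simp only [Complex.add_re, Complex.mul_re, Complex.mul_im, Complex.conj_re, Complex.conj_im,
      map_mul]
    ring
  refine ⟨by simpa using e.self_of_nhds, ?_⟩
  rw [e.deriv_eq]
  have h3 := hasDerivAt_comp_line h2
  have h4 := hasDerivAt_re_conj_mul (hasDerivAt_comp_line h1.self_of_nhds) (h3.mul_const c)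
  have h5 := h4.const_mul 2
  rw [h5.deriv]
  simp only [Complex.ofReal_zero, zero_mul]
  rw [Complex.add_re, ← Complex.normSq_eq_conj_mul_self, Complex.ofReal_re]
  ring_nf

/-! ### Smoothness along lines -/

lemma contDiffAt_line_of_analyticAt {ψ : ℂ → ℂ} (hψ : AnalyticAt ℂ ψ 0) (c : ℂ) :
    ContDiffAt ℝ 2 (fun t : ℝ => ψ ((t : ℂ) * c)) 0 := by
  have h1 : ContDiffAt ℝ 2 ψ (((0 : ℝ) : ℂ) * c) := by
    have : ContDiffAt ℂ 2 ψ 0 := hψ.contDiffAt
    simpa using this.restrict_scalars ℝ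
  have h2 : ContDiffAt ℝ 2 (fun t : ℝ => (t : ℂ) * c) 0 :=
    (Complex.ofRealCLM.contDiff.mul contDiff_const).contDiffAt
  exact h1.comp (0 : ℝ) h2

/-- Affine complex line. -/
def cline (p ξ : Fin 2 → ℂ) (z : ℂ) : Fin 2 → ℂ := p + z • ξ

lemma analyticAt_comp_cline {U : Set (Fin 2 → ℂ)} (hU : IsOpen U) {p ξ : Fin 2 → ℂ} (hp : p ∈ U)
    {s : (Fin 2 → ℂ) → (Fin 2 → ℂ)} (hs : DifferentiableOn ℂ s U) (i : Fin 2) :
    AnalyticAt ℂ (fun z : ℂ => s (cline p ξ z) i) 0 := by
  have hcont : Continuous (cline p ξ) := by unfold cline; fun_prop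
  have hV : IsOpen (cline p ξ ⁻¹' U) := hU.preimage hcont
  have h0 : (0 : ℂ) ∈ cline p ξ ⁻¹' U := by simpa [cline] using hp
  have hd : DifferentiableOn ℂ (fun z : ℂ => s (cline p ξ z) i) (cline p ξ ⁻¹' U) := by
    have h1 : DifferentiableOn ℂ (cline p ξ) (cline p ξ ⁻¹' U) := by
      unfold cline; fun_prop
    have h2 : DifferentiableOn ℂ (fun z : ℂ => s (cline p ξ z)) (cline p ξ ⁻¹' U) :=
      hs.comp h1 (fun z hz => hz)
    exact (differentiableOn_pi.1 h2) i
  exact hd.analyticAt (hV.mem_nhds h0)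

lemma secondDerivAlong_eq (F : (Fin 2 → ℂ) → ℝ) (p ξ : Fin 2 → ℂ) :
    secondDerivAlong F p ξ = deriv (deriv (fun t : ℝ => F (cline p ξ ((t : ℂ) * 1)))) 0 := by
  simp [secondDerivAlong, cline]

lemma secondDerivAlong_I_eq (F : (Fin 2 → ℂ) → ℝ) (p ξ : Fin 2 → ℂ) :
    secondDerivAlong F p (Complex.I • ξ) =
      deriv (deriv (fun t : ℝ => F (cline p ξ ((t : ℂ) * Complex.I)))) 0 := by
  simp [secondDerivAlong, cline, smul_smul]

lemma leviAlong_eq (F : (Fin 2 → ℂ) → ℝ) (p ξ : Fin 2 → ℂ) :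
    leviAlong F p ξ = deriv (deriv (fun t : ℝ => F (cline p ξ ((t : ℂ) * 1)))) 0 +
      deriv (deriv (fun t : ℝ => F (cline p ξ ((t : ℂ) * Complex.I)))) 0 := by
  rw [leviAlong, secondDerivAlong_I_eq, secondDerivAlong_eq]

lemma contDiff_cline_real (p ξ : Fin 2 → ℂ) (c : ℂ) :
    ContDiff ℝ 2 (fun t : ℝ => cline p ξ ((t : ℂ) * c)) := by
  unfold cline
  have h2 : ContDiff ℝ 2 (fun t : ℝ => (t : ℂ) * c) :=
    (Complex.ofRealCLM.contDiff.mul contDiff_const)
  exact contDiff_const.add (h2.smul contDiff_const)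

variable {g : Transition 2} {H : MetricData 2}

lemma contDiffAt_re {f : ℝ → ℂ} {x : ℝ} (hf : ContDiffAt ℝ 2 f x) :
    ContDiffAt ℝ 2 (fun t => (f t).re) x :=
  Complex.reCLM.contDiff.contDiffAt.comp x hf

lemma contDiffAt_conj {f : ℝ → ℂ} {x : ℝ} (hf : ContDiffAt ℝ 2 f x) :
    ContDiffAt ℝ 2 (fun t => conj (f t)) x :=
  Complex.conjCLE.contDiff.contDiffAt.comp x hf

lemma contDiffAt_normSq {f : ℝ → ℂ} {x : ℝ} (hf : ContDiffAt ℝ 2 f x) :
    ContDiffAt ℝ 2 (fun t => normSq (f t)) x := by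
  have : (fun t => normSq (f t)) = fun t => (conj (f t) * f t).re := by
    funext t
    rw [← Complex.normSq_eq_conj_mul_self, Complex.ofReal_re]
  rw [this]
  exact contDiffAt_re ((contDiffAt_conj hf).mul hf)

lemma contDiffAt_H (hH : IsHermitianMetric g H) (α : Chart) (p ξ : Fin 2 → ℂ) (c : ℂ)
    (i j : Fin 2) (x : ℝ) :
    ContDiffAt ℝ 2 (fun t : ℝ => H α (cline p ξ ((t : ℂ) * c)) i j) x :=
  ((hH.smooth α i j).of_le (show ((2 : ℕ∞) : WithTop ℕ∞) ≤ ((⊤ : ℕ∞) : WithTop ℕ∞) from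
    WithTop.coe_le_coe.2 le_top)).contDiffAt.comp x
    (contDiff_cline_real p ξ c).contDiffAt

lemma contDiffAt_nForm_line (hH : IsHermitianMetric g H) (α : Chart) (p ξ : Fin 2 → ℂ) (c : ℂ)
    {s : ℝ → (Fin 2 → ℂ)} (hs : ∀ i, ContDiffAt ℝ 2 (fun t => s t i) 0) :
    ContDiffAt ℝ 2 (fun t : ℝ => nForm (H α (cline p ξ ((t : ℂ) * c))) (s t)) 0 := by
  unfold nForm
  have h := fun i j => contDiffAt_H hH α p ξ c i j 0
  exact (((contDiffAt_re (h 0 0)).mul (contDiffAt_normSq (hs 0))).add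
    (contDiffAt_const.mul (contDiffAt_re (((h 0 1).mul (hs 0)).mul (contDiffAt_conj (hs 1)))))).add
    ((contDiffAt_re (h 1 1)).mul (contDiffAt_normSq (hs 1)))

lemma contDiffAt_dualNormSq_line (hH : IsHermitianMetric g H) (α : Chart) (p ξ : Fin 2 → ℂ)
    (c : ℂ) {s : ℝ → (Fin 2 → ℂ)} (hs : ∀ i, ContDiffAt ℝ 2 (fun t => s t i) 0) :
    ContDiffAt ℝ 2 (fun t : ℝ => dualNormSq (H α (cline p ξ ((t : ℂ) * c))) (s t)) 0 := by
  unfold dualNormSq
  have h := fun i j => contDiffAt_H hH α p ξ c i j 0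
  refine ContDiffAt.div ?_ ?_ ?_
  · unfold mForm
    exact (((contDiffAt_re (h 1 1)).mul (contDiffAt_normSq (hs 0))).sub
      (contDiffAt_const.mul (contDiffAt_re (((h 0 1).mul (hs 1)).mul
        (contDiffAt_conj (hs 0)))))).add
      ((contDiffAt_re (h 0 0)).mul (contDiffAt_normSq (hs 1)))
  · unfold rdet
    exact ((contDiffAt_re (h 0 0)).mul (contDiffAt_re (h 1 1))).sub (contDiffAt_normSq (h 0 1))
  · exact (posDef_facts (hH.posDef α _)).2.2.2.2.2.ne'

/-- Strict plurisubharmonicity of the dual norm square of a nonvanishing holomorphic functional. -/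
theorem leviAlong_dualNormSq_pos (hH : IsHermitianMetric g H) (hpos : IsGriffithsPositive H)
    (α : Chart) {V : Set (Fin 2 → ℂ)} (hV : IsOpen V) {f : (Fin 2 → ℂ) → (Fin 2 → ℂ)}
    (hf : DifferentiableOn ℂ f V) {p : Fin 2 → ℂ} (hp : p ∈ V) {ξ : Fin 2 → ℂ} (hξ : ξ ≠ 0)
    (hfp : f p ≠ 0) : 0 < leviAlong (fun q => dualNormSq (H α q) (f q)) p ξ := by
  obtain ⟨U, s, hU, hpU, hs, hsp, hlevi⟩ :=
    hpos α p ξ (maxVec (H α p) (f p)) hξ (maxVec_ne_zero (hH.posDef α p) hfp)
  have hP := fun q => hH.posDef α q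
  simp only [leviAlong_eq] at hlevi ⊢
  simp only [fun q => hNormSq_eq_nForm (H := H) (α := α) (hP q)] at hlevi
  -- the one variable holomorphic functions
  have hsA := fun i => analyticAt_comp_cline (ξ := ξ) hU hpU hs i
  have hfA := fun i => analyticAt_comp_cline (ξ := ξ) hV hp hf i
  set φ : ℂ → ℂ := fun z => f (cline p ξ z) 0 * s (cline p ξ z) 0 +
    f (cline p ξ z) 1 * s (cline p ξ z) 1 with hφ
  have hφA : AnalyticAt ℂ φ 0 := ((hfA 0).mul (hsA 0)).add ((hfA 1).mul (hsA 1))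
  have hc0 : cline p ξ 0 = p := by simp [cline]
  have hφ0 : φ 0 = (mForm (H α p) (f p) : ℂ) := by
    simp only [hφ, hc0, hsp]
    exact apply_maxVec _ _
  have hm := mForm_pos (hP p) hfp
  have hr := (posDef_facts (hP p)).2.2.2.2.2
  have hu0 : normSq (φ 0) = mForm (H α p) (f p) ^ 2 := by
    rw [hφ0, Complex.normSq_ofReal]; ring
  have hN0 : nForm (H α p) (s p) = rdet (H α p) * mForm (H α p) (f p) := by
    rw [hsp]; exact nForm_maxVec _ _
  -- the facts for each of the two real directions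
  have main : ∀ c : ℂ,
      (deriv (fun t : ℝ => dualNormSq (H α (cline p ξ ((t : ℂ) * c))) (f (cline p ξ ((t : ℂ) * c)))) 0
          * nForm (H α p) (s p) + dualNormSq (H α p) (f p) *
          deriv (fun t : ℝ => nForm (H α (cline p ξ ((t : ℂ) * c))) (s (cline p ξ ((t : ℂ) * c)))) 0
        = deriv (fun t : ℝ => normSq (φ ((t : ℂ) * c))) 0) ∧
      0 ≤ deriv (deriv (fun t : ℝ =>
            dualNormSq (H α (cline p ξ ((t : ℂ) * c))) (f (cline p ξ ((t : ℂ) * c))))) 0
          * nForm (H α p) (s p)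
        + 2 * (deriv (fun t : ℝ =>
            dualNormSq (H α (cline p ξ ((t : ℂ) * c))) (f (cline p ξ ((t : ℂ) * c)))) 0
          * deriv (fun t : ℝ =>
            nForm (H α (cline p ξ ((t : ℂ) * c))) (s (cline p ξ ((t : ℂ) * c)))) 0)
        + dualNormSq (H α p) (f p) * deriv (deriv (fun t : ℝ =>
            nForm (H α (cline p ξ ((t : ℂ) * c))) (s (cline p ξ ((t : ℂ) * c))))) 0
        - deriv (deriv (fun t : ℝ => normSq (φ ((t : ℂ) * c)))) 0 := by
    intro c
    have hsc : ∀ i, ContDiffAt ℝ 2 (fun t : ℝ => s (cline p ξ ((t : ℂ) * c)) i) 0 :=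
      fun i => contDiffAt_line_of_analyticAt (hsA i) c
    have hfc : ∀ i, ContDiffAt ℝ 2 (fun t : ℝ => f (cline p ξ ((t : ℂ) * c)) i) 0 :=
      fun i => contDiffAt_line_of_analyticAt (hfA i) c
    have cF := contDiffAt_dualNormSq_line hH α p ξ c hfc
    have cN := contDiffAt_nForm_line hH α p ξ c hsc
    have cu : ContDiffAt ℝ 2 (fun t : ℝ => normSq (φ ((t : ℂ) * c))) 0 :=
      contDiffAt_normSq (contDiffAt_line_of_analyticAt hφA c)
    obtain ⟨d1, d2⟩ := deriv_deriv_mul_sub cF cN cu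
    have hz : cline p ξ (((0 : ℝ) : ℂ) * c) = p := by simp [cline]
    simp only [hz] at d1 d2
    have hmin : IsLocalMin (fun t : ℝ =>
        dualNormSq (H α (cline p ξ ((t : ℂ) * c))) (f (cline p ξ ((t : ℂ) * c))) *
          nForm (H α (cline p ξ ((t : ℂ) * c))) (s (cline p ξ ((t : ℂ) * c))) -
          normSq (φ ((t : ℂ) * c))) 0 := by
      refine Filter.Eventually.of_forall fun t => ?_
      have e0 : dualNormSq (H α (cline p ξ (((0 : ℝ) : ℂ) * c))) (f (cline p ξ (((0 : ℝ) : ℂ) * c)))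
          * nForm (H α (cline p ξ (((0 : ℝ) : ℂ) * c))) (s (cline p ξ (((0 : ℝ) : ℂ) * c))) -
          normSq (φ (((0 : ℝ) : ℂ) * c)) = 0 := by
        simp only [hz]
        rw [show (((0 : ℝ) : ℂ) * c) = 0 by simp, hu0, hN0, dualNormSq]
        field_simp
        ring
      simp only [e0]
      have := normSq_apply_le (hP (cline p ξ ((t : ℂ) * c))) (f (cline p ξ ((t : ℂ) * c)))
        (s (cline p ξ ((t : ℂ) * c)))
      simp only [hφ]
      linarith
    have hcont := ((cF.mul cN).sub cu).continuousAt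
    refine ⟨?_, ?_⟩
    · have := hmin.deriv_eq_zero
      rw [d1] at this
      linarith
    · have := deriv_deriv_nonneg_of_isLocalMin hcont hmin
      rw [← d2]
      exact this
  have hN1 := (main 1)
  have hNI := (main Complex.I)
  have hu1 := normSq_line hφA 1
  have huI := normSq_line hφA Complex.I
  refine core_ineq (N := nForm (H α p) (s p)) (u := normSq (φ 0)) (F := dualNormSq (H α p) (f p))
    ?_ ?_ ?_ hN1.1 hNI.1 hN1.2 hNI.2 ?_ hlevi
  · rw [hN0]; positivity
  · rw [hu0]; positivity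
  · rw [hu0, hN0, dualNormSq]; field_simp
  · rw [hu1.1, hu1.2, huI.1, huI.2]
    simp only [mul_one, one_pow, Complex.I_sq, Complex.normSq_apply, Complex.mul_re,
      Complex.mul_im, Complex.conj_re, Complex.conj_im, Complex.I_re, Complex.I_im,
      Complex.neg_re, Complex.neg_im, Complex.one_re, Complex.one_im]
    ring

/-- Plurisubharmonicity of the dual norm square of a holomorphic functional. -/
theorem leviAlong_dualNormSq_nonneg (hH : IsHermitianMetric g H) (hpos : IsGriffithsPositive H)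
    (α : Chart) {V : Set (Fin 2 → ℂ)} (hV : IsOpen V) {f : (Fin 2 → ℂ) → (Fin 2 → ℂ)}
    (hf : DifferentiableOn ℂ f V) {p : Fin 2 → ℂ} (hp : p ∈ V) (ξ : Fin 2 → ℂ) :
    0 ≤ leviAlong (fun q => dualNormSq (H α q) (f q)) p ξ := by
  by_cases hξ : ξ = 0
  · subst hξ
    simp [leviAlong, secondDerivAlong]
  by_cases hfp : f p = 0
  · -- the function has a global minimum at `p`
    have hfA := fun i => analyticAt_comp_cline (ξ := ξ) hV hp hf i
    simp only [leviAlong_eq]
    have main : ∀ c : ℂ, 0 ≤ deriv (deriv (fun t : ℝ =>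
        dualNormSq (H α (cline p ξ ((t : ℂ) * c))) (f (cline p ξ ((t : ℂ) * c))))) 0 := by
      intro c
      have hfc : ∀ i, ContDiffAt ℝ 2 (fun t : ℝ => f (cline p ξ ((t : ℂ) * c)) i) 0 :=
        fun i => contDiffAt_line_of_analyticAt (hfA i) c
      have cF := contDiffAt_dualNormSq_line hH α p ξ c hfc
      refine deriv_deriv_nonneg_of_isLocalMin cF.continuousAt ?_
      refine Filter.Eventually.of_forall fun t => ?_
      have hz : cline p ξ (((0 : ℝ) : ℂ) * c) = p := by simp [cline]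
      simp only [hz, hfp]
      rw [dualNormSq_zero]
      exact dualNormSq_nonneg (hH.posDef α _) _
    exact add_nonneg (main 1) (main Complex.I)
  · exact (leviAlong_dualNormSq_pos hH hpos α hV hf hp hξ hfp).le

/-! ### Smoothness on open sets -/

lemma contDiff_normSq_comp {E : Type*} [NormedAddCommGroup E] [NormedSpace ℝ E] {n : WithTop ℕ∞}
    {f : E → ℂ} {V : Set E} (hf : ContDiffOn ℝ n f V) :
    ContDiffOn ℝ n (fun t => normSq (f t)) V := by
  have : (fun t => normSq (f t)) = fun t => (conj (f t) * f t).re := by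
    funext t
    rw [← Complex.normSq_eq_conj_mul_self, Complex.ofReal_re]
  rw [this]
  exact Complex.reCLM.contDiff.comp_contDiffOn
    ((Complex.conjCLE.contDiff.comp_contDiffOn hf).mul hf)

/-- Smoothness of the dual norm square of a smooth functional. -/
theorem contDiffOn_dualNormSq (hH : IsHermitianMetric g H) (α : Chart) {V : Set (Fin 2 → ℂ)}
    {f : (Fin 2 → ℂ) → (Fin 2 → ℂ)} (hf : ∀ i, ContDiffOn ℝ (⊤ : ℕ∞) (fun q => f q i) V) :
    ContDiffOn ℝ (⊤ : ℕ∞) (fun q => dualNormSq (H α q) (f q)) V := by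
  have hs : ∀ i j, ContDiffOn ℝ (⊤ : ℕ∞) (fun q => H α q i j) V :=
    fun i j => (hH.smooth α i j).contDiffOn
  have hre : ∀ {k : (Fin 2 → ℂ) → ℂ}, ContDiffOn ℝ (⊤ : ℕ∞) k V →
      ContDiffOn ℝ (⊤ : ℕ∞) (fun q => (k q).re) V :=
    fun hk => Complex.reCLM.contDiff.comp_contDiffOn hk
  have hconj : ∀ {k : (Fin 2 → ℂ) → ℂ}, ContDiffOn ℝ (⊤ : ℕ∞) k V →
      ContDiffOn ℝ (⊤ : ℕ∞) (fun q => conj (k q)) V :=
    fun hk => Complex.conjCLE.contDiff.comp_contDiffOn hk
  unfold dualNormSq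
  refine ContDiffOn.div ?_ ?_ ?_
  · unfold mForm
    exact ((hre (hs 1 1)).mul (contDiff_normSq_comp (hf 0))).sub
      (contDiffOn_const.mul (hre (((hs 0 1).mul (hf 1)).mul (hconj (hf 0)))))
      |>.add ((hre (hs 0 0)).mul (contDiff_normSq_comp (hf 1)))
  · unfold rdet
    exact ((hre (hs 0 0)).mul (hre (hs 1 1))).sub (contDiff_normSq_comp (hs 0 1))
  · intro q _
    exact (posDef_facts (hH.posDef α q)).2.2.2.2.2.ne'

/-! ### Norm properties -/

lemma dualNormSq_smul (A : Matrix (Fin 2) (Fin 2) ℂ) (c : ℂ) (f : Fin 2 → ℂ) :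
    dualNormSq A (c • f) = normSq c * dualNormSq A f := by
  unfold dualNormSq mForm
  rw [← mul_div_assoc]
  congr 1
  simp only [Pi.smul_apply, smul_eq_mul, Complex.normSq_apply, Complex.mul_re, Complex.mul_im,
    Complex.conj_re, Complex.conj_im]
  ring

/-- The dual norm is attained. -/
lemma normSq_apply_maxVec {A : Matrix (Fin 2) (Fin 2) ℂ} (hA : A.PosDef) (f : Fin 2 → ℂ) :
    normSq (f 0 * maxVec A f 0 + f 1 * maxVec A f 1) = dualNormSq A f * nForm A (maxVec A f) := by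
  have h5 := (posDef_facts hA).2.2.2.2.2
  rw [apply_maxVec, nForm_maxVec, Complex.normSq_ofReal, dualNormSq]
  field_simp

/-- If `|f · w|² ≤ C |w|²` for all `w` then the dual norm square is at most `C`. -/
lemma dualNormSq_le_of_forall {A : Matrix (Fin 2) (Fin 2) ℂ} (hA : A.PosDef) {f : Fin 2 → ℂ}
    {C : ℝ} (h : ∀ w : Fin 2 → ℂ, normSq (f 0 * w 0 + f 1 * w 1) ≤ C * nForm A w) (hC : 0 ≤ C) :
    dualNormSq A f ≤ C := by
  by_cases hf : f = 0
  · rw [hf, dualNormSq_zero]; exact hC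
  have h1 := h (maxVec A f)
  rw [normSq_apply_maxVec hA] at h1
  exact le_of_mul_le_mul_right h1 (nForm_pos hA (maxVec_ne_zero hA hf))

/-- Triangle inequality for the dual norm. -/
lemma sqrt_dualNormSq_add_le {A : Matrix (Fin 2) (Fin 2) ℂ} (hA : A.PosDef) (f k : Fin 2 → ℂ) :
    Real.sqrt (dualNormSq A (f + k)) ≤ Real.sqrt (dualNormSq A f) + Real.sqrt (dualNormSq A k) := by
  have hle : dualNormSq A (f + k) ≤
      (Real.sqrt (dualNormSq A f) + Real.sqrt (dualNormSq A k)) ^ 2 := by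
    refine dualNormSq_le_of_forall hA (fun w => ?_) (by positivity)
    have h1 := normSq_apply_le hA f w
    have h2 := normSq_apply_le hA k w
    have hn := nForm_nonneg hA w
    have hF := dualNormSq_nonneg hA f
    have hK := dualNormSq_nonneg hA k
    have e1 : ‖f 0 * w 0 + f 1 * w 1‖ ≤ Real.sqrt (dualNormSq A f) * Real.sqrt (nForm A w) := by
      rw [← Real.sqrt_mul hF]
      apply Real.le_sqrt_of_sq_le
      rw [← Complex.normSq_eq_norm_sq]; exact h1
    have e2 : ‖k 0 * w 0 + k 1 * w 1‖ ≤ Real.sqrt (dualNormSq A k) * Real.sqrt (nForm A w) := by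
      rw [← Real.sqrt_mul hK]
      apply Real.le_sqrt_of_sq_le
      rw [← Complex.normSq_eq_norm_sq]; exact h2
    have e3 : ‖(f + k) 0 * w 0 + (f + k) 1 * w 1‖ ≤
        (Real.sqrt (dualNormSq A f) + Real.sqrt (dualNormSq A k)) * Real.sqrt (nForm A w) := by
      have : (f + k) 0 * w 0 + (f + k) 1 * w 1 =
          (f 0 * w 0 + f 1 * w 1) + (k 0 * w 0 + k 1 * w 1) := by
        simp only [Pi.add_apply]; ring
      rw [this, add_mul]
      exact (norm_add_le _ _).trans (add_le_add e1 e2)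
    rw [Complex.normSq_eq_norm_sq]
    calc ‖(f + k) 0 * w 0 + (f + k) 1 * w 1‖ ^ 2
        ≤ ((Real.sqrt (dualNormSq A f) + Real.sqrt (dualNormSq A k)) * Real.sqrt (nForm A w)) ^ 2 :=
          pow_le_pow_left₀ (norm_nonneg _) e3 2
      _ = (Real.sqrt (dualNormSq A f) + Real.sqrt (dualNormSq A k)) ^ 2 * nForm A w := by
          rw [mul_pow, Real.sq_sqrt hn]
  calc Real.sqrt (dualNormSq A (f + k))
      ≤ Real.sqrt ((Real.sqrt (dualNormSq A f) + Real.sqrt (dualNormSq A k)) ^ 2) :=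
        Real.sqrt_le_sqrt hle
    _ = _ := Real.sqrt_sq (by positivity)

/-- Change of frame: with `A' = Mᵀ A conj M` and `f' = Mᵀ f` the dual norm is unchanged. -/
lemma dualNormSq_frame (A M : Matrix (Fin 2) (Fin 2) ℂ) (hA : A.PosDef)
    (hA' : (M.transpose * A * M.map conj).PosDef) (hM : M.det ≠ 0) (f : Fin 2 → ℂ) :
    dualNormSq (M.transpose * A * M.map conj) (M.transpose.mulVec f) = dualNormSq A f := by
  have hn : ∀ w, nForm (M.transpose * A * M.map conj) w = nForm A (M.mulVec w) := by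
    intro w
    obtain ⟨h0, h1, h2, -, -, -⟩ := posDef_facts hA
    simp only [nForm, Matrix.mul_apply, Matrix.mulVec, dotProduct, Fin.sum_univ_two,
      Matrix.transpose_apply, Matrix.map_apply, h2]
    simp only [Complex.normSq_apply, Complex.add_re, Complex.add_im, Complex.mul_re,
      Complex.mul_im, Complex.conj_re, Complex.conj_im, h0, h1]
    ring
  have hf : ∀ w, (M.transpose.mulVec f) 0 * w 0 + (M.transpose.mulVec f) 1 * w 1 =
      f 0 * (M.mulVec w) 0 + f 1 * (M.mulVec w) 1 := by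
    intro w
    simp only [Matrix.mulVec, dotProduct, Fin.sum_univ_two, Matrix.transpose_apply]
    ring
  apply le_antisymm
  · refine dualNormSq_le_of_forall hA' (fun w => ?_) (dualNormSq_nonneg hA f)
    rw [hf, hn]
    exact normSq_apply_le hA f _
  · refine dualNormSq_le_of_forall hA (fun w => ?_) (dualNormSq_nonneg hA' _)
    have hu : IsUnit M.det := isUnit_iff_ne_zero.2 hM
    have hw : M.mulVec (M⁻¹.mulVec w) = w := by
      rw [Matrix.mulVec_mulVec, Matrix.mul_nonsing_inv M hu, Matrix.one_mulVec]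
    have := normSq_apply_le hA' (M.transpose.mulVec f) (M⁻¹.mulVec w)
    rw [hf, hn, hw] at this
    exact this

/-- Change of chart for the dual norm. -/
theorem dualNormSq_compat (hg : IsHoloCocycle g) (hH : IsHermitianMetric g H) {α β : Chart}
    {p : Fin 2 → ℂ} (hp : p ∈ overlap α β) (f : Fin 2 → ℂ) :
    dualNormSq (H β (tau α β p)) ((g α β p).transpose.mulVec f) = dualNormSq (H α p) f := by
  have hc := hH.compat α β p hp
  have hdet : (g α β p).det ≠ 0 := by
    have hpa : p ∈ overlap α α := by simp [overlap]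
    have h1 := hg.cocycle α β α p ⟨hp, hpa⟩
    rw [hg.refl α p] at h1
    intro h0
    have := congrArg Matrix.det h1
    rw [Matrix.det_mul, h0, zero_mul, Matrix.det_one] at this
    exact zero_ne_one this
  have hA' := hH.posDef β (tau α β p)
  rw [hc] at hA' ⊢
  exact dualNormSq_frame _ _ (hH.posDef α p) hA' hdet f

end Crest.Agent.R258
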