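import Crest.Agent.R258.Contra
import Crest.Agent.R258.Bundle

/-!
The concrete data `f = TT`, `v = nu` in the chart `(0,0)` admit no `RelData`.
-/

set_option autoImplicit false

noncomputable section

namespace Crest.Agent.R258

/-- `f`, the first component of `sTwo (0,0)`. -/
def fZero (X Y : ℂ) : ℂ := TT (muB 0) 1 X Y

/-- `v`, the second component of `sTwo (0,0)`. -/
def vZero (X Y : ℂ) : ℂ := nu (muB 0) 1 X Y

theorem continuous_fZero : Continuous fun p : ℂ × ℂ => fZero p.1 p.2 := by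
  unfold fZero TT t1 t2 del
  fun_prop

theorem continuous_vZero : Continuous fun p : ℂ × ℂ => vZero p.1 p.2 := by
  unfold vZero nu
  fun_prop

theorem muB_zero : muB 0 = ((1 + Real.sqrt 2 : ℝ) : ℂ) := by simp [muB]

theorem one_lt_mu : 1 < 1 + Real.sqrt 2 := by
  have : 0 < Real.sqrt 2 := Real.sqrt_pos.2 (by norm_num)
  linarith

theorem del_eq (Y : ℂ) : del (muB 0) Y =
    ((1 + Real.sqrt 2 : ℝ) : ℂ) - Y ^ 2 / ((1 + Real.sqrt 2 : ℝ) : ℂ) := by
  have h := muB_sq 0
  rw [muB_zero] at h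
  have h0 : ((1 + Real.sqrt 2 : ℝ) : ℂ) ≠ 0 := by
    have := one_lt_mu
    exact_mod_cast (by linarith : (0 : ℝ) < 1 + Real.sqrt 2).ne'
  unfold del
  rw [muB_zero]
  field_simp
  linear_combination (-Y ^ 2) * h

theorem fZero_circle (Y : ℂ) (ρ : ℝ) : ∃ R, ρ ≤ R ∧ ∀ X : ℂ, ‖X‖ = R → fZero X Y ≠ 0 := by
  refine ⟨max ρ (max (‖(1 + Y ^ 2) / (2 * Y)‖ + 1) (‖2 * Y / del (muB 0) Y‖ + 1)),
    le_max_left _ _, fun X hX h0 => ?_⟩
  have hX1 : ‖(1 + Y ^ 2) / (2 * Y)‖ < ‖X‖ := by
    rw [hX]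
    exact lt_of_lt_of_le (lt_add_one _) ((le_max_left _ _).trans (le_max_right _ _))
  have hX2 : ‖2 * Y / del (muB 0) Y‖ < ‖X‖ := by
    rw [hX]
    exact lt_of_lt_of_le (lt_add_one _) ((le_max_right _ _).trans (le_max_right _ _))
  have hμ0 : muB 0 ≠ 0 := by
    rw [muB_zero]
    have := one_lt_mu
    exact_mod_cast (by linarith : (0 : ℝ) < 1 + Real.sqrt 2).ne'
  unfold fZero TT at h0
  rcases mul_eq_zero.1 h0 with h0 | h0
  · simp at h0
  rcases mul_eq_zero.1 h0 with h0 | h0
  · unfold t1 at h0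
    have hY : Y ≠ 0 := by
      rintro rfl
      norm_num at h0
    have : (1 + Y ^ 2) / (2 * Y) = X := by
      rw [div_eq_iff (mul_ne_zero two_ne_zero hY)]
      linear_combination (-1 : ℂ) * h0
    rw [this] at hX1
    exact lt_irrefl _ hX1
  · unfold t2 at h0
    have hd : del (muB 0) Y ≠ 0 := by
      intro hd
      rw [hd] at h0
      have hY : Y = 0 := by linear_combination (-1 / 2 : ℂ) * h0
      rw [hY] at hd
      unfold del at hd
      apply hμ0
      linear_combination hd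
    have : 2 * Y / del (muB 0) Y = X := by
      rw [div_eq_iff hd]
      linear_combination (-1 : ℂ) * h0
    rw [this] at hX2
    exact lt_irrefl _ hX2

theorem nrel_nu_smul (m c x0 x1 y : ℂ) : nu m (c * x0) (c * x1) y = c ^ 4 * nu m x0 x1 y := by
  unfold nu
  ring

theorem no_relData {P Q E : ℕ → ℂ → ℂ → ℝ} (h : RelData fZero vZero P Q E) : False := by
  refine h.contra continuous_fZero continuous_vZero fZero_circle (1 + Real.sqrt 2) one_lt_mu
    ?_ ?_ ?_ ?_
  · intro X Y h0
    have : t1 1 X Y = 0 := by unfold t1; linear_combination h0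
    unfold fZero TT
    rw [this, zero_mul, mul_zero]
  · intro X Y h0
    rw [← del_eq] at h0
    have : t2 (muB 0) 1 X Y = 0 := by unfold t2; linear_combination h0
    unfold fZero TT
    rw [this, mul_zero, mul_zero]
  · intro X Y h0
    have h1 := nu_U (muB 0) Y (muB_sq 0)
    have h2 : nu (muB 0) (2 * Y) (1 + Y ^ 2) Y = nu (muB 0) ((2 * Y) * 1) ((2 * Y) * X) Y := by
      congr 1
      · ring
      · linear_combination (-1 : ℂ) * h0
    rw [h2, nrel_nu_smul] at h1
    unfold vZero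
    linear_combination h1
  · intro X Y h0
    rw [← del_eq] at h0 ⊢
    have h1 := nu_V (muB 0) Y (muB_sq 0)
    have h2 : nu (muB 0) (del (muB 0) Y) (2 * Y) Y
        = nu (muB 0) ((del (muB 0) Y) * 1) ((del (muB 0) Y) * X) Y := by
      congr 1
      · ring
      · linear_combination (-1 : ℂ) * h0
    rw [h2, nrel_nu_smul] at h1
    unfold vZero
    linear_combination h1

end Crest.Agent.R258
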