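import Crest.Agent.R258.RelDataOf
import Crest.Agent.R258.NoRel

/-!
Row 258 (S0396): the bundles `ψ_N^* E (1,1)` are not all Griffiths positive, and the final
statement from global generation of all `Symⁿ E (0,4)`.
-/

set_option autoImplicit false

noncomputable section

open Crest Crest.AlgGeometry Crest.AlgGeometry.QuadricBundle

namespace Crest.Agent.R258

/-- For some `N`, the bundle `ψ_{N+1}^* E (1,1)` carries no Griffiths positive metric. -/
theorem exists_not_griffithsPositive :
    ∃ N : ℕ, ∀ H : MetricData 2, IsHermitianMetric (pullTwist (N + 1) gBase) H →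
      ¬ IsGriffithsPositive H := by
  by_contra hcon
  push Not at hcon
  obtain ⟨P, Q, E, hrel⟩ := exists_relData_of_metrics (g := gBase) (s2 := sTwo)
    (fun α => differentiable_pi.mpr (sTwo_differentiable α))
    (fun α β p hp => sOne_trans hp) (fun α β p hp => sTwo_trans hp) gBase_cocycle hcon
  refine no_relData (P := P) (Q := Q) (E := E) ?_
  have h1 : (fun X Y : ℂ => sTwo (0, 0) ![X, Y] 0) = fZero := by
    funext X Y
    simp [sTwo, fZero, hx0, hx1]
  have h2 : (fun X Y : ℂ => sTwo (0, 0) ![X, Y] 1) = vZero := by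
    funext X Y
    simp [sTwo, vZero, hx0, hx1]
  rw [h1, h2] at hrel
  exact hrel

/-- The statement of S0396 from global generation of `Symⁿ E (0,4)`. -/
theorem main_of_GG (hGG : ∀ n, GG gBase n 0 4) :
    ∃ g : Transition 2, IsHoloCocycle g ∧ IsAmple g ∧
      ∀ H : MetricData 2, IsHermitianMetric g H → ¬ IsGriffithsPositive H := by
  obtain ⟨N, hN⟩ := exists_not_griffithsPositive
  exact ⟨pullTwist (N + 1) gBase, isHoloCocycle_pullTwist (N + 1) gBase_cocycle,
    isAmple_pullTwist (N := N + 1) (b := 4) hGG, hN⟩

end Crest.Agent.R258
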