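import Mathlib

/-!
The functional-equation endgame: the two relaxed limit functions vanish on the unit disc.
-/

namespace Crest.Agent.R258

noncomputable section

open Complex

/-- Functional equations of the relaxed limits, and the resulting vanishing. -/
theorem final_fe (A B : ℂ → ℝ) (μ : ℝ) (hμ : 1 < μ)
    (hA0 : ∀ Y, 0 ≤ A Y) (hB0 : ∀ X, 0 ≤ B X)
    (hC1 : ∀ Y : ℂ, Y ≠ 0 → B ((1 + Y ^ 2) / (2 * Y)) * ‖2 * Y‖ ^ 4 = A Y)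
    (hC2 : ∀ Y : ℂ, (μ : ℂ) - Y ^ 2 / μ ≠ 0 →
      B (2 * Y / ((μ : ℂ) - Y ^ 2 / μ)) * ‖(μ : ℂ) - Y ^ 2 / μ‖ ^ 4 = A Y)
    (hbdd : ∃ C₀ : ℝ, ∀ Y, ‖Y‖ ≤ μ → A Y ≤ C₀)
    (hL4 : ∀ r₀ R₀ b : ℝ, 0 < r₀ → r₀ < 1 → 1 < R₀ →
      (∀ X, ‖X‖ = r₀ → B X ≤ b * r₀ ^ 2) → (∀ X, ‖X‖ = R₀ → B X ≤ b * R₀ ^ 2) →
      ∀ X, ‖X‖ = 1 → B X ≤ b)
    (hLB : ∀ b : ℝ, (∀ X, ‖X‖ = 1 → B X ≤ b) → ∀ X, ‖X‖ ≤ 1 → B X ≤ b)
    (hLA : ∀ b : ℝ, (∀ Y, ‖Y‖ = 1 → A Y ≤ b) → ∀ Y, ‖Y‖ ≤ 1 → A Y ≤ b) :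
    (∀ Y, ‖Y‖ ≤ 1 → A Y = 0) ∧ (∀ X, ‖X‖ ≤ 1 → B X = 0) := by
  have hμ0 : (0 : ℝ) < μ := by linarith
  have hμc : (μ : ℂ) ≠ 0 := by exact_mod_cast hμ0.ne'
  -- first involution
  have hinv1 : ∀ Y : ℂ, Y ≠ 0 → A Y = ‖Y‖ ^ 8 * A Y⁻¹ := by
    intro Y hY
    have hY' : Y⁻¹ ≠ 0 := inv_ne_zero hY
    have e : (1 + Y⁻¹ ^ 2) / (2 * Y⁻¹) = (1 + Y ^ 2) / (2 * Y) := by
      field_simp; ring
    have h1 := hC1 Y hY
    have h2 := hC1 Y⁻¹ hY'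
    rw [e] at h2
    rw [← h1, ← h2]
    simp only [norm_mul, norm_inv]
    have : ‖Y‖ ≠ 0 := norm_ne_zero_iff.2 hY
    field_simp
  -- second involution, combined
  have hinv2 : ∀ Y : ℂ, Y ≠ 0 → (μ : ℂ) - Y ^ 2 / μ ≠ 0 →
      A (-(μ : ℂ) ^ 2 / Y) * ‖Y‖ ^ 8 = μ ^ 8 * A Y := by
    intro Y hY hne
    set Z : ℂ := -(μ : ℂ) ^ 2 / Y with hZ
    have hZe : (μ : ℂ) - Z ^ 2 / μ = -((μ : ℂ) ^ 2 / Y ^ 2) * ((μ : ℂ) - Y ^ 2 / μ) := by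
      rw [hZ]; field_simp; ring
    have hneZ : (μ : ℂ) - Z ^ 2 / μ ≠ 0 := by
      rw [hZe]
      refine mul_ne_zero (neg_ne_zero.2 (div_ne_zero (pow_ne_zero _ hμc) (pow_ne_zero _ hY))) hne
    have e : 2 * Z / ((μ : ℂ) - Z ^ 2 / μ) = 2 * Y / ((μ : ℂ) - Y ^ 2 / μ) := by
      rw [hZe, hZ]
      field_simp
    have h1 := hC2 Y hne
    have h2 := hC2 Z hneZ
    rw [e] at h2
    rw [← h1, ← h2, hZe, norm_mul, norm_neg, norm_div, norm_pow, norm_pow, Complex.norm_real,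
      Real.norm_of_nonneg hμ0.le]
    have : ‖Y‖ ≠ 0 := norm_ne_zero_iff.2 hY
    field_simp
  have hscale : ∀ Y : ℂ, Y ≠ 0 → ‖Y‖ < μ⁻¹ → A Y = (μ ^ 8)⁻¹ * A (-(μ : ℂ) ^ 2 * Y) := by
    intro Y hY hlt
    have hYn : ‖Y‖ ≠ 0 := norm_ne_zero_iff.2 hY
    have hYi : Y⁻¹ ≠ 0 := inv_ne_zero hY
    have hne : (μ : ℂ) - Y⁻¹ ^ 2 / μ ≠ 0 := by
      intro h0
      have h1 : Y⁻¹ ^ 2 = (μ : ℂ) ^ 2 := by
        field_simp at h0 ⊢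
        linear_combination -h0
      have h2 : ‖Y‖⁻¹ ^ 2 = μ ^ 2 := by
        have := congrArg norm h1
        simpa [norm_pow, norm_inv, Complex.norm_real, abs_of_pos hμ0] using this
      have h3 : ‖Y‖⁻¹ = μ := by
        have h4 : 0 ≤ ‖Y‖⁻¹ := by positivity
        exact (pow_left_inj₀ h4 hμ0.le (by norm_num)).1 h2
      rw [← h3, inv_inv] at hlt
      exact lt_irrefl _ hlt
    have h1 := hinv2 Y⁻¹ hYi hne
    have h2 := hinv1 Y hY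
    have e : -(μ : ℂ) ^ 2 / Y⁻¹ = -(μ : ℂ) ^ 2 * Y := by field_simp
    rw [e, norm_inv] at h1
    rw [h2]
    have h3 : A Y⁻¹ = (μ ^ 8)⁻¹ * (A (-(μ : ℂ) ^ 2 * Y) * ‖Y‖⁻¹ ^ 8) := by
      rw [h1]; field_simp
    rw [h3]
    field_simp
  obtain ⟨C₀, hC₀⟩ := hbdd
  have hC₀' : 0 ≤ C₀ := le_trans (hA0 0) (hC₀ 0 (by simpa using hμ0.le))
  -- growth bound near `0`
  have hsmall : ∀ n : ℕ, ∀ Y : ℂ, Y ≠ 0 → μ⁻¹ ≤ μ ^ (2 * n) * ‖Y‖ → ‖Y‖ < μ →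
      A Y ≤ C₀ * μ ^ 4 * ‖Y‖ ^ 4 := by
    intro n
    induction n with
    | zero =>
      intro Y hY h1 h2
      simp only [mul_zero, pow_zero, one_mul] at h1
      have h3 : 1 ≤ μ * ‖Y‖ := by
        rw [inv_le_iff_one_le_mul₀ hμ0] at h1; linarith [h1, mul_comm ‖Y‖ μ]
      calc A Y ≤ C₀ := hC₀ Y h2.le
        _ = C₀ * 1 := by ring
        _ ≤ C₀ * (μ * ‖Y‖) ^ 4 := mul_le_mul_of_nonneg_left (one_le_pow₀ h3) hC₀'
        _ = _ := by ring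
    | succ n ih =>
      intro Y hY h1 h2
      by_cases hlt : ‖Y‖ < μ⁻¹
      · have hnorm : ‖-(μ : ℂ) ^ 2 * Y‖ = μ ^ 2 * ‖Y‖ := by
          rw [norm_mul, norm_neg, norm_pow, Complex.norm_real, Real.norm_of_nonneg hμ0.le]
        have hYne : -(μ : ℂ) ^ 2 * Y ≠ 0 :=
          mul_ne_zero (neg_ne_zero.2 (pow_ne_zero _ hμc)) hY
        have h3 := ih (-(μ : ℂ) ^ 2 * Y) hYne
          (by rw [hnorm]; calc μ⁻¹ ≤ μ ^ (2 * (n + 1)) * ‖Y‖ := h1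
                _ = _ := by ring)
          (by rw [hnorm]
              calc μ ^ 2 * ‖Y‖ < μ ^ 2 * μ⁻¹ := mul_lt_mul_of_pos_left hlt (by positivity)
                _ = μ := by field_simp)
        rw [hscale Y hY hlt]
        rw [hnorm] at h3
        calc (μ ^ 8)⁻¹ * A (-(μ : ℂ) ^ 2 * Y) ≤ (μ ^ 8)⁻¹ * (C₀ * μ ^ 4 * (μ ^ 2 * ‖Y‖) ^ 4) :=
              mul_le_mul_of_nonneg_left h3 (by positivity)
          _ = _ := by field_simp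
      · rw [not_lt] at hlt
        have h3 : 1 ≤ μ * ‖Y‖ := by
          rw [inv_le_iff_one_le_mul₀ hμ0] at hlt; linarith [hlt, mul_comm ‖Y‖ μ]
        calc A Y ≤ C₀ := hC₀ Y h2.le
          _ = C₀ * 1 := by ring
          _ ≤ C₀ * (μ * ‖Y‖) ^ 4 := mul_le_mul_of_nonneg_left (one_le_pow₀ h3) hC₀'
          _ = _ := by ring
  have hA1 : ∀ Y : ℂ, Y ≠ 0 → ‖Y‖ < μ → A Y ≤ C₀ * μ ^ 4 * ‖Y‖ ^ 4 := by
    intro Y hY hlt
    have hYn : 0 < ‖Y‖ := norm_pos_iff.2 hY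
    obtain ⟨n, hn⟩ := pow_unbounded_of_one_lt (μ⁻¹ / ‖Y‖) (one_lt_pow₀ hμ (n := 2) (by norm_num))
    refine hsmall n Y hY ?_ hlt
    rw [← pow_mul] at hn
    rw [div_lt_iff₀ hYn] at hn
    exact hn.le
  have hA2 : ∀ Y : ℂ, Y ≠ 0 → A Y ≤ C₀ * μ ^ 4 * ‖Y‖ ^ 4 := by
    intro Y hY
    by_cases hlt : ‖Y‖ < μ
    · exact hA1 Y hY hlt
    · rw [not_lt] at hlt
      have hYn : 0 < ‖Y‖ := norm_pos_iff.2 hY
      have h1 : ‖Y⁻¹‖ < μ := by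
        rw [norm_inv]
        calc ‖Y‖⁻¹ ≤ 1 := inv_le_one_of_one_le₀ (by linarith)
          _ < μ := hμ
      have h2 := hA1 Y⁻¹ (inv_ne_zero hY) h1
      rw [hinv1 Y hY]
      rw [norm_inv] at h2
      calc ‖Y‖ ^ 8 * A Y⁻¹ ≤ ‖Y‖ ^ 8 * (C₀ * μ ^ 4 * ‖Y‖⁻¹ ^ 4) :=
            mul_le_mul_of_nonneg_left h2 (by positivity)
        _ = _ := by field_simp
  set K : ℝ := C₀ * μ ^ 4 / 16 with hK
  have hK0 : 0 ≤ K := by positivity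
  -- `B ≤ K`
  have hBle : ∀ X : ℂ, B X ≤ K := by
    intro X
    -- root of `Y² - 2XY + 1 = 0`
    obtain ⟨s, hs⟩ := IsAlgClosed.exists_pow_nat_eq (X ^ 2 - 1) (n := 2) (by norm_num)
    have hY : (X + s) * (X - s) = 1 := by linear_combination -hs
    have hY0 : X + s ≠ 0 := left_ne_zero_of_mul_eq_one hY
    have e : (1 + (X + s) ^ 2) / (2 * (X + s)) = X := by
      field_simp
      linear_combination hs
    have h1 := hC1 (X + s) hY0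
    rw [e] at h1
    have h2 := hA2 (X + s) hY0
    rw [← h1, norm_mul] at h2
    have h3 : 0 < ‖X + s‖ := norm_pos_iff.2 hY0
    have h4 : ‖(2 : ℂ)‖ = 2 := by simp
    rw [h4] at h2
    have h5 : B X * 16 * ‖X + s‖ ^ 4 ≤ C₀ * μ ^ 4 * ‖X + s‖ ^ 4 := by
      calc B X * 16 * ‖X + s‖ ^ 4 = B X * (2 * ‖X + s‖) ^ 4 := by ring
        _ ≤ _ := h2
    have h6 := le_of_mul_le_mul_right h5 (by positivity)
    rw [hK]; linarith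
  -- `B X ≤ K ‖X‖⁴` for `X ≠ 0`
  have hBle2 : ∀ X : ℂ, X ≠ 0 → B X ≤ K * ‖X‖ ^ 4 := by
    intro X hX
    -- root of `X Y² / μ + 2 Y - μ X = 0`
    obtain ⟨s, hs⟩ := IsAlgClosed.exists_pow_nat_eq (1 + X ^ 2) (n := 2) (by norm_num)
    set Y : ℂ := μ * (s - 1) / X with hYdef
    have hYX : Y * X = μ * (s - 1) := by rw [hYdef]; field_simp
    have hrel : X * ((μ : ℂ) - Y ^ 2 / μ) = 2 * Y := by
      rw [hYdef]
      field_simp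
      linear_combination (-1 : ℂ) * hs
    have hY0 : Y ≠ 0 := by
      intro h0
      rw [h0] at hrel
      have : X * (μ : ℂ) = 0 := by linear_combination hrel
      exact (mul_ne_zero hX hμc) this
    have hne : (μ : ℂ) - Y ^ 2 / μ ≠ 0 := by
      intro h0
      rw [h0, mul_zero] at hrel
      exact hY0 (by linear_combination (-1/2 : ℂ) * hrel)
    have e : 2 * Y / ((μ : ℂ) - Y ^ 2 / μ) = X := by
      rw [div_eq_iff hne]; exact hrel.symm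
    have h1 := hC2 Y hne
    rw [e] at h1
    have h2 := hA2 Y hY0
    rw [← h1] at h2
    set w := (μ : ℂ) - Y ^ 2 / μ with hw
    have hwn : 0 < ‖w‖ := norm_pos_iff.2 hne
    have hYn : ‖Y‖ = ‖X‖ * ‖w‖ / 2 := by
      have := congrArg norm hrel
      rw [norm_mul, norm_mul] at this
      have h4 : ‖(2 : ℂ)‖ = 2 := by simp
      rw [h4] at this
      linarith
    rw [hYn] at h2
    have h5 : B X * ‖w‖ ^ 4 ≤ (K * ‖X‖ ^ 4) * ‖w‖ ^ 4 := by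
      calc B X * ‖w‖ ^ 4 ≤ C₀ * μ ^ 4 * (‖X‖ * ‖w‖ / 2) ^ 4 := h2
        _ = _ := by rw [hK]; ring
    exact le_of_mul_le_mul_right h5 (by positivity)
  -- `B = 0` on the unit circle
  have hB1 : ∀ X : ℂ, ‖X‖ = 1 → B X ≤ 0 := by
    intro X hX
    refine le_of_forall_pos_le_add fun ε hε => ?_
    rw [zero_add]
    -- choose `r₀` with `K r₀² ≤ ε` and `R₀` with `K ≤ ε R₀²`
    obtain ⟨R, hR1, hR2⟩ : ∃ R : ℝ, 1 < R ∧ K ≤ ε * R := by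
      refine ⟨max 2 (K / ε), lt_of_lt_of_le (by norm_num) (le_max_left _ _), ?_⟩
      have := le_max_right 2 (K / ε)
      rw [div_le_iff₀ hε] at this
      linarith [mul_comm ε (max 2 (K / ε))]
    have hR0 : 0 < R := by linarith
    have hRsq : R ≤ R ^ 2 := by nlinarith
    refine hL4 R⁻¹ R ε (by positivity) (inv_lt_one_of_one_lt₀ hR1) hR1 ?_ ?_ X hX
    · intro X' hX'
      have hX0 : X' ≠ 0 := by
        intro h0; rw [h0, norm_zero] at hX'; exact (inv_ne_zero hR0.ne') hX'.symm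
      refine (hBle2 X' hX0).trans ?_
      rw [hX']
      have h1 : R⁻¹ ^ 4 = R⁻¹ ^ 2 * R⁻¹ ^ 2 := by ring
      rw [h1, ← mul_assoc]
      refine mul_le_mul_of_nonneg_right ?_ (by positivity)
      rw [inv_pow, ← div_eq_mul_inv, div_le_iff₀ (by positivity)]
      nlinarith
    · intro X' _
      exact (hBle X').trans (by nlinarith)
  have hBz : ∀ X : ℂ, ‖X‖ ≤ 1 → B X = 0 := fun X hX => le_antisymm (hLB 0 hB1 X hX) (hB0 X)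
  refine ⟨?_, hBz⟩
  have hA1' : ∀ Y : ℂ, ‖Y‖ = 1 → A Y ≤ 0 := by
    intro Y hY
    have hY0 : Y ≠ 0 := by intro h0; rw [h0, norm_zero] at hY; norm_num at hY
    rw [← hC1 Y hY0]
    have hle : ‖(1 + Y ^ 2) / (2 * Y)‖ ≤ 1 := by
      rw [norm_div, norm_mul, hY]
      have h4 : ‖(2 : ℂ)‖ = 2 := by simp
      rw [h4, div_le_one (by norm_num)]
      calc ‖1 + Y ^ 2‖ ≤ ‖(1 : ℂ)‖ + ‖Y ^ 2‖ := norm_add_le _ _
        _ = 2 * 1 := by rw [norm_one, norm_pow, hY]; norm_num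
    rw [hBz _ hle, zero_mul]
  exact fun Y hY => le_antisymm (hLA 0 hA1' Y hY) (hA0 Y)

end

end Crest.Agent.R258
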