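import Crest.Agent.R258.WW
import Crest.Agent.R258.Bundle
/-! rid 258, task GG: from `VA n` to `GG gBase n 0 4`. -/
set_option autoImplicit false
noncomputable section
namespace Crest.Agent.R258
open MvPolynomial Crest.AlgGeometry.QuadricBundle

/-- compatible pairs. -/
def IsPair (n : ℕ) (A : Fin 2 → MX AA) : Prop :=
  (∀ b, A b ∈ WW AA n 0) ∧ jo0 (A 0) = C (C (yL ^ 4)) * gS (jo1 (A 1))

/-- value of the coefficients at `y = y0`. -/
def atY (y0 : ℂ) : MX AA →+* MX ℂ := MvPolynomial.map (MvPolynomial.map (Polynomial.evalRingHom y0))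

/-! ### evaluation at a nonzero point of the Laurent side -/

/-- evaluation of Laurent polynomials at a nonzero complex number. -/
def evL (y : ℂˣ) : LL →+* ℂ := LaurentPolynomial.eval₂ (RingHom.id ℂ) y

theorem evL_T (y : ℂˣ) (n : ℤ) : evL y (LaurentPolynomial.T n) = (y : ℂ) ^ n := by
  rw [evL, LaurentPolynomial.eval₂_T]
  simp

theorem evL_C (y : ℂˣ) (c : ℂ) : evL y (LaurentPolynomial.C c) = c := by
  rw [evL, LaurentPolynomial.eval₂_C]; rfl

theorem evL_toLaurent (y : ℂˣ) (p : AA) : evL y (Polynomial.toLaurent p) = p.eval (y : ℂ) := by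
  rw [evL, LaurentPolynomial.eval₂_toLaurent, Polynomial.eval₂_id]

theorem evL_comp_io0 (y : ℂˣ) : (evL y).comp io0 = Polynomial.evalRingHom (y : ℂ) :=
  RingHom.ext fun p => evL_toLaurent y p

theorem evL_comp_io1 (y : ℂˣ) : (evL y).comp io1 = Polynomial.evalRingHom ((y⁻¹ : ℂˣ) : ℂ) := by
  apply Polynomial.ringHom_ext
  · intro a
    simp only [io1, RingHom.comp_apply, Polynomial.toLaurent_C, Polynomial.coe_evalRingHom,
      Polynomial.eval_C]
    have : (LaurentPolynomial.invert (R := ℂ)).toRingHom (LaurentPolynomial.C a)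
        = LaurentPolynomial.C a := LaurentPolynomial.invert_C a
    rw [this, evL_C]
  · simp only [io1, RingHom.comp_apply, Polynomial.toLaurent_X, Polynomial.coe_evalRingHom,
      Polynomial.eval_X]
    have : (LaurentPolynomial.invert (R := ℂ)).toRingHom (LaurentPolynomial.T 1)
        = LaurentPolynomial.T (-1) := LaurentPolynomial.invert_T 1
    rw [this, evL_T]
    simp

/-- value at `y` on the Laurent side. -/
def atL (y : ℂˣ) : MX LL →+* MX ℂ := MvPolynomial.map (MvPolynomial.map (evL y))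

theorem atL_jo0 (y : ℂˣ) (Q : MX AA) : atL y (jo0 Q) = atY (y : ℂ) Q := by
  unfold atL jo0 atY
  rw [MvPolynomial.map_map]
  congr 2
  rw [← evL_comp_io0]
  exact RingHom.ext fun x => MvPolynomial.map_map _ _ x

theorem atL_jo1 (y : ℂˣ) (Q : MX AA) : atL y (jo1 Q) = atY ((y⁻¹ : ℂˣ) : ℂ) Q := by
  unfold atL jo1 atY
  rw [MvPolynomial.map_map]
  congr 2
  rw [← evL_comp_io1]
  exact RingHom.ext fun x => MvPolynomial.map_map _ _ x

theorem atL_CC (y : ℂˣ) (c : LL) : atL y (C (C c)) = C (C (evL y c)) := by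
  simp [atL]

theorem atY_CC (y : ℂ) (c : AA) : atY y (C (C c)) = C (C (c.eval y)) := by
  simp [atY]

/-! ### the frame substitution -/

section gR
variable {R S : Type*} [CommRing R] [CommRing S]

/-- the substitution `X₀ ↦ u X₀`, `X₁ ↦ p X₀ + v X₁`. -/
def gR (u v : R) (p : SX R) : MX R →ₐ[SX R] MX R :=
  aeval ![C (C u) * X 0, C p * X 0 + C (C v) * X 1]

theorem gR_X0 (u v : R) (p : SX R) : gR u v p (X 0) = C (C u) * X 0 := by simp [gR]

theorem gR_X1 (u v : R) (p : SX R) : gR u v p (X 1) = C p * X 0 + C (C v) * X 1 := by simp [gR]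

theorem gR_C (u v : R) (p c : SX R) : gR u v p (C c) = C c := by
  simp [gR]

theorem map_gR (f : R →+* S) (u v : R) (p : SX R) (Q : MX R) :
    MvPolynomial.map (MvPolynomial.map f) (gR u v p Q) =
      gR (f u) (f v) (MvPolynomial.map f p) (MvPolynomial.map (MvPolynomial.map f) Q) := by
  have h : (MvPolynomial.map (MvPolynomial.map f) : MX R →+* MX S).comp (gR u v p).toRingHom =
      (gR (f u) (f v) (MvPolynomial.map f p)).toRingHom.comp
        (MvPolynomial.map (MvPolynomial.map f) : MX R →+* MX S) := by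
    apply MvPolynomial.ringHom_ext
    · intro r
      simp
    · intro i
      fin_cases i <;> simp [gR_X0, gR_X1]
  exact congrArg (fun F : MX R →+* MX S => F Q) h

theorem gR_gR_inv (u v u' v' : R) (p : SX R) (hu : u' * u = 1)
    (hv : v' * v = 1) (Q : MX R) :
    gR u v p (gR u' v' (-(C (u' * v') * p)) Q) = Q := by
  have h : (gR u v p).toRingHom.comp (gR u' v' (-(C (u' * v') * p))).toRingHom
      = RingHom.id _ := by
    apply MvPolynomial.ringHom_ext
    · intro r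
      simp
    · intro i
      have h1 : (C (C u') : MX R) * C (C u) = 1 := by
        rw [← C_mul, ← C_mul, hu]; simp
      have h2 : (C (C v') : MX R) * C (C v) = 1 := by
        rw [← C_mul, ← C_mul, hv]; simp
      fin_cases i
      · simp only [Fin.zero_eta, AlgHom.toRingHom_eq_coe, RingHom.comp_apply, RingHom.coe_coe,
          gR_X0, map_mul, gR_C, RingHom.id_apply]
        linear_combination (X 0 : MX R) * h1
      · simp only [Fin.mk_one, AlgHom.toRingHom_eq_coe, RingHom.comp_apply, RingHom.coe_coe,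
          gR_X1, map_add, map_mul, gR_C, gR_X0, RingHom.id_apply, map_neg]
        linear_combination (-(C (C v') * C p * X 0) : MX R) * h1 + (X 1 : MX R) * h2
  exact congrArg (fun F : MX R →+* MX R => F Q) h

theorem gR_inv_gR (u v u' v' : R) (p : SX R) (hu : u' * u = 1)
    (hv : v' * v = 1) (Q : MX R) :
    gR u' v' (-(C (u' * v') * p)) (gR u v p Q) = Q := by
  have h := gR_gR_inv u' v' u v (-(C (u' * v') * p)) (by rw [mul_comm]; exact hu)
    (by rw [mul_comm]; exact hv) Q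
  have e : (-(C (u * v) * -(C (u' * v') * p)) : SX R) = p := by
    have : (C (u * v) : SX R) * C (u' * v') = 1 := by
      rw [← C_mul]
      have : u * v * (u' * v') = (u' * u) * (v' * v) := by ring
      rw [this, hu, hv]; simp
    linear_combination p * this
  rw [e] at h
  exact h

end gR

/-- the off-diagonal entry of `gS`. -/
def offL : SX LL := C (zL ^ 3) * Pp (mL 0) yL

theorem offL_homogeneous : offL.IsHomogeneous 2 := by
  have := (isHomogeneous_C (Fin 2) (zL ^ 3)).mul (Pp_homogeneous (mL 0) yL)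
  simpa [offL] using this

theorem gS_eq_gR (Q : MX LL) : gS Q = gR (zL ^ 4) (yL ^ 8) offL Q := rfl

/-- `gS` at the point `y`. -/
def gAt (y : ℂˣ) : MX ℂ →ₐ[SX ℂ] MX ℂ :=
  gR (((y : ℂ)⁻¹) ^ 4) ((y : ℂ) ^ 8) (MvPolynomial.map (evL y) offL)

theorem atL_gS (y : ℂˣ) (Q : MX LL) : atL y (gS Q) = gAt y (atL y Q) := by
  rw [gS_eq_gR, atL, map_gR, gAt]
  congr 3
  · rw [map_pow, zL, evL_T]; simp
  · rw [map_pow, yL, evL_T]; simp

/-- inverse of `gAt`. -/
def gAtInv (y : ℂˣ) : MX ℂ →ₐ[SX ℂ] MX ℂ :=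
  gR ((y : ℂ) ^ 4) (((y : ℂ)⁻¹) ^ 8)
    (-(C ((y : ℂ) ^ 4 * ((y : ℂ)⁻¹) ^ 8) * MvPolynomial.map (evL y) offL))

theorem gAt_gAtInv (y : ℂˣ) (Q : MX ℂ) : gAt y (gAtInv y Q) = Q := by
  apply gR_gR_inv
  · rw [← mul_pow, mul_inv_cancel₀ y.ne_zero, one_pow]
  · rw [← mul_pow, inv_mul_cancel₀ y.ne_zero, one_pow]

theorem gAtInv_gAt (y : ℂˣ) (Q : MX ℂ) : gAtInv y (gAt y Q) = Q := by
  apply gR_inv_gR
  · rw [← mul_pow, mul_inv_cancel₀ y.ne_zero, one_pow]
  · rw [← mul_pow, inv_mul_cancel₀ y.ne_zero, one_pow]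

theorem gAt_mem {n a : ℕ} (y : ℂˣ) {Q : MX ℂ} (hQ : Q ∈ WW ℂ n a) : gAt y Q ∈ WW ℂ n a :=
  subst_mem_WW _ _ (offL_homogeneous.map _) hQ

theorem gAtInv_mem {n a : ℕ} (y : ℂˣ) {Q : MX ℂ} (hQ : Q ∈ WW ℂ n a) :
    gAtInv y Q ∈ WW ℂ n a := by
  apply subst_mem_WW _ _ _ hQ
  apply IsHomogeneous.neg
  have := (isHomogeneous_C (Fin 2) ((y : ℂ) ^ 4 * ((y : ℂ)⁻¹) ^ 8)).mul
    (offL_homogeneous.map (evL y))
  simpa using this

/-! ### divisibility by `T - y` -/

theorem ker_evL (y : ℂˣ) :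
    RingHom.ker (evL y) = Ideal.span {(LaurentPolynomial.T 1 - LaurentPolynomial.C (y : ℂ))} := by
  ext f
  rw [RingHom.mem_ker, Ideal.mem_span_singleton]
  constructor
  · intro hf
    obtain ⟨k, g, hg⟩ := LaurentPolynomial.exists_T_pow f
    have hg0 : Polynomial.eval (y : ℂ) g = 0 := by
      rw [← evL_toLaurent, hg, map_mul, hf, zero_mul]
    obtain ⟨q, hq⟩ := Polynomial.dvd_iff_isRoot.2 hg0
    refine ⟨Polynomial.toLaurent q * LaurentPolynomial.T (-k), ?_⟩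
    have h2 : f = f * LaurentPolynomial.T k * LaurentPolynomial.T (-k) := by
      rw [mul_assoc, ← LaurentPolynomial.T_add]; simp
    rw [h2, ← hg, hq, map_mul, map_sub, Polynomial.toLaurent_X, Polynomial.toLaurent_C]
    ring
  · rintro ⟨g, rfl⟩
    rw [map_mul, map_sub, evL_T, evL_C]
    simp

theorem T_sub_C_ne_zero (y : ℂ) :
    (LaurentPolynomial.T 1 - LaurentPolynomial.C y : LL) ≠ 0 := by
  intro h0
  have h1 : (LaurentPolynomial.T 1 : LL) = LaurentPolynomial.C y := sub_eq_zero.1 h0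
  have h2 : evL 1 (LaurentPolynomial.T 1) = evL (-1) (LaurentPolynomial.T 1) := by
    rw [h1, evL_C, evL_C]
  rw [evL_T, evL_T] at h2
  norm_num at h2

theorem exists_div {n a : ℕ} {Q : MX LL} (hQ : Q ∈ WW LL n a) (y : ℂˣ)
    (h : atL y Q = 0) : ∃ P ∈ WW LL n a,
      Q = C (C (LaurentPolynomial.T 1 - LaurentPolynomial.C (y : ℂ))) * P := by
  have h1 : Q ∈ RingHom.ker (MvPolynomial.map (MvPolynomial.map (evL y) :
      SX LL →+* SX ℂ) : MX LL →+* MX ℂ) := h
  rw [MvPolynomial.ker_map, MvPolynomial.ker_map, ker_evL, Ideal.map_span, Ideal.map_span,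
    Set.image_singleton, Set.image_singleton, Ideal.mem_span_singleton] at h1
  obtain ⟨P, hP⟩ := h1
  refine ⟨P, ?_, hP⟩
  have hc0 := T_sub_C_ne_zero (y : ℂ)
  set c : LL := LaurentPolynomial.T 1 - LaurentPolynomial.C (y : ℂ) with hc
  have key : ∀ d e, coeff e (coeff d Q) = c * coeff e (coeff d P) := by
    intro d e
    rw [hP, coeff_C_mul, coeff_C_mul]
  rw [mem_WW] at hQ ⊢
  constructor
  · intro d hd
    apply hQ.1
    intro h0
    apply hd
    ext1 e
    have := key d e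
    rw [h0, coeff_zero] at this
    rw [coeff_zero]
    rcases mul_eq_zero.1 this.symm with h | h
    · exact absurd h hc0
    · exact h
  · intro d e he
    apply hQ.2 d
    rw [key d e]
    exact mul_ne_zero hc0 he

/-! ### pairs with prescribed value -/

/-- constants. -/
def cst : MX ℂ →+* MX AA := MvPolynomial.map (MvPolynomial.map Polynomial.C)

theorem cst_mem {n a : ℕ} {w : MX ℂ} (hw : w ∈ WW ℂ n a) : cst w ∈ WW AA n a := map_mem_WW _ hw

theorem atY_cst (y : ℂ) (w : MX ℂ) : atY y (cst w) = w := by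
  unfold atY cst
  rw [MvPolynomial.map_map]
  have h1 : (Polynomial.evalRingHom y).comp (Polynomial.C : ℂ →+* AA) = RingHom.id ℂ :=
    RingHom.ext fun x => by simp
  have h2 : (MvPolynomial.map (Polynomial.evalRingHom y) : SX AA →+* SX ℂ).comp
      (MvPolynomial.map (Polynomial.C : ℂ →+* AA)) = RingHom.id (SX ℂ) := by
    refine RingHom.ext fun x => ?_
    rw [RingHom.comp_apply, MvPolynomial.map_map, h1, MvPolynomial.map_id]
    rfl
  rw [h2, MvPolynomial.map_id]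

theorem jo0_CC (c : AA) : jo0 (C (C c)) = C (C (io0 c)) := by simp [jo0]
theorem jo1_CC (c : AA) : jo1 (C (C c)) = C (C (io1 c)) := by simp [jo1]

theorem io0_X : io0 Polynomial.X = yL := by simp [io0, yL]
theorem io0_C (c : ℂ) : io0 (Polynomial.C c) = LaurentPolynomial.C c := by simp [io0]
theorem io1_X : io1 Polynomial.X = zL := by
  simp only [io1, RingHom.comp_apply, Polynomial.toLaurent_X]
  exact LaurentPolynomial.invert_T 1
theorem io1_C (c : ℂ) : io1 (Polynomial.C c) = LaurentPolynomial.C c := by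
  simp only [io1, RingHom.comp_apply, Polynomial.toLaurent_C]
  exact LaurentPolynomial.invert_C c

theorem jo1_cst (w : MX ℂ) : jo1 (cst w) = jo0 (cst w) := by
  unfold jo1 jo0 cst
  rw [MvPolynomial.map_map, MvPolynomial.map_map]
  congr 2
  refine RingHom.ext fun x => ?_
  rw [RingHom.comp_apply, RingHom.comp_apply, MvPolynomial.map_map, MvPolynomial.map_map]
  congr 2
  exact RingHom.ext fun x => by rw [RingHom.comp_apply, RingHom.comp_apply, io0_C, io1_C]

theorem yL_mul_zL : yL * zL = 1 := by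
  rw [yL, zL, ← LaurentPolynomial.T_add]; simp

theorem gS_CC_mul (c : LL) (Q : MX LL) : gS (C (C c) * Q) = C (C c) * gS Q := by
  rw [map_mul]
  congr 1
  rw [gS_eq_gR, gR_C]

theorem WW_sub {R : Type*} [CommRing R] {n a : ℕ} {P Q : MX R} (hP : P ∈ WW R n a)
    (hQ : Q ∈ WW R n a) : P - Q ∈ WW R n a := (WW R n a).sub_mem hP hQ

/-- chart `0`, `y ≠ 0`. -/
theorem exists_pair_zero_unit {n : ℕ} (h : VA n) (y : ℂˣ) {w : MX ℂ} (hw : w ∈ WW ℂ n 0) :
    ∃ A0 ∈ WW AA n 0, ∃ A1 ∈ WW AA n 0, jo0 A0 = C (C (yL ^ 4)) * gS (jo1 A1) ∧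
      atY (y : ℂ) A0 = w := by
  obtain ⟨B, hB⟩ : ∃ B : MX ℂ, B = C (C (((y : ℂ)⁻¹) ^ 4)) * gAtInv y w := ⟨_, rfl⟩
  have hBm : B ∈ WW ℂ n 0 := by rw [hB]; exact CC_mul_mem_WW _ (gAtInv_mem y hw)
  set D : MX LL := jo0 (cst w) - C (C (yL ^ 4)) * gS (jo0 (cst B)) with hD
  have hDm : D ∈ WW LL n 0 :=
    WW_sub (jo0_mem_WW (cst_mem hw)) (CC_mul_mem_WW _ (gS_mem_WW (jo0_mem_WW (cst_mem hBm))))
  have hD0 : atL y D = 0 := by
    rw [hD, map_sub, map_mul, atL_CC, atL_gS, atL_jo0, atL_jo0, atY_cst, atY_cst, hB]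
    have h1 : evL y (yL ^ 4) = (y : ℂ) ^ 4 := by rw [map_pow, yL, evL_T]; simp
    have h2 : gAt y (C (C (((y : ℂ)⁻¹) ^ 4)) * gAtInv y w) = C (C (((y : ℂ)⁻¹) ^ 4)) * w := by
      rw [map_mul, gAt_gAtInv]
      congr 1
      exact gR_C _ _ _ _
    rw [h1, h2, ← mul_assoc, ← C_mul, ← C_mul, ← mul_pow, mul_inv_cancel₀ y.ne_zero]
    simp
  obtain ⟨P, hP, hDP⟩ := exists_div hDm y hD0
  obtain ⟨P0, hP0, P1, hP1, hPe⟩ := h P hP
  refine ⟨cst w - C (C (Polynomial.X - Polynomial.C (y : ℂ))) * P0,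
    WW_sub (cst_mem hw) (CC_mul_mem_WW _ hP0),
    cst B + C (C (1 - Polynomial.C (y : ℂ) * Polynomial.X)) * P1,
    (WW AA n 0).add_mem (cst_mem hBm) (CC_mul_mem_WW _ hP1), ?_, ?_⟩
  · have e1 : io0 (Polynomial.X - Polynomial.C (y : ℂ)) = yL - LaurentPolynomial.C (y : ℂ) := by
      rw [map_sub, io0_X, io0_C]
    have e2 : io1 (1 - Polynomial.C (y : ℂ) * Polynomial.X)
        = 1 - LaurentPolynomial.C (y : ℂ) * zL := by
      rw [map_sub, map_one, map_mul, io1_C, io1_X]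
    rw [map_sub, map_mul, jo0_CC, map_add, map_mul, jo1_CC, map_add, gS_CC_mul, e1, e2, jo1_cst]
    have h3 : (C (C yL) : MX LL) * C (C zL) = 1 := by
      rw [← C_mul, ← C_mul, yL_mul_zL]; simp
    rw [hPe] at hDP
    rw [hD] at hDP
    have h4 : (C (C (LaurentPolynomial.T 1 - LaurentPolynomial.C (y : ℂ))) : MX LL)
        = C (C yL) - C (C (LaurentPolynomial.C (y : ℂ))) := by rw [yL]; simp
    rw [h4] at hDP
    simp only [map_sub, map_pow, map_mul, map_one] at hDP ⊢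
    linear_combination hDP + (C (C yL) ^ 3 * C (C (LaurentPolynomial.C (y : ℂ)))
      * gS (jo1 P1) : MX LL) * h3
  · rw [map_sub, atY_cst, map_mul, atY_CC]
    simp

/-- chart `0`, `y = 0`. -/
theorem exists_pair_zero_zero {n : ℕ} (h : VA n) {w : MX ℂ} (hw : w ∈ WW ℂ n 0) :
    ∃ A0 ∈ WW AA n 0, ∃ A1 ∈ WW AA n 0, jo0 A0 = C (C (yL ^ 4)) * gS (jo1 A1) ∧
      atY 0 A0 = w := by
  obtain ⟨P0, hP0, P1, hP1, hPe⟩ := h (C (C zL) * jo0 (cst w))
    (CC_mul_mem_WW _ (jo0_mem_WW (cst_mem hw)))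
  refine ⟨cst w - C (C Polynomial.X) * P0,
    WW_sub (cst_mem hw) (CC_mul_mem_WW _ hP0), P1, hP1, ?_, ?_⟩
  · have h3 : (C (C yL) : MX LL) * C (C zL) = 1 := by
      rw [← C_mul, ← C_mul, yL_mul_zL]; simp
    rw [map_sub, map_mul, jo0_CC, io0_X]
    simp only [map_pow] at hPe ⊢
    linear_combination (C (C yL) : MX LL) * hPe - jo0 (cst w) * h3
  · rw [map_sub, atY_cst, map_mul, atY_CC]
    simp

/-- chart `1`, `z = 0`. -/
theorem exists_pair_one_zero {n : ℕ} (h : VA n) {w : MX ℂ} (hw : w ∈ WW ℂ n 0) :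
    ∃ A0 ∈ WW AA n 0, ∃ A1 ∈ WW AA n 0, jo0 A0 = C (C (yL ^ 4)) * gS (jo1 A1) ∧
      atY 0 A1 = w := by
  obtain ⟨P0, hP0, P1, hP1, hPe⟩ := h (C (C (yL ^ 4)) * gS (jo0 (cst w)))
    (CC_mul_mem_WW _ (gS_mem_WW (jo0_mem_WW (cst_mem hw))))
  refine ⟨P0, hP0, cst w - C (C Polynomial.X) * P1,
    WW_sub (cst_mem hw) (CC_mul_mem_WW _ hP1), ?_, ?_⟩
  · have h3 : (C (C yL) : MX LL) * C (C zL) = 1 := by
      rw [← C_mul, ← C_mul, yL_mul_zL]; simp
    rw [map_sub, map_mul, jo1_CC, io1_X, map_sub, gS_CC_mul, jo1_cst]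
    simp only [map_pow] at hPe ⊢
    linear_combination -hPe + (C (C yL) ^ 3 * gS (jo1 P1) : MX LL) * h3
  · rw [map_sub, atY_cst, map_mul, atY_CC]
    simp

/-- every `w ∈ WW ℂ n 0` is the value of a pair at any point of any `y`-chart. -/
theorem exists_pair {n : ℕ} (h : VA n) (b : Fin 2) (y0 : ℂ) {w : MX ℂ} (hw : w ∈ WW ℂ n 0) :
    ∃ A : Fin 2 → MX AA, IsPair n A ∧ atY y0 (A b) = w := by
  have mk : ∀ A0 ∈ WW AA n 0, ∀ A1 ∈ WW AA n 0, jo0 A0 = C (C (yL ^ 4)) * gS (jo1 A1) →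
      IsPair n ![A0, A1] := by
    intro A0 h0 A1 h1 he
    refine ⟨?_, ?_⟩
    · intro b; fin_cases b
      · exact h0
      · exact h1
    · simpa using he
  fin_cases b
  · by_cases hy : y0 = 0
    · subst hy
      obtain ⟨A0, h0, A1, h1, he, hv⟩ := exists_pair_zero_zero h hw
      exact ⟨![A0, A1], mk A0 h0 A1 h1 he, by simpa using hv⟩
    · obtain ⟨A0, h0, A1, h1, he, hv⟩ := exists_pair_zero_unit h (Units.mk0 y0 hy) hw
      exact ⟨![A0, A1], mk A0 h0 A1 h1 he, by simpa using hv⟩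
  · by_cases hy : y0 = 0
    · subst hy
      obtain ⟨A0, h0, A1, h1, he, hv⟩ := exists_pair_one_zero h hw
      exact ⟨![A0, A1], mk A0 h0 A1 h1 he, by simpa using hv⟩
    · set y : ℂˣ := (Units.mk0 y0 hy)⁻¹ with hyd
      obtain ⟨A0, h0, A1, h1, he, hv⟩ := exists_pair_zero_unit h y
        (CC_mul_mem_WW ((y : ℂ) ^ 4) (gAt_mem y hw))
      refine ⟨![A0, A1], mk A0 h0 A1 h1 he, ?_⟩
      have h5 := congrArg (atL y) he
      rw [atL_jo0, hv, map_mul, atL_CC, atL_gS, atL_jo1] at h5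
      have h6 : evL y (yL ^ 4) = (y : ℂ) ^ 4 := by rw [map_pow, yL, evL_T]; simp
      rw [h6] at h5
      have h7 : (C (C (((y : ℂ)⁻¹) ^ 4)) : MX ℂ) * C (C ((y : ℂ) ^ 4)) = 1 := by
        rw [← C_mul, ← C_mul, ← mul_pow, inv_mul_cancel₀ y.ne_zero]; simp
      have h8 : gAt y w = gAt y (atY ((y⁻¹ : ℂˣ) : ℂ) A1) := by
        linear_combination (C (C (((y : ℂ)⁻¹) ^ 4)) : MX ℂ) * h5
          - (gAt y w - gAt y (atY ((y⁻¹ : ℂˣ) : ℂ) A1)) * h7
      have h9 := congrArg (gAtInv y) h8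
      rw [gAtInv_gAt, gAtInv_gAt] at h9
      have h10 : ((y⁻¹ : ℂˣ) : ℂ) = y0 := by rw [hyd, inv_inv]; rfl
      rw [h10] at h9
      simpa using h9.symm


/-! ### evaluation in `x` -/

/-- evaluation of the coefficients at `(x0, x1)`. -/
def evX (x0 x1 : ℂ) : MX ℂ →+* MvPolynomial (Fin 2) ℂ := MvPolynomial.map (MvPolynomial.eval ![x0, x1])

/-- upper triangular substitution. -/
def sub2 (u c v : ℂ) : MvPolynomial (Fin 2) ℂ →ₐ[ℂ] MvPolynomial (Fin 2) ℂ :=
  aeval ![C u * X 0, C c * X 0 + C v * X 1]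

theorem sub2_X0 (u c v : ℂ) : sub2 u c v (X 0) = C u * X 0 := by simp [sub2]

theorem sub2_X1 (u c v : ℂ) : sub2 u c v (X 1) = C c * X 0 + C v * X 1 := by simp [sub2]

theorem sub2_C (u c v r : ℂ) : sub2 u c v (C r) = C r := by simp [sub2]

theorem frameSubst_eq_sub2 (M : Matrix (Fin 2) (Fin 2) ℂ) (h : M 1 0 = 0)
    (Q : MvPolynomial (Fin 2) ℂ) : frameSubst M Q = sub2 (M 0 0) (M 0 1) (M 1 1) Q := by
  unfold frameSubst sub2
  have : (fun j : Fin 2 => ∑ i, (C (M i j) : MvPolynomial (Fin 2) ℂ) * X i) =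
      ![C (M 0 0) * X 0, C (M 0 1) * X 0 + C (M 1 1) * X 1] := by
    funext j
    fin_cases j
    · simp [Fin.sum_univ_two, h]
    · simp [Fin.sum_univ_two]
  rw [this]
  rfl

theorem sub2_sub2 (u c v u' c' v' : ℂ) (Q : MvPolynomial (Fin 2) ℂ) :
    sub2 u c v (sub2 u' c' v' Q) = sub2 (u * u') (u * c' + c * v') (v * v') Q := by
  have h : (sub2 u c v).comp (sub2 u' c' v') = sub2 (u * u') (u * c' + c * v') (v * v') := by
    apply MvPolynomial.algHom_ext
    intro i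
    fin_cases i
    · simp only [Fin.zero_eta, AlgHom.comp_apply, sub2_X0, map_mul, sub2_C]
      ring
    · simp only [Fin.mk_one, AlgHom.comp_apply, sub2_X1, sub2_X0, map_mul, map_add, sub2_C]
      ring
  exact congrArg (fun F : MvPolynomial (Fin 2) ℂ →ₐ[ℂ] MvPolynomial (Fin 2) ℂ => F Q) h

theorem sub2_one (Q : MvPolynomial (Fin 2) ℂ) : sub2 1 0 1 Q = Q := by
  have h : sub2 1 0 1 = AlgHom.id ℂ (MvPolynomial (Fin 2) ℂ) := by
    apply MvPolynomial.algHom_ext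
    intro i
    fin_cases i
    · simp [sub2_X0]
    · simp [sub2_X1]
  rw [h]; rfl

theorem evX_gR (x0 x1 u v : ℂ) (q : SX ℂ) (Q : MX ℂ) :
    evX x0 x1 (gR u v q Q) = sub2 u (MvPolynomial.eval ![x0, x1] q) v (evX x0 x1 Q) := by
  have h : (evX x0 x1).comp (gR u v q).toRingHom =
      (sub2 u (MvPolynomial.eval ![x0, x1] q) v).toRingHom.comp (evX x0 x1) := by
    apply MvPolynomial.ringHom_ext
    · intro r
      simp [evX]
    · intro i
      fin_cases i <;> simp [gR_X0, gR_X1, evX, sub2_X0, sub2_X1]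
  exact congrArg (fun F : MX ℂ →+* MvPolynomial (Fin 2) ℂ => F Q) h

theorem eval_smul_homogeneous {a : ℕ} {c : SX ℂ} (hc : c.IsHomogeneous a) (t x0 x1 : ℂ) :
    MvPolynomial.eval ![t * x0, t * x1] c = t ^ a * MvPolynomial.eval ![x0, x1] c := by
  rw [MvPolynomial.eval_eq', MvPolynomial.eval_eq', Finset.mul_sum]
  refine Finset.sum_congr rfl fun d hd => ?_
  have h1 : d 0 + d 1 = a := by
    have := hc (mem_support_iff.1 hd)
    rw [Finsupp.weight_apply, Finsupp.sum_fintype] at this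
    · simpa [Fin.sum_univ_two] using this
    · simp
  simp only [Fin.prod_univ_two, Matrix.cons_val_zero, Matrix.cons_val_one, mul_pow]
  rw [← h1, pow_add]
  ring

theorem evX_smul {n a : ℕ} {Q : MX ℂ} (hQ : Q ∈ WW ℂ n a) (t x0 x1 : ℂ) :
    evX (t * x0) (t * x1) Q = C (t ^ a) * sub2 (t ^ 2) 0 1 (evX x0 x1 Q) := by
  induction n generalizing a Q with
  | zero =>
    obtain ⟨c, hc, rfl⟩ := mem_WW_zero hQ
    simp only [evX, map_C, sub2_C]
    rw [eval_smul_homogeneous hc, C_mul]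
  | succ n ih =>
    obtain ⟨c, hc, Q', hQ', rfl⟩ := mem_WW_succ hQ
    have h1 := ih hQ'
    have h2 : ∀ y0 y1 : ℂ, evX y0 y1 (C c * X 1 ^ (n + 1) + X 0 * Q') =
        C (MvPolynomial.eval ![y0, y1] c) * X 1 ^ (n + 1) + X 0 * evX y0 y1 Q' := by
      intro y0 y1
      simp [evX]
    rw [h2, h2, h1, eval_smul_homogeneous hc]
    simp only [map_add, map_mul, map_pow, sub2_C, sub2_X0, sub2_X1]
    simp only [map_zero, map_one]
    ring


/-- the section attached to a pair. -/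
def secOf (A : Fin 2 → MX AA) : Chart → (Fin 2 → ℂ) → MvPolynomial (Fin 2) ℂ := fun α p =>
  MvPolynomial.map (MvPolynomial.eval ![hx0 α.1 (p 0), hx1 α.1 (p 0)]) (atY (p 1) (A α.2))

theorem secOf_eq (A : Fin 2 → MX AA) (α : Chart) (p : Fin 2 → ℂ) :
    secOf A α p = evX (hx0 α.1 (p 0)) (hx1 α.1 (p 0)) (atY (p 1) (A α.2)) := rfl

theorem gg_differentiable_hx0 (a : Fin 2) : Differentiable ℂ (fun p : Fin 2 → ℂ => hx0 a (p 0)) := by
  unfold hx0
  split_ifs
  · exact differentiable_const _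
  · exact differentiable_apply 0

theorem gg_differentiable_hx1 (a : Fin 2) : Differentiable ℂ (fun p : Fin 2 → ℂ => hx1 a (p 0)) := by
  unfold hx1
  split_ifs
  · exact differentiable_apply 0
  · exact differentiable_const _

theorem differentiable_coeff (a : Fin 2) (q : SX AA) :
    Differentiable ℂ (fun p : Fin 2 → ℂ => MvPolynomial.eval ![hx0 a (p 0), hx1 a (p 0)]
      (MvPolynomial.map (Polynomial.evalRingHom (p 1)) q)) := by
  induction q using MvPolynomial.induction_on with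
  | C c =>
    simp only [map_C, eval_C, Polynomial.coe_evalRingHom]
    have h1 : Differentiable ℂ (fun z : ℂ => Polynomial.eval z c) := c.differentiable
    exact h1.comp (differentiable_apply (1 : Fin 2))
  | add q1 q2 h1 h2 =>
    simp only [map_add]
    exact h1.add h2
  | mul_X q i h =>
    simp only [map_mul, map_X, eval_X]
    refine h.mul ?_
    fin_cases i
    · exact gg_differentiable_hx0 a
    · exact gg_differentiable_hx1 a

theorem evL_Pp (y : ℂˣ) (x0 x1 : ℂ) :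
    MvPolynomial.eval ![x0, x1] (MvPolynomial.map (evL y) offL) =
      ((y : ℂ) ^ 3)⁻¹ * PP (muB 0) x0 x1 (y : ℂ) := by
  have h1 : evL y (zL ^ 3) = ((y : ℂ) ^ 3)⁻¹ := by rw [map_pow, zL, evL_T]; simp
  have h2 : evL y (mL 0) = muB 0 := evL_C y _
  have h3 : evL y yL = (y : ℂ) := by rw [yL, evL_T]; simp
  unfold offL
  rw [map_mul, map_C, map_mul, eval_C, h1, map_Pp, h2, h3]
  congr 1
  unfold Pp PP
  simp only [map_mul, map_add, map_sub, map_neg, map_pow, map_one, map_ofNat, eval_C, eval_X,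
    Matrix.cons_val_zero, Matrix.cons_val_one]

theorem evX_gAt (y : ℂˣ) (x0 x1 : ℂ) (Q : MX ℂ) :
    evX x0 x1 (gAt y Q) =
      sub2 (((y : ℂ) ^ 4)⁻¹) (((y : ℂ) ^ 3)⁻¹ * PP (muB 0) x0 x1 (y : ℂ)) ((y : ℂ) ^ 8)
        (evX x0 x1 Q) := by
  unfold gAt
  rw [evX_gR, evL_Pp, inv_pow]

/-- value of the pair relation at `y ≠ 0`. -/
theorem pair_rel {n : ℕ} {A : Fin 2 → MX AA} (hA : IsPair n A) {y : ℂ} (hy : y ≠ 0) (x0 x1 : ℂ) :
    evX x0 x1 (atY y (A 0)) = C (y ^ 4) *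
      sub2 ((y ^ 4)⁻¹) ((y ^ 3)⁻¹ * PP (muB 0) x0 x1 y) (y ^ 8)
        (evX x0 x1 (atY y⁻¹ (A 1))) := by
  have h := congrArg (atL (Units.mk0 y hy)) hA.2
  rw [atL_jo0, map_mul, atL_CC, atL_gS, atL_jo1] at h
  have h6 : evL (Units.mk0 y hy) (yL ^ 4) = y ^ 4 := by rw [map_pow, yL, evL_T]; simp
  rw [h6] at h
  have h7 : (((Units.mk0 y hy)⁻¹ : ℂˣ) : ℂ) = y⁻¹ := by simp
  rw [h7] at h
  have h8 := congrArg (evX x0 x1) h
  rw [map_mul, evX_gAt] at h8
  simpa [evX] using h8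

theorem muB_one_eq : muB 0 = 2 - muB 1 := by
  rw [← muB_add]; ring

/-- the reversed relation. -/
theorem pair_rel' {n : ℕ} {A : Fin 2 → MX AA} (hA : IsPair n A) {y : ℂ} (hy : y ≠ 0) (x0 x1 : ℂ) :
    evX x0 x1 (atY y (A 1)) = C (y ^ 4) *
      sub2 ((y ^ 4)⁻¹) ((y ^ 3)⁻¹ * PP (muB 1) x0 x1 y) (y ^ 8)
        (evX x0 x1 (atY y⁻¹ (A 0))) := by
  have h := pair_rel hA (inv_ne_zero hy) x0 x1
  rw [inv_inv] at h
  have hP : PP (muB 0) x0 x1 y⁻¹ = -(y⁻¹ ^ 10 * PP (muB 1) x0 x1 y) := by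
    rw [muB_one_eq]
    exact PP_inv _ _ _ _ _ (muB_sq 1) (mul_inv_cancel₀ hy)
  rw [h, hP, map_mul, sub2_C, sub2_sub2]
  have e1 : (y ^ 4)⁻¹ * ((y⁻¹) ^ 4)⁻¹ = 1 := by field_simp
  have e2 : (y ^ 4)⁻¹ * (((y⁻¹) ^ 3)⁻¹ * -(y⁻¹ ^ 10 * PP (muB 1) x0 x1 y)) +
      (y ^ 3)⁻¹ * PP (muB 1) x0 x1 y * y⁻¹ ^ 8 = 0 := by
    field_simp
    ring
  have e3 : y ^ 8 * (y⁻¹) ^ 8 = 1 := by field_simp
  rw [e1, e2, e3, sub2_one, ← mul_assoc, ← C_mul]
  have e4 : y ^ 4 * y⁻¹ ^ 4 = 1 := by field_simp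
  rw [e4, C_1, one_mul]

theorem hx_tau (α β : Chart) {p : Fin 2 → ℂ} (hp : p ∈ overlap α β) :
    hx0 β.1 (tau α β p 0) = (if α.1 = β.1 then 1 else (p 0)⁻¹) * hx0 α.1 (p 0) ∧
    hx1 β.1 (tau α β p 0) = (if α.1 = β.1 then 1 else (p 0)⁻¹) * hx1 α.1 (p 0) := by
  obtain ⟨a, b⟩ := α
  obtain ⟨a', b'⟩ := β
  have hx := hp.1
  fin_cases a <;> fin_cases a' <;> simp [hx0, hx1, tau] at hx ⊢ <;> field_simp

theorem isSec_secOf {n : ℕ} {A : Fin 2 → MX AA} (hA : IsPair n A) :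
    IsSec gBase n 0 4 (secOf A) := by
  have hm : ∀ (b : Fin 2) (y : ℂ), atY y (A b) ∈ WW ℂ n 0 := fun b y => map_mem_WW _ (hA.1 b)
  refine ⟨fun α p => ?_, fun α m => ?_, fun α β p hp => ?_⟩
  · exact (hm α.2 (p 1)).1.map _
  · have : (fun p => MvPolynomial.coeff m (secOf A α p)) = fun p : Fin 2 → ℂ =>
        MvPolynomial.eval ![hx0 α.1 (p 0), hx1 α.1 (p 0)]
        (MvPolynomial.map (Polynomial.evalRingHom (p 1)) (coeff m (A α.2))) := by
      funext p
      unfold secOf atY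
      rw [coeff_map, coeff_map]
    rw [this]
    exact differentiable_coeff _ _
  · rw [secOf_eq, secOf_eq, (hx_tau α β hp).1, (hx_tau α β hp).2, evX_smul (hm β.2 _),
      frameSubst_eq_sub2 _ (by simp [gBase]), map_mul, sub2_C, sub2_sub2, pow_zero, C_1, one_mul,
      mul_zero, zero_add, mul_one]
    set x0 := hx0 α.1 (p 0) with hx0d
    set x1 := hx1 α.1 (p 0) with hx1d
    have e0 : gBase α β p 0 0 * (if α.1 = β.1 then 1 else (p 0)⁻¹) ^ 2 =
        if α.2 = β.2 then 1 else ((p 1) ^ 4)⁻¹ := by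
      by_cases h1 : α.1 = β.1
      · simp [gBase, h1]
      · have := hp.1 h1
        simp only [gBase, h1, if_false, Matrix.of_apply, Matrix.cons_val_zero]
        field_simp
    have e1 : gBase α β p 0 1 = if α.2 = β.2 then 0 else
        ((p 1) ^ 3)⁻¹ * PP (muB α.2) x0 x1 (p 1) := by
      simp [gBase, hx0d, hx1d]
    have e2 : gBase α β p 1 1 = if α.2 = β.2 then 1 else (p 1) ^ 8 := by simp [gBase]
    rw [e0, e1, e2]
    have hl : lineTrans 0 4 α β p = if α.2 = β.2 then 1 else (p 1) ^ 4 := by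
      simp [lineTrans]
    rw [hl]
    by_cases h2 : α.2 = β.2
    · have ht : tau α β p 1 = p 1 := by simp [tau, h2]
      simp only [h2, if_true, mul_one, sub2_one, one_smul, ht]
    · have hy := hp.2 h2
      have ht : tau α β p 1 = (p 1)⁻¹ := by simp [tau, h2]
      simp only [h2, if_false, ht]
      rw [MvPolynomial.smul_eq_C_mul]
      have h3 : (α.2 = 0 ∧ β.2 = 1) ∨ (α.2 = 1 ∧ β.2 = 0) := by
        generalize α.2 = b at h2 ⊢
        generalize β.2 = b' at h2 ⊢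
        fin_cases b <;> fin_cases b' <;> simp at h2 ⊢
      rcases h3 with ⟨h4, h5⟩ | ⟨h4, h5⟩
      · rw [h4, h5, mul_one]
        exact pair_rel hA hy x0 x1
      · rw [h4, h5, mul_one]
        exact pair_rel' hA hy x0 x1

/-- every homogeneous polynomial is the value at `(hx0, hx1)` of some `w ∈ WW ℂ n 0`. -/
theorem exists_WW_eval {n : ℕ} (a : Fin 2) (x : ℂ) {P : MvPolynomial (Fin 2) ℂ}
    (hP : P.IsHomogeneous n) :
    ∃ w ∈ WW ℂ n 0, MvPolynomial.map (MvPolynomial.eval ![hx0 a x, hx1 a x]) w = P := by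
  classical
  refine ⟨∑ m ∈ P.support, monomial m (C (coeff m P) * X a ^ (2 * m 0)), ?_, ?_⟩
  · refine (WW ℂ n 0).sum_mem fun m hm => ?_
    rw [mem_WW]
    constructor
    · apply isHomogeneous_monomial
      rw [Finsupp.degree_eq_weight_one]
      exact hP (mem_support_iff.1 hm)
    · intro m'
      rw [coeff_monomial]
      split_ifs with h
      · subst h
        have := (isHomogeneous_C (Fin 2) (coeff m P)).mul
          (isHomogeneous_X_pow (R := ℂ) a (2 * m 0))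
        simpa using this
      · exact isHomogeneous_zero _ _ _
  · have hv : (![hx0 a x, hx1 a x] : Fin 2 → ℂ) a = 1 := by
      fin_cases a <;> simp [hx0, hx1]
    rw [map_sum]
    conv_rhs => rw [P.as_sum]
    refine Finset.sum_congr rfl fun m _ => ?_
    rw [map_monomial, map_mul, map_pow, eval_C, eval_X, hv]
    simp

theorem GG_gBase {n : ℕ} (h : VA n) : GG gBase n 0 4 := by
  intro α p P hP
  obtain ⟨w, hw, hwP⟩ := exists_WW_eval α.1 (p 0) hP
  obtain ⟨A, hA, hAw⟩ := exists_pair h α.2 (p 1) hw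
  refine ⟨secOf A, isSec_secOf hA, ?_⟩
  simp only [secOf, hAw, hwP]

end Crest.Agent.R258
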