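import Crest.Agent.R258.DualNorm

/-!
Row 258 (S0396): consequences of the maximum principle for functions of one complex variable
(`MPfun`): disc maximum principle, exterior estimates under a growth condition, annulus estimates,
near constancy.
-/

set_option autoImplicit false

noncomputable section

open Crest Crest.AlgGeometry Crest.AlgGeometry.QuadricBundle
open Set Filter Topology

namespace Crest.Agent.R258

/-- `u : ℂ → ℝ` satisfies the maximum principle with holomorphic multipliers. -/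
structure MPfun (u : ℂ → ℝ) : Prop where
  nonneg : ∀ z, 0 ≤ u z
  cont : Continuous u
  mp : ∀ K : Set ℂ, IsCompact K → ∀ ω : ℂ → ℝ, ContinuousOn ω K → (∀ z ∈ K, 0 ≤ ω z) →
    (∀ z₀ ∈ interior K, ∃ ψ : ℂ → ℂ, AnalyticAt ℂ ψ z₀ ∧ ∀ᶠ z in 𝓝 z₀, ω z = ‖ψ z‖ ^ 2) →
    ∀ M : ℝ, 0 ≤ M → (∀ z ∈ K, z ∉ interior K → u z * ω z ≤ M) → ∀ z ∈ K, u z * ω z ≤ M

/-- local branch for `‖z‖ ^ (-2 b)`. -/
theorem weight_pow_loc (b : ℕ) {z₀ : ℂ} (hz₀ : z₀ ≠ 0) :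
    ∃ ψ : ℂ → ℂ, AnalyticAt ℂ ψ z₀ ∧ ∀ᶠ z in 𝓝 z₀, (‖z‖ ^ (2 * b))⁻¹ = ‖ψ z‖ ^ 2 := by
  refine ⟨fun z => (z ^ b)⁻¹, ?_, ?_⟩
  · exact (analyticAt_id.pow b).inv (pow_ne_zero b hz₀)
  · refine Filter.Eventually.of_forall fun z => ?_
    simp only [norm_inv, norm_pow, inv_pow]
    rw [← pow_mul, mul_comm b 2]

namespace MPfun

variable {u : ℂ → ℝ} (hu : MPfun u)

include hu

/-- Exterior maximum principle. -/
theorem exterior {F : Set ℂ} (hF : IsClosed F) {ω : ℂ → ℝ} (hω : ContinuousOn ω F)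
    (hω0 : ∀ z ∈ F, 0 ≤ ω z)
    (hloc : ∀ z₀ ∈ interior F, ∃ ψ : ℂ → ℂ, AnalyticAt ℂ ψ z₀ ∧ ∀ᶠ z in 𝓝 z₀, ω z = ‖ψ z‖ ^ 2)
    {M : ℝ} (hM : 0 ≤ M)
    (hinf : ∀ M', 0 < M' → ∃ R : ℝ, ∀ z ∈ F, R ≤ ‖z‖ → u z * ω z ≤ M')
    (hbd : ∀ z ∈ F, z ∉ interior F → u z * ω z ≤ M) :
    ∀ z ∈ F, u z * ω z ≤ M := by
  intro z hz
  refine le_of_forall_gt_imp_ge_of_dense fun M' hM' => ?_
  obtain ⟨R, hR⟩ := hinf M' (lt_of_le_of_lt hM hM')
  set R' := max (max R ‖z‖) 1 with hR'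
  have hR'pos : 0 < R' := lt_of_lt_of_le one_pos (le_max_right _ _)
  have hK : IsCompact (F ∩ Metric.closedBall (0 : ℂ) R') :=
    (isCompact_closedBall 0 R').inter_left hF
  refine hu.mp _ hK ω (hω.mono inter_subset_left) (fun w hw => hω0 w hw.1) ?_ M'
    (hM.trans hM'.le) ?_ z ⟨hz, ?_⟩
  · intro z₀ hz₀
    rw [interior_inter] at hz₀
    exact hloc z₀ hz₀.1
  · intro w hw hwi
    rw [interior_inter] at hwi
    by_cases h1 : w ∈ interior F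
    · have h2 : w ∉ interior (Metric.closedBall (0 : ℂ) R') := fun h => hwi ⟨h1, h⟩
      rw [interior_closedBall _ hR'pos.ne'] at h2
      have h3 : R' ≤ ‖w‖ := by simpa using h2
      exact hR w hw.1 (((le_max_left _ _).trans (le_max_left _ _)).trans h3)
    · exact (hbd w hw.1 h1).trans hM'.le
  · simp only [Metric.mem_closedBall, dist_zero_right]
    exact (le_max_right _ _).trans (le_max_left _ _)

/-- Disc maximum principle. -/
theorem disc {R m : ℝ} (hR : 0 < R) (hm : 0 ≤ m) (h : ∀ z, ‖z‖ = R → u z ≤ m) :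
    ∀ z, ‖z‖ ≤ R → u z ≤ m := by
  intro z hz
  have := hu.mp (Metric.closedBall 0 R) (isCompact_closedBall 0 R) (fun _ => 1) continuousOn_const
    (fun _ _ => zero_le_one) (fun z₀ _ => ⟨fun _ => 1, analyticAt_const, by simp⟩) m hm ?_ z
    (by simpa using hz)
  · simpa using this
  · intro w hw hwi
    rw [interior_closedBall _ hR.ne'] at hwi
    have h1 : ‖w‖ ≤ R := by simpa using hw
    have h2 : R ≤ ‖w‖ := by simpa using hwi
    simpa using h w (le_antisymm h1 h2)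

theorem annulus {r R m : ℝ} {b : ℕ} (hr : 0 < r) (hm : 0 ≤ m)
    (h1 : ∀ z, ‖z‖ = r → u z ≤ m * ‖z‖ ^ (2 * b))
    (h2 : ∀ z, ‖z‖ = R → u z ≤ m * ‖z‖ ^ (2 * b)) :
    ∀ z, r ≤ ‖z‖ → ‖z‖ ≤ R → u z ≤ m * ‖z‖ ^ (2 * b) := by
  intro z hz1 hz2
  have hpos : ∀ w : ℂ, r ≤ ‖w‖ → 0 < ‖w‖ ^ (2 * b) := fun w hw => pow_pos (hr.trans_le hw) _
  have key := hu.mp ({w | r ≤ ‖w‖} ∩ Metric.closedBall 0 R)
    ((isCompact_closedBall 0 R).inter_left (isClosed_le continuous_const continuous_norm))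
    (fun w => (‖w‖ ^ (2 * b))⁻¹) ?_ ?_ ?_ m hm ?_ z ⟨hz1, by simpa using hz2⟩
  · rw [← div_eq_mul_inv, div_le_iff₀ (hpos z hz1)] at key
    exact key
  · refine ContinuousOn.inv₀ (by fun_prop) ?_
    intro w hw
    exact (hpos w hw.1).ne'
  · intro w hw; exact inv_nonneg.mpr (hpos w hw.1).le
  · intro z₀ hz₀
    refine weight_pow_loc b ?_
    have : z₀ ∈ {w : ℂ | r ≤ ‖w‖} := (interior_subset hz₀).1
    intro h0
    rw [h0] at this
    simp at this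
    linarith
  · intro w hw hwi
    rw [← div_eq_mul_inv, div_le_iff₀ (hpos w hw.1)]
    have hw1 : r ≤ ‖w‖ := hw.1
    have hw2 : ‖w‖ ≤ R := by simpa using hw.2
    rcases hw1.eq_or_lt with h | h
    · exact h1 w h.symm
    · rcases hw2.eq_or_lt with h' | h'
      · exact h2 w h'
      · exfalso
        apply hwi
        rw [mem_interior]
        refine ⟨{w | r < ‖w‖} ∩ Metric.ball 0 R, ?_, ?_, ⟨h, by simpa using h'⟩⟩
        · intro v hv
          have hv1 : r < ‖v‖ := hv.1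
          have hv2 : r ≤ ‖v‖ := hv1.le
          exact ⟨hv2, Metric.ball_subset_closedBall hv.2⟩
        · exact (isOpen_lt continuous_const continuous_norm).inter Metric.isOpen_ball

/-- Exterior growth estimate: `u ≤ C‖z‖^(2a)`, `a < b`, `u ≤ m` on `‖z‖ = 1` imply
`u ≤ m‖z‖^(2b)` for `1 ≤ ‖z‖`. -/
theorem outside {C m : ℝ} {a b : ℕ} (hab : a < b) (hm : 0 ≤ m)
    (hgr : ∀ z, 1 ≤ ‖z‖ → u z ≤ C * ‖z‖ ^ (2 * a))
    (h1 : ∀ z, ‖z‖ = 1 → u z ≤ m) :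
    ∀ z, 1 ≤ ‖z‖ → u z ≤ m * ‖z‖ ^ (2 * b) := by
  have hC : 0 ≤ C := by
    have := hgr 1 (by simp)
    simp at this
    exact (hu.nonneg 1).trans this
  have hpos : ∀ w : ℂ, 1 ≤ ‖w‖ → 0 < ‖w‖ ^ (2 * b) := fun w hw => pow_pos (one_pos.trans_le hw) _
  intro z hz
  have key := hu.exterior (F := {w : ℂ | 1 ≤ ‖w‖})
    (isClosed_le continuous_const continuous_norm) (ω := fun w => (‖w‖ ^ (2 * b))⁻¹)
    ?_ ?_ ?_ hm ?_ ?_ z hz
  · rw [← div_eq_mul_inv, div_le_iff₀ (hpos z hz)] at key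
    exact key
  · refine ContinuousOn.inv₀ (by fun_prop) ?_
    intro w hw
    exact (hpos w hw).ne'
  · intro w hw; exact inv_nonneg.mpr (hpos w hw).le
  · intro z₀ hz₀
    refine weight_pow_loc b ?_
    have : z₀ ∈ {w : ℂ | 1 ≤ ‖w‖} := interior_subset hz₀
    intro h0
    rw [h0] at this
    simp at this
    linarith
  · intro M' hM'
    refine ⟨max 1 (C / M'), fun w hw hRw => ?_⟩
    have hw1 : 1 ≤ ‖w‖ := hw
    rw [← div_eq_mul_inv, div_le_iff₀ (hpos w hw)]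
    refine (hgr w hw).trans ?_
    have h3 : C ≤ M' * ‖w‖ := by
      have : C / M' ≤ ‖w‖ := (le_max_right _ _).trans hRw
      rw [div_le_iff₀ hM'] at this
      linarith
    calc C * ‖w‖ ^ (2 * a) ≤ (M' * ‖w‖) * ‖w‖ ^ (2 * a) := by gcongr
      _ = M' * ‖w‖ ^ (2 * a + 1) := by ring
      _ ≤ M' * ‖w‖ ^ (2 * b) := by
          gcongr
          · omega
  · intro w hw hwi
    rw [← div_eq_mul_inv, div_le_iff₀ (hpos w hw)]
    have hw1 : 1 ≤ ‖w‖ := hw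
    rcases hw1.eq_or_lt with h | h
    · rw [← h]; simpa using h1 w h.symm
    · exfalso
      apply hwi
      rw [mem_interior]
      refine ⟨{w | 1 < ‖w‖}, ?_, isOpen_lt continuous_const continuous_norm, h⟩
      intro v hv
      have hv1 : 1 < ‖v‖ := hv
      have hv2 : 1 ≤ ‖v‖ := hv1.le
      exact hv2

end MPfun

/-- local branch for `‖φ z‖ ^ (-4 / n)`. -/
theorem weight_cpow_loc {φ : ℂ → ℂ} (hφ : ∀ z, AnalyticAt ℂ φ z) (s : ℝ) {z₀ : ℂ}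
    (hz₀ : φ z₀ ≠ 0) :
    ∃ ψ : ℂ → ℂ, AnalyticAt ℂ ψ z₀ ∧ ∀ᶠ z in 𝓝 z₀, ‖φ z‖ ^ (2 * s) = ‖ψ z‖ ^ 2 := by
  refine ⟨fun z => (φ z / φ z₀) ^ ((s : ℝ) : ℂ) * ((‖φ z₀‖ ^ s : ℝ) : ℂ), ?_, ?_⟩
  · refine AnalyticAt.mul ?_ analyticAt_const
    refine AnalyticAt.cpow ((hφ z₀).div analyticAt_const hz₀) analyticAt_const ?_
    rw [div_self hz₀]
    simp [Complex.slitPlane]
  · refine Filter.Eventually.of_forall fun z => ?_
    rw [norm_mul, Complex.norm_cpow_real, norm_div, Complex.norm_real, Real.norm_eq_abs,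
      abs_of_nonneg (Real.rpow_nonneg (norm_nonneg _) _), ← Real.mul_rpow (by positivity)
      (norm_nonneg _), div_mul_cancel₀ _ (norm_ne_zero_iff.mpr hz₀), mul_comm 2 s,
      Real.rpow_mul (norm_nonneg _)]
    norm_cast

namespace MPfun

variable {u : ℂ → ℝ} (hu : MPfun u)

include hu

/-- Near constancy. -/
theorem nearConst {C m ε : ℝ} {n : ℕ} (hn : 0 < n) (hε : 0 < ε) (hm : 0 ≤ m) (X' : ℂ)
    (hgr : ∀ z, 1 ≤ ‖z‖ → u z ≤ C * ‖z‖ ^ 2)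
    (h1 : ∀ z, dist (z ^ n) X' ≤ ε → u z ≤ m) :
    ∀ z, ε ≤ dist (z ^ n) X' → u z ≤ m * (dist (z ^ n) X' / ε) ^ (4 / n : ℝ) := by
  have hn' : (0 : ℝ) < n := by exact_mod_cast hn
  have hC : 0 ≤ C := by
    have := hgr 1 (by simp)
    simp at this
    exact (hu.nonneg 1).trans this
  have hdist : ∀ z : ℂ, dist (z ^ n) X' = ‖z ^ n - X'‖ := fun z => dist_eq_norm _ _
  simp only [hdist] at h1 ⊢
  intro z hz
  have hcont : Continuous fun z : ℂ => ‖z ^ n - X'‖ := by fun_prop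
  have hpos : ∀ w : ℂ, ε ≤ ‖w ^ n - X'‖ → 0 < ‖w ^ n - X'‖ ^ (4 / n : ℝ) :=
    fun w hw => Real.rpow_pos_of_pos (hε.trans_le hw) _
  have hωeq : ∀ w : ℂ, ‖w ^ n - X'‖ ^ (2 * (-(2 / n)) : ℝ) = (‖w ^ n - X'‖ ^ (4 / n : ℝ))⁻¹ := by
    intro w
    rw [← Real.rpow_neg (norm_nonneg _)]
    congr 1
    ring
  have hM0 : 0 ≤ m * (ε ^ (4 / n : ℝ))⁻¹ := by positivity
  have key := hu.exterior (F := {w : ℂ | ε ≤ ‖w ^ n - X'‖})
    (isClosed_le continuous_const hcont) (ω := fun w => ‖w ^ n - X'‖ ^ (2 * (-(2 / n)) : ℝ))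
    ?_ ?_ ?_ hM0 ?_ ?_ z hz
  · simp only [hωeq] at key
    rw [← div_eq_mul_inv, div_le_iff₀ (hpos z hz)] at key
    rw [Real.div_rpow (norm_nonneg _) hε.le]
    calc u z ≤ _ := key
      _ = _ := by rw [div_eq_mul_inv]; ring
  · refine ContinuousOn.rpow_const hcont.continuousOn ?_
    intro w hw
    left
    exact (hε.trans_le hw).ne'
  · intro w hw; positivity
  · intro z₀ hz₀
    refine weight_cpow_loc (φ := fun z => z ^ n - X') (fun z => by fun_prop) (-(2 / n)) ?_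
    have : z₀ ∈ {w : ℂ | ε ≤ ‖w ^ n - X'‖} := interior_subset hz₀
    intro h0
    have this2 : ε ≤ ‖z₀ ^ n - X'‖ := this
    rw [h0, norm_zero] at this2
    linarith
  · intro M' hM'
    refine ⟨max (max 1 (2 * ‖X'‖)) (16 * C / M' + 1), fun w hw hRw => ?_⟩
    have hw1 : 1 ≤ ‖w‖ := ((le_max_left _ _).trans (le_max_left _ _)).trans hRw
    have hwX : 2 * ‖X'‖ ≤ ‖w‖ := ((le_max_right _ _).trans (le_max_left _ _)).trans hRw
    have hwM : 16 * C / M' + 1 ≤ ‖w‖ := (le_max_right _ _).trans hRw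
    have hw0 : 0 < ‖w‖ := one_pos.trans_le hw1
    have hwn : ‖w‖ ≤ ‖w‖ ^ n := le_self_pow₀ hw1 hn.ne'
    have hlow : ‖w‖ ^ n / 2 ≤ ‖w ^ n - X'‖ := by
      have h5 : ‖w ^ n‖ - ‖X'‖ ≤ ‖w ^ n - X'‖ := norm_sub_norm_le _ _
      rw [norm_pow] at h5
      linarith
    have hlow2 : ‖w‖ ^ 4 / 16 ≤ ‖w ^ n - X'‖ ^ (4 / n : ℝ) := by
      have h6 : (‖w‖ ^ n / 2) ^ (4 / n : ℝ) ≤ ‖w ^ n - X'‖ ^ (4 / n : ℝ) :=
        Real.rpow_le_rpow (by positivity) hlow (by positivity)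
      refine le_trans ?_ h6
      rw [Real.div_rpow (by positivity) (by norm_num), ← Real.rpow_natCast (‖w‖) n,
        ← Real.rpow_mul (norm_nonneg _), mul_div_cancel₀ _ hn'.ne']
      have h7 : (2 : ℝ) ^ (4 / n : ℝ) ≤ 16 := by
        have h8 : (2 : ℝ) ^ (4 / n : ℝ) ≤ (2 : ℝ) ^ (4 : ℝ) := by
          refine Real.rpow_le_rpow_of_exponent_le (by norm_num) ?_
          rw [div_le_iff₀ hn']
          have : (1 : ℝ) ≤ n := by exact_mod_cast hn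
          linarith
        refine h8.trans ?_
        norm_num
      have h9 : ‖w‖ ^ (4 : ℝ) = ‖w‖ ^ 4 := by
        rw [← Real.rpow_natCast]; norm_num
      rw [h9]
      gcongr
    rw [hωeq w, ← div_eq_mul_inv, div_le_iff₀ (hpos w hw)]
    refine (hgr w hw1).trans ?_
    refine le_trans ?_ (mul_le_mul_of_nonneg_left hlow2 hM'.le)
    have h10 : 16 * C ≤ M' * ‖w‖ := by
      have : 16 * C / M' ≤ ‖w‖ := by linarith
      rw [div_le_iff₀ hM'] at this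
      linarith
    have h11 : 16 * C * ‖w‖ ^ 2 ≤ M' * ‖w‖ * ‖w‖ ^ 2 := by gcongr
    have h12 : M' * ‖w‖ * ‖w‖ ^ 2 ≤ M' * ‖w‖ ^ 4 := by
      have : ‖w‖ ^ 3 ≤ ‖w‖ ^ 4 := pow_le_pow_right₀ hw1 (by norm_num)
      nlinarith
    linarith
  · intro w hw hwi
    rw [hωeq w]
    have hw1 : ε ≤ ‖w ^ n - X'‖ := hw
    rcases hw1.eq_or_lt with h | h
    · rw [← h]
      exact mul_le_mul_of_nonneg_right (h1 w h.symm.le) (by positivity)
    · exfalso
      apply hwi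
      rw [mem_interior]
      refine ⟨{w | ε < ‖w ^ n - X'‖}, ?_, isOpen_lt continuous_const hcont, h⟩
      intro v hv
      have hv1 : ε < ‖v ^ n - X'‖ := hv
      have hv2 : ε ≤ ‖v ^ n - X'‖ := hv1.le
      exact hv2

end MPfun

end Crest.Agent.R258
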