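import Crest.Agent.R258.WW
import Crest.Agent.R258.Bundle
/-! rid 258, task SURJ: `DIV`, `DEC`, `SURJ`. -/
set_option autoImplicit false
noncomputable section
namespace Crest.Agent.R258
open MvPolynomial

section
variable {R : Type*} [CommRing R]

theorem hom_eval₂_smul {S : Type*} [CommRing S] (f : R →+* S) (g g' : Fin 2 → S) (c : S)
    (hg : ∀ i, g' i = c * g i) {d : ℕ} {F : SX R} (hF : F.IsHomogeneous d) :
    eval₂ f g' F = c ^ d * eval₂ f g F := by
  rw [eval₂_eq', eval₂_eq', Finset.mul_sum]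
  refine Finset.sum_congr rfl fun m hm => ?_
  have h := hF (mem_support_iff.1 hm)
  rw [Finsupp.weight_apply, Finsupp.sum_fintype _ _ (by simp)] at h
  simp only [Fin.sum_univ_two, Pi.one_apply, smul_eq_mul, mul_one] at h
  simp only [Fin.prod_univ_two, hg]
  rw [← h]
  ring

/-- a form vanishing at `U` (`l(U) = 1`) is divisible by `U ∧ x`. -/
theorem dvd_of_vanish {d : ℕ} {F : SX R} (hF : F.IsHomogeneous d) (U0 U1 l0 l1 : R)
    (hl : l0 * U0 + l1 * U1 = 1) (h : eval ![U0, U1] F = 0) :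
    (C U0 * X 1 - C U1 * X 0 : SX R) ∣ F := by
  rw [← Ideal.mem_span_singleton, ← Ideal.Quotient.eq_zero_iff_mem]
  set t : SX R := C U0 * X 1 - C U1 * X 0 with ht
  set q := Ideal.Quotient.mk (Ideal.span {t}) with hq
  have hqt : q t = 0 := Ideal.Quotient.eq_zero_iff_mem.2 (Ideal.mem_span_singleton_self t)
  have h1 : q F = eval₂ (q.comp C) (fun i => q (X i)) F := by
    conv_lhs => rw [← eval₂_eta F]
    rw [hom_eval₂]
  have hx : ∀ i, q (X i) = q (C l0 * X 0 + C l1 * X 1) * q (C (![U0, U1] i)) := by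
    have hlC : (C l0 * C U0 + C l1 * C U1 : SX R) = 1 := by
      rw [← map_mul, ← map_mul, ← map_add, hl, map_one]
    intro i
    fin_cases i
    · have : (X 0 : SX R) = (C l0 * X 0 + C l1 * X 1) * C U0 - C l1 * t := by
        rw [ht]; linear_combination (-X 0 : SX R) * hlC
      simp only [Fin.zero_eta, Matrix.cons_val_zero]
      conv_lhs => rw [this]
      rw [map_sub, map_mul q (C l1) t, hqt, mul_zero, sub_zero, map_mul]
    · have : (X 1 : SX R) = (C l0 * X 0 + C l1 * X 1) * C U1 + C l0 * t := by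
        rw [ht]; linear_combination (-X 1 : SX R) * hlC
      simp only [Fin.mk_one, Matrix.cons_val_one]
      conv_lhs => rw [this]
      rw [map_add, map_mul q (C l0) t, hqt, mul_zero, add_zero, map_mul]
      rfl
  have h2 : eval₂ (q.comp C) (fun i => q (C (![U0, U1] i))) F = 0 := by
    have : (fun i => q (C (![U0, U1] i))) = fun i => (q.comp C) (![U0, U1] i) := rfl
    rw [this]
    have h3 := (hom_eval₂ F (RingHom.id R) (q.comp C) ![U0, U1]).symm
    simp only [RingHom.comp_id] at h3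
    rw [show (fun i => (q.comp C) (![U0, U1] i)) = ((q.comp C) ∘ ![U0, U1]) from rfl] at *
    rw [h3]
    have h4 : eval₂ (RingHom.id R) ![U0, U1] F = 0 := h
    rw [h4, map_zero]
  rw [h1, hom_eval₂_smul (q.comp C) (fun i => q (C (![U0, U1] i))) _ _ hx hF, h2, mul_zero]

/-- homogeneous quotients. -/
theorem homogeneous_quot {d k : ℕ} {F t : SX R} (hF : F.IsHomogeneous (d + k))
    (ht : t.IsHomogeneous k) (h : t ∣ F) : ∃ G : SX R, G.IsHomogeneous d ∧ F = t * G := by
  obtain ⟨G, rfl⟩ := h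
  refine ⟨homogeneousComponent d G, homogeneousComponent_isHomogeneous _ _, ?_⟩
  have h1 : homogeneousComponent (k + d) (t * G) = t * homogeneousComponent d G := by
    conv_lhs => rw [← sum_homogeneousComponent G]
    rw [Finset.mul_sum, map_sum]
    have : ∀ i ∈ Finset.range (G.totalDegree + 1),
        homogeneousComponent (k + d) (t * homogeneousComponent i G) =
          if i = d then t * homogeneousComponent d G else 0 := by
      intro i _
      have hi := ht.mul (homogeneousComponent_isHomogeneous i G)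
      rw [homogeneousComponent_of_mem hi]
      by_cases hid : i = d
      · subst hid; simp
      · rw [if_neg hid, if_neg]
        omega
    rw [Finset.sum_congr rfl this, Finset.sum_ite_eq']
    split_ifs with hd
    · rfl
    · rw [homogeneousComponent_eq_zero d G, mul_zero]
      simpa [Nat.lt_succ_iff] using hd
  rw [← h1]
  symm
  apply homogeneousComponent_eq_self
  rwa [add_comm]

end

section
variable {R : Type*} [CommRing R] [Algebra ℚ R]

theorem eval_Tp (m y a b : R) : eval ![a, b] (Tp m y) = TT m a b y := by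
  unfold Tp TT t1 t2 del
  simp only [map_mul, map_add, map_sub, map_pow, map_one, map_ofNat, eval_C, eval_X,
    RingHom.map_rat_algebraMap, Matrix.cons_val_zero, Matrix.cons_val_one]

theorem eval_Np (m y a b : R) : eval ![a, b] (Np m y) = nu m a b y := by
  unfold Np nu
  simp only [map_mul, map_add, map_sub, map_pow, map_neg, map_one, map_ofNat, eval_C, eval_X,
    RingHom.map_rat_algebraMap, Matrix.cons_val_zero, Matrix.cons_val_one]

theorem half_two : (algebraMap ℚ R (1 / 2)) * 2 = 1 := by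
  rw [show (2 : R) = algebraMap ℚ R 2 by rw [map_ofNat], ← map_mul]; norm_num

theorem lU_U (y : R) : (-(algebraMap ℚ R (1 / 2) * y)) * (2 * y) + 1 * (1 + y ^ 2) = 1 := by
  linear_combination (-y ^ 2) * (half_two (R := R))

theorem lV_V (m y : R) (hm : m ^ 2 = 2 * m + 1) :
    (m - 2) * del m y + (algebraMap ℚ R (1 / 2) * ((m - 2) ^ 2 * y)) * (2 * y) = 1 := by
  unfold del
  linear_combination hm + ((m - 2) ^ 2 * y ^ 2) * (half_two (R := R))

variable [IsDomain R]

/-- a form vanishing at `U` and `V` is divisible by `TT`. -/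
theorem Tp_dvd {d : ℕ} (m y : R) (hm : m ^ 2 = 2 * m + 1) (hΩ : Om m y ≠ 0) {F : SX R}
    (hF : F.IsHomogeneous (d + 2)) (hU : eval ![2 * y, 1 + y ^ 2] F = 0)
    (hV : eval ![del m y, 2 * y] F = 0) :
    ∃ G : SX R, G.IsHomogeneous d ∧ F = Tp m y * G := by
  have hh1 : ∀ a b : R, (C a * X 1 - C b * X 0 : SX R).IsHomogeneous 1 := fun a b =>
    (isHomogeneous_C_mul_X a 1).sub (isHomogeneous_C_mul_X b 0)
  obtain ⟨F1, hF1, rfl⟩ := homogeneous_quot (d := d + 1) (k := 1) hF (hh1 (2 * y) (1 + y ^ 2))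
    (dvd_of_vanish hF _ _ _ _ (lU_U y) hU)
  have hV1 : eval ![del m y, 2 * y] F1 = 0 := by
    rw [map_mul] at hV
    rcases mul_eq_zero.1 hV with h | h
    · exfalso
      apply hΩ
      rw [← h]
      unfold Om
      simp only [map_sub, map_mul, eval_C, eval_X, Matrix.cons_val_zero, Matrix.cons_val_one]
      ring
    · exact h
  obtain ⟨F2, hF2, rfl⟩ := homogeneous_quot (d := d) (k := 1) hF1 (hh1 (del m y) (2 * y))
    (dvd_of_vanish hF1 _ _ _ _ (lV_V m y hm) hV1)
  refine ⟨C 32 * F2, hF2.C_mul 32, ?_⟩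
  have h32 : (algebraMap ℚ (SX R) (1 / 32)) * C 32 = 1 := by
    rw [algebraMap_rat_SX, ← map_mul, show (32 : R) = algebraMap ℚ R 32 by rw [map_ofNat], ← map_mul]
    norm_num
  have h4 : Tp m y = algebraMap ℚ (SX R) (1 / 32) * ((C (2 * y) * X 1 - C (1 + y ^ 2) * X 0) *
      (C (del m y) * X 1 - C (2 * y) * X 0)) := by
    unfold Tp TT t1 t2 del
    simp only [map_mul, map_add, map_sub, map_pow, map_one, map_ofNat]
  rw [h4]
  linear_combination (-((C (2 * y) * X 1 - C (1 + y ^ 2) * X 0) *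
    ((C (del m y) * X 1 - C (2 * y) * X 0) * F2))) * h32

/-- `DEC`. -/
theorem dec (m y : R) (hm : m ^ 2 = 2 * m + 1) (hΩ : Om m y ≠ 0) {d : ℕ} (hd : 1 ≤ d)
    {α : SX R} (hα : α.IsHomogeneous (d + 4)) :
    ∃ h0 h1 : SX R, h0.IsHomogeneous (d + 2) ∧ h1.IsHomogeneous d ∧
      α = h0 * Tp m y + h1 * Np m y := by
  obtain ⟨e, rfl⟩ : ∃ e, d = e + 1 := ⟨d - 1, by omega⟩
  set κ : R := (-(algebraMap ℚ R (1 / 2) * y)) * del m y + 2 * y with hκ
  set q := Ideal.Quotient.mk (Ideal.span {Om m y}) with hq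
  have hqO : q (Om m y) = 0 := Ideal.Quotient.eq_zero_iff_mem.2 (Ideal.mem_span_singleton_self _)
  have hV0 : q (del m y) = q κ * q (2 * y) := by
    have : del m y = κ * (2 * y) - Om m y := by
      rw [hκ]; unfold Om
      linear_combination (y ^ 2 * del m y) * (half_two (R := R))
    conv_lhs => rw [this]
    rw [map_sub, hqO, sub_zero, map_mul]
  have hV1 : q (2 * y) = q κ * q (1 + y ^ 2) := by
    have : 2 * y = κ * (1 + y ^ 2) - (algebraMap ℚ R (1 / 2) * y) * Om m y := by
      rw [hκ]; unfold Om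
      linear_combination (2 * y ^ 3) * (half_two (R := R))
    conv_lhs => rw [this]
    rw [map_sub, map_mul _ _ (Om m y), hqO, mul_zero, sub_zero, map_mul]
  have key : ∀ {k : ℕ} {F : SX R}, F.IsHomogeneous k →
      q (eval ![del m y, 2 * y] F) = q κ ^ k * q (eval ![2 * y, 1 + y ^ 2] F) := by
    intro k F hF
    have e1 : ∀ (a b : R), q (eval ![a, b] F) = eval₂ q ![q a, q b] F := by
      intro a b
      have := hom_eval₂ F (RingHom.id R) q ![a, b]
      rw [RingHom.comp_id] at this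
      rw [show eval ![a, b] F = eval₂ (RingHom.id R) ![a, b] F from rfl, this]
      congr 1
      ext i; fin_cases i <;> rfl
    rw [e1, e1]
    apply hom_eval₂_smul _ _ _ _ _ hF
    intro i
    fin_cases i
    · exact hV0
    · exact hV1
  have hκ4 : q κ ^ 4 = 1 := by
    have := key (Np_homogeneous m y)
    rw [eval_Np, eval_Np, nu_V m y hm, nu_U m y hm, map_one, mul_one] at this
    exact this.symm
  have hs : Om m y ∣ eval ![del m y, 2 * y] α - κ ^ (e + 1) * eval ![2 * y, 1 + y ^ 2] α := by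
    rw [← Ideal.mem_span_singleton, ← Ideal.Quotient.eq_zero_iff_mem, ← hq]
    rw [map_sub, key hα, pow_add, hκ4, mul_one, map_mul, map_pow, sub_self]
  obtain ⟨s, hs⟩ := hs
  set LU : SX R := C (-(algebraMap ℚ R (1 / 2) * y)) * X 0 + C 1 * X 1 with hLU
  set LV : SX R := C (m - 2) * X 0 + C (algebraMap ℚ R (1 / 2) * ((m - 2) ^ 2 * y)) * X 1 with hLV
  have hLUh : LU.IsHomogeneous 1 := (isHomogeneous_C_mul_X _ 0).add (isHomogeneous_C_mul_X _ 1)
  have hLVh : LV.IsHomogeneous 1 := (isHomogeneous_C_mul_X _ 0).add (isHomogeneous_C_mul_X _ 1)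
  have hth : (C (2 * y) * X 1 - C (1 + y ^ 2) * X 0 : SX R).IsHomogeneous 1 :=
    (isHomogeneous_C_mul_X _ 1).sub (isHomogeneous_C_mul_X _ 0)
  set h1 : SX R := C (eval ![2 * y, 1 + y ^ 2] α) * LU ^ (e + 1) +
    C s * ((C (2 * y) * X 1 - C (1 + y ^ 2) * X 0) * LV ^ e) with hh1
  have hh1h : h1.IsHomogeneous (e + 1) := by
    refine IsHomogeneous.add ?_ ?_
    · have := (hLUh.pow (e + 1)).C_mul (eval ![2 * y, 1 + y ^ 2] α)
      simpa using this
    · have := (hth.mul (hLVh.pow e)).C_mul s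
      rw [one_mul, add_comm 1 e] at this
      exact this
  have eU : eval ![2 * y, 1 + y ^ 2] h1 = eval ![2 * y, 1 + y ^ 2] α := by
    rw [hh1, hLU]
    simp only [map_mul, map_add, map_sub, map_pow, eval_C, eval_X, Matrix.cons_val_zero,
      Matrix.cons_val_one]
    rw [lU_U y]
    ring
  have eV : eval ![del m y, 2 * y] h1 = eval ![del m y, 2 * y] α := by
    rw [hh1, hLU, hLV]
    simp only [map_mul, map_add, map_sub, map_pow, eval_C, eval_X, Matrix.cons_val_zero,
      Matrix.cons_val_one]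
    rw [lV_V m y hm]
    have hκ' : -(algebraMap ℚ R (1 / 2) * y) * del m y + 1 * (2 * y) = κ := by rw [hκ]; ring
    rw [hκ']
    have hO : 2 * y * (2 * y) - (1 + y ^ 2) * del m y = Om m y := by unfold Om; ring
    rw [hO]
    linear_combination -hs
  obtain ⟨G, hG, hG2⟩ := Tp_dvd (d := e + 1 + 2) m y hm hΩ (F := α - h1 * Np m y)
    (hα.sub (hh1h.mul (Np_homogeneous m y)))
    (by rw [map_sub, map_mul, eU, eval_Np, nu_U m y hm, mul_one, sub_self])
    (by rw [map_sub, map_mul, eV, eval_Np, nu_V m y hm, mul_one, sub_self])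
  exact ⟨G, h1, hG, hh1h, by linear_combination hG2⟩

/-- `SURJ`. -/
theorem surj (m y : R) (hm : m ^ 2 = 2 * m + 1) (hΩ : Om m y ≠ 0) (n : ℕ) :
    ∀ (a : ℕ), 2 ≤ a → ∀ {α : SX R}, α.IsHomogeneous (4 * n + a) →
      ∃ Q ∈ WW R n a, ev m y Q = α := by
  induction n with
  | zero =>
    intro a _ α hα
    exact ⟨C α, C_mem_WW (by simpa using hα), ev_C m y α⟩
  | succ n ih =>
    intro a ha α hα
    obtain ⟨h0, h1, hh0, hh1, h⟩ := dec m y hm hΩ (d := 4 * n + a) (by omega) (α := α)
      (by convert hα using 1; ring)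
    obtain ⟨Q1, hQ1, e1⟩ := ih a ha hh1
    obtain ⟨Q0, hQ0, e0⟩ := ih (a + 2) (by omega) (α := h0) (by convert hh0 using 1; ring)
    refine ⟨X 0 * Q0 + X 1 * Q1, (WW R _ _).add_mem (X0_mul_mem_WW hQ0) (X1_mul_mem_WW hQ1), ?_⟩
    rw [map_add, map_mul, map_mul, ev_X0, ev_X1, e0, e1, h]
    ring

end
end Crest.Agent.R258
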