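import Crest.Agent.R258.WW
import Crest.Agent.R258.Surj
/-! rid 258, task KER (uses `Tp_dvd` of `Surj.lean`). -/
set_option autoImplicit false
noncomputable section
namespace Crest.Agent.R258
open MvPolynomial

section
variable {R : Type*} [CommRing R] [IsDomain R] [Algebra ℚ R]

theorem TT_U (m y : R) : TT m (2 * y) (1 + y ^ 2) y = 0 := by
  unfold TT t1; ring

theorem TT_V (m y : R) : TT m (del m y) (2 * y) y = 0 := by
  unfold TT t2; ring

theorem Tp_ne_zero (m y : R) (hΩ : Om m y ≠ 0) : Tp m y ≠ 0 := by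
  intro h
  have hq : algebraMap ℚ (SX R) (1 / 32) ≠ 0 := by
    rw [Ne, map_eq_zero_iff _ (FaithfulSMul.algebraMap_injective ℚ (SX R))]; norm_num
  rcases mul_eq_zero.1 h with h | h
  · exact hq h
  rcases mul_eq_zero.1 h with h | h
  · have h1 := congrArg (eval ![0, 1]) h
    have h2 := congrArg (eval ![1, 0]) h
    simp only [t1, map_sub, map_mul, map_add, map_pow, map_one, map_ofNat, eval_C, eval_X,
      Matrix.cons_val_zero, Matrix.cons_val_one, map_zero, mul_one, mul_zero, sub_zero,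
      zero_sub, neg_eq_zero] at h1 h2
    apply hΩ
    unfold Om
    linear_combination (2 * y) * h1 - (del m y) * h2
  · have h1 := congrArg (eval ![0, 1]) h
    have h2 := congrArg (eval ![1, 0]) h
    simp only [t2, del, map_sub, map_mul, map_add, map_pow, map_one, map_ofNat, eval_C, eval_X,
      Matrix.cons_val_zero, Matrix.cons_val_one, map_zero, mul_one, mul_zero, sub_zero,
      zero_sub, neg_eq_zero] at h1 h2
    apply hΩ
    unfold Om del
    linear_combination (2 * y) * h2 - (1 + y ^ 2) * h1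

/-- `KER`: the kernel of `ev` on `WW (n+1) (a+2)` is `κ · WW n a`. -/
theorem ker (m y : R) (hm : m ^ 2 = 2 * m + 1) (hΩ : Om m y ≠ 0) (n : ℕ) :
    ∀ (a : ℕ) {Q : MX R}, Q ∈ WW R (n + 1) (a + 2) → ev m y Q = 0 →
      ∃ Q' ∈ WW R n a, Q = kap m y * Q' := by
  have hT : Tp m y ≠ 0 := Tp_ne_zero m y hΩ
  -- first step
  have step : ∀ (n a : ℕ) {Q : MX R}, Q ∈ WW R (n + 1) (a + 2) → ev m y Q = 0 →
      ∃ r : SX R, r.IsHomogeneous a ∧ ∃ Q' ∈ WW R n (a + 4), ev m y Q' = 0 ∧
        Q = X 0 * Q' - kap m y * (C r * X 1 ^ n) := by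
    intro n a Q hQ h
    obtain ⟨c, hc, Q', hQ', rfl⟩ := mem_WW_succ hQ
    have h0 : c * Np m y ^ (n + 1) + Tp m y * ev m y Q' = 0 := by
      rw [← h]
      simp only [map_add, map_mul, map_pow, ev_C, ev_X0, ev_X1]
    have hU : eval ![2 * y, 1 + y ^ 2] c = 0 := by
      have := congrArg (eval ![2 * y, 1 + y ^ 2]) h0
      simp only [map_add, map_mul, map_pow, eval_Tp, eval_Np, nu_U m y hm, TT_U, map_zero] at this
      simpa using this
    have hV : eval ![del m y, 2 * y] c = 0 := by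
      have := congrArg (eval ![del m y, 2 * y]) h0
      simp only [map_add, map_mul, map_pow, eval_Tp, eval_Np, nu_V m y hm, TT_V, map_zero] at this
      simpa using this
    obtain ⟨r, hr, rfl⟩ := Tp_dvd m y hm hΩ hc hU hV
    have hrX : C (Np m y) * (C r * X 1 ^ n) ∈ WW R n (a + 4) :=
      C_mul_mem_WW (d := 4) (Np_homogeneous m y) (X1_pow_mem_WW hr)
    have e : C (Tp m y * r) * X 1 ^ (n + 1) + X 0 * Q' =
        X 0 * (Q' + C (Np m y) * (C r * X 1 ^ n)) - kap m y * (C r * X 1 ^ n) := by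
      unfold kap
      rw [map_mul]
      ring
    refine ⟨r, hr, Q' + C (Np m y) * (C r * X 1 ^ n), (WW R _ _).add_mem hQ' hrX, ?_, e⟩
    have h5 := h
    rw [e, map_sub, map_mul, map_mul, ev_kap, zero_mul, sub_zero, ev_X0] at h5
    exact (mul_eq_zero.1 h5).resolve_left hT
  induction n with
  | zero =>
    intro a Q hQ h
    obtain ⟨r, hr, Q', hQ', h', rfl⟩ := step 0 a hQ h
    obtain ⟨c, hc, rfl⟩ := mem_WW_zero hQ'
    rw [ev_C] at h'
    refine ⟨-(C r), (WW R _ _).neg_mem (C_mem_WW hr), ?_⟩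
    rw [h', map_zero]
    ring
  | succ n ih =>
    intro a Q hQ h
    obtain ⟨r, hr, Q', hQ', h', rfl⟩ := step (n + 1) a hQ h
    obtain ⟨Q2, hQ2, rfl⟩ := ih (a + 2) hQ' h'
    refine ⟨X 0 * Q2 - C r * X 1 ^ (n + 1), (WW R _ _).sub_mem (X0_mul_mem_WW hQ2)
      (X1_pow_mem_WW hr), ?_⟩
    ring

end
end Crest.Agent.R258
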