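import Crest.Agent.R258.WW
import Crest.Agent.R258.Surj
import Crest.Agent.R258.Ker
import Crest.Agent.R258.Bundle
/-! rid 258, task H1: `VA n` and `VB n` for all `n`. -/
set_option autoImplicit false
noncomputable section
namespace Crest.Agent.R258
open MvPolynomial

/-! ### elementary facts on `yL`, `zL`, `mA`, `mL` -/

theorem h1_muB_ne_zero (b : Fin 2) : muB b ≠ 0 := by
  intro h
  have := muB_sq b
  rw [h] at this
  norm_num at this

theorem h1_mA_sq (b : Fin 2) : (mA b) ^ 2 = 2 * mA b + 1 := by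
  have h := congrArg (Polynomial.C : ℂ → AA) (muB_sq b)
  rw [map_pow, map_add, map_mul, map_one, map_ofNat] at h
  exact h

theorem h1_mL_sq (b : Fin 2) : (mL b) ^ 2 = 2 * mL b + 1 := by
  have h := congrArg (LaurentPolynomial.C : ℂ → LL) (muB_sq b)
  rw [map_pow, map_add, map_mul, map_one, map_ofNat] at h
  exact h

theorem h1_mL_one : mL 1 = 2 - mL 0 := by
  have h := congrArg (LaurentPolynomial.C : ℂ → LL) muB_add
  rw [map_add, map_ofNat] at h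
  have h2 : mL 0 + mL 1 = 2 := h
  rw [← h2]; ring

theorem h1_yL_mul_zL : yL * zL = 1 := by
  unfold yL zL
  rw [← LaurentPolynomial.T_add]
  simp

theorem h1_zL_mul_yL : zL * yL = 1 := by rw [mul_comm, h1_yL_mul_zL]

theorem h1_io0_X : io0 Polynomial.X = yL := Polynomial.toLaurent_X

theorem h1_io0_mA (b : Fin 2) : io0 (mA b) = mL b := Polynomial.toLaurent_C _

theorem h1_io1_X : io1 Polynomial.X = zL := by
  simp [io1, zL]

theorem h1_io1_mA (b : Fin 2) : io1 (mA b) = mL b := by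
  simp [io1, mA, mL]

theorem h1_map_Om {R S : Type*} [CommRing R] [CommRing S] (φ : R →+* S) (m y : R) :
    φ (Om m y) = Om (φ m) (φ y) := by
  simp [Om, del, map_ofNat]

theorem Om_ne_zero_A (b : Fin 2) : Om (mA b) (Polynomial.X : AA) ≠ 0 := by
  intro h
  have h2 := congrArg (Polynomial.eval (0 : ℂ)) h
  simp [Om, del, mA] at h2
  exact h1_muB_ne_zero b h2

theorem Om_ne_zero_L : Om (mL 0) yL ≠ 0 := by
  rw [← h1_io0_X, ← h1_io0_mA, ← h1_map_Om]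
  intro h
  exact Om_ne_zero_A 0 (Polynomial.toLaurent_injective (by simpa [io0] using h))

/-- Laurent splitting: `r = α(y) + y^e β(1/y)` for `e ≥ -1`, here `e = k - 1`. -/
theorem laurent_split (k : ℕ) (r : LL) :
    ∃ α β : AA, r = io0 α + LaurentPolynomial.T ((k : ℤ) - 1) * io1 β := by
  induction r using LaurentPolynomial.induction_on' with
  | add p q hp hq =>
    obtain ⟨a, b, h⟩ := hp
    obtain ⟨a', b', h'⟩ := hq
    refine ⟨a + a', b + b', ?_⟩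
    rw [map_add, map_add, h, h']
    ring
  | C_mul_T n c =>
    rcases le_or_gt 0 n with hn | hn
    · obtain ⟨j, rfl⟩ := Int.eq_ofNat_of_zero_le hn
      refine ⟨Polynomial.C c * Polynomial.X ^ j, 0, ?_⟩
      rw [map_zero, mul_zero, add_zero]
      simp only [io0, map_mul, map_pow, Polynomial.toLaurent_C, Polynomial.toLaurent_X,
        LaurentPolynomial.T_pow]
      simp
    · obtain ⟨j, hj⟩ := Int.eq_ofNat_of_zero_le (show 0 ≤ (k : ℤ) - 1 - n by omega)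
      refine ⟨0, Polynomial.C c * Polynomial.X ^ j, ?_⟩
      have h1 : io1 (Polynomial.C c * Polynomial.X ^ j)
          = LaurentPolynomial.C c * LaurentPolynomial.T (-(j : ℤ)) := by
        rw [map_mul, map_pow, h1_io1_X]
        simp [io1, zL, LaurentPolynomial.T_pow]
      have h2 : n = ((k : ℤ) - 1) + -(j : ℤ) := by omega
      rw [h1, map_zero, zero_add, mul_left_comm, ← LaurentPolynomial.T_add, ← h2]

theorem laurent_split_S (k : ℕ) {d : ℕ} {r : SX LL} (hr : r.IsHomogeneous d) :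
    ∃ α β : SX AA, α.IsHomogeneous d ∧ β.IsHomogeneous d ∧
      r = MvPolynomial.map io0 α + C (LaurentPolynomial.T ((k : ℤ) - 1)) * MvPolynomial.map io1 β := by
  choose a b hab using laurent_split k
  have key : ∀ m ∈ r.support, m.degree = d := by
    intro m hm
    rw [Finsupp.degree_eq_weight_one]
    exact hr (mem_support_iff.mp hm)
  refine ⟨∑ m ∈ r.support, monomial m (a (coeff m r)), ∑ m ∈ r.support, monomial m (b (coeff m r)),
    ?_, ?_, ?_⟩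
  · exact IsHomogeneous.sum _ _ _ fun m hm => isHomogeneous_monomial _ (key m hm)
  · exact IsHomogeneous.sum _ _ _ fun m hm => isHomogeneous_monomial _ (key m hm)
  · rw [map_sum, map_sum, Finset.mul_sum, ← Finset.sum_add_distrib]
    conv_lhs => rw [r.as_sum]
    refine Finset.sum_congr rfl fun m _ => ?_
    rw [map_monomial, map_monomial, C_mul_monomial, ← (monomial m).map_add, ← hab]

/-! ### images of the frame elements -/

theorem h1_jo1_C (p : SX AA) : jo1 (C p) = C (MvPolynomial.map io1 p) := by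
  simp [jo1]

theorem h1_jo0_C (p : SX AA) : jo0 (C p) = C (MvPolynomial.map io0 p) := by
  simp [jo0]

theorem h1_jo1_X (i : Fin 2) : jo1 (X i) = X i := by
  simp [jo1]

theorem h1_jo0_X (i : Fin 2) : jo0 (X i) = X i := by
  simp [jo0]

theorem h1_gS_C (p : SX LL) : gS (C p) = C p := by
  exact (gS.commutes p)

theorem h1_gS_X0 : gS (X 0) = C (C (zL ^ 4)) * X 0 := by
  simp [gS]

theorem h1_gS_X1 : gS (X 1) = C (C (zL ^ 3) * Pp (mL 0) yL) * X 0 + C (C (yL ^ 8)) * X 1 := by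
  simp [gS]

theorem h1_ev_C {R : Type*} [CommRing R] [Algebra ℚ R] (m y : R) (p : SX R) : ev m y (C p) = p :=
  (ev m y).commutes p

theorem h1_ev_X0 {R : Type*} [CommRing R] [Algebra ℚ R] (m y : R) : ev m y (X 0) = Tp m y := by
  simp [ev]

theorem h1_ev_X1 {R : Type*} [CommRing R] [Algebra ℚ R] (m y : R) : ev m y (X 1) = Np m y := by
  simp [ev]

theorem h1_map_del {R S : Type*} [CommRing R] [CommRing S] (φ : R →+* S) (m y : R) :
    φ (del m y) = del (φ m) (φ y) := by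
  simp [del, map_ofNat]

theorem h1_map_algebraMapQ {R S : Type*} [CommRing R] [CommRing S] [Algebra ℚ R] [Algebra ℚ S]
    (φ : R →+* S) (q : ℚ) : φ (algebraMap ℚ R q) = algebraMap ℚ S q := by
  have h : φ.comp (algebraMap ℚ R) = algebraMap ℚ S := RingHom.ext_rat _ _
  exact congrArg (fun f : ℚ →+* S => f q) h

theorem h1_map_TT {R S : Type*} [CommRing R] [CommRing S] [Algebra ℚ R] [Algebra ℚ S]
    (φ : R →+* S) (m x0 x1 y : R) :
    φ (TT m x0 x1 y) = TT (φ m) (φ x0) (φ x1) (φ y) := by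
  simp [TT, t1, t2, h1_map_del, map_ofNat]

theorem h1_map_nu {R S : Type*} [CommRing R] [CommRing S] [Algebra ℚ R] [Algebra ℚ S]
    (φ : R →+* S) (m x0 x1 y : R) :
    φ (nu m x0 x1 y) = nu (φ m) (φ x0) (φ x1) (φ y) := by
  simp [nu, map_ofNat]

theorem h1_map_Tp {R S : Type*} [CommRing R] [CommRing S] [Algebra ℚ R] [Algebra ℚ S]
    (φ : R →+* S) (m y : R) : MvPolynomial.map φ (Tp m y) = Tp (φ m) (φ y) := by
  unfold Tp
  rw [h1_map_TT]
  simp

theorem h1_map_Np {R S : Type*} [CommRing R] [CommRing S] [Algebra ℚ R] [Algebra ℚ S]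
    (φ : R →+* S) (m y : R) : MvPolynomial.map φ (Np m y) = Np (φ m) (φ y) := by
  unfold Np
  rw [h1_map_nu]
  simp

/-- `T'(1/y) = y⁻⁴ T(y)` for the polynomials in `x0,x1` over `LL`. -/
theorem h1_Tp_inv : Tp (mL 1) zL = C (zL ^ 4) * Tp (mL 0) yL := by
  have h := TT_inv (R := SX LL) (C (mL 0)) (X 0) (X 1) (C yL) (C zL)
    (by rw [← C_pow, h1_mL_sq]; simp [map_ofNat]) (by rw [← C_mul, h1_yL_mul_zL, C_1])
  unfold Tp
  rw [h1_mL_one, C_pow, C_sub]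
  simpa [map_ofNat] using h

/-- `T P = y³ ν'(1/y) - y¹¹ ν` for the polynomials in `x0,x1` over `LL`. -/
theorem h1_Tp_mul_Pp : Tp (mL 0) yL * Pp (mL 0) yL
    = C (yL ^ 3) * Np (mL 1) zL - C (yL ^ 11) * Np (mL 0) yL := by
  have h := TT_mul_PP (R := SX LL) (C (mL 0)) (X 0) (X 1) (C yL) (C zL)
    (by rw [← C_pow, h1_mL_sq]; simp [map_ofNat]) (by rw [← C_mul, h1_yL_mul_zL, C_1])
  unfold Tp Pp Np
  rw [h1_mL_one, C_pow, C_pow, C_sub]
  simpa [map_ofNat] using h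

/-! ### generic ring computations (abstract rings, to keep `ring` fast) -/

theorem h1_comp_ev1 {R : Type*} [CommRing R] {y z P T N N' : R} (hyz : y * z = 1)
    (h : T * P = y ^ 3 * N' - y ^ 11 * N) : z ^ 3 * P * T + y ^ 8 * N = N' := by
  have e1 : z ^ 3 * P * T + y ^ 8 * N = z ^ 3 * (T * P) + y ^ 8 * N := by ring
  have e2 : z ^ 3 * (y ^ 3 * N' - y ^ 11 * N) + y ^ 8 * N
      = (y * z) ^ 3 * N' + (1 - (y * z) ^ 3) * (y ^ 8 * N) := by ring
  rw [e1, h, e2, hyz]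
  ring

theorem h1_comp_kap0 {R : Type*} [CommRing R] {y z P T T' N N' : R} (hyz : y * z = 1)
    (hT : T' = z ^ 4 * T)
    (h : T * P = y ^ 3 * N' - y ^ 11 * N) : N' * z ^ 4 - T' * (z ^ 3 * P) = y ^ 4 * N := by
  have e1 : N' * z ^ 4 - T' * (z ^ 3 * P) = N' * z ^ 4 - z ^ 7 * (T * P) := by rw [hT]; ring
  have e2 : N' * z ^ 4 - z ^ 7 * (y ^ 3 * N' - y ^ 11 * N)
      = (1 - (y * z) ^ 3) * (N' * z ^ 4) + (y * z) ^ 7 * (y ^ 4 * N) := by ring
  rw [e1, h, e2, hyz]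
  ring

theorem h1_comp_kap1 {R : Type*} [CommRing R] {y z T T' : R} (hyz : y * z = 1)
    (hT : T' = z ^ 4 * T) : T' * y ^ 8 = y ^ 4 * T := by
  have e1 : T' * y ^ 8 = (y * z) ^ 4 * (y ^ 4 * T) := by rw [hT]; ring
  rw [e1, hyz]
  ring

theorem h1_comp_kap2 {R : Type*} [CommRing R] {N1 T1 u v w K0 K1 N T X0 X1 : R}
    (h0 : N1 * u - T1 * v = K0 * N) (h1 : T1 * w = K1 * T) (hK : K0 = K1) :
    N1 * (u * X0) - T1 * (v * X0 + w * X1) = K0 * (N * X0 - T * X1) := by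
  subst hK
  linear_combination X0 * h0 - X1 * h1

theorem h1_comp_VA {R : Type*} [CommRing R] {y z a b p q x0 Q' Q1 B0 B1 g g' c : R}
    (hyz : y * z = 1) (hB : Q' - y ^ 3 * Q1 = B0 + z * B1) (hg : g = p * b * q + x0 * Q1)
    (hg' : g' = z ^ 4 * x0 * B1) (hc : c = a + y ^ 3 * p * b) :
    c * q + x0 * Q' = a * q + x0 * B0 + y ^ 3 * (g + g') := by
  have e : z = y ^ 3 * z ^ 4 := by
    have : y ^ 3 * z ^ 4 = (y * z) ^ 3 * z := by ring
    rw [this, hyz]; ring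
  rw [hg, hg', hc]
  linear_combination (x0 * B1) * e + x0 * hB

theorem h1_comp_VB {R : Type*} [CommRing R] {y z Q Q' a b k B0 B1 : R} (hyz : y * z = 1)
    (hD : Q - a - z * b = k * Q') (hB : Q' = B0 + y ^ 3 * B1) :
    Q = a + k * B0 + z * (b + y ^ 4 * k * B1) := by
  have e : y ^ 3 = z * y ^ 4 := by
    have : z * y ^ 4 = (y * z) * y ^ 3 := by ring
    rw [this, hyz]; ring
  linear_combination (k * B1) * e + hD + k * hB

theorem h1_hyz_S : (C yL : SX LL) * C zL = 1 := by rw [← C_mul, h1_yL_mul_zL, C_1]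

theorem h1_hyz_M : (C (C yL) : MX LL) * C (C zL) = 1 := by rw [← C_mul, h1_hyz_S, C_1]

/-- `ev (G(ι₁ Q)) = ι₁ (ev' Q)`. -/
theorem ev_gS_jo1 (Q : MX AA) :
    ev (mL 0) yL (gS (jo1 Q)) = MvPolynomial.map io1 (ev (mA 1) Polynomial.X Q) := by
  have h0 : ev (mL 0) yL (gS (jo1 (X 0)))
      = MvPolynomial.map io1 (ev (mA 1) Polynomial.X (X 0)) := by
    rw [h1_jo1_X, h1_gS_X0, map_mul, h1_ev_C, h1_ev_X0, h1_ev_X0, h1_map_Tp, h1_io1_X, h1_io1_mA, h1_Tp_inv]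
  have h1 : ev (mL 0) yL (gS (jo1 (X 1)))
      = MvPolynomial.map io1 (ev (mA 1) Polynomial.X (X 1)) := by
    rw [h1_jo1_X, h1_gS_X1, map_add (ev _ _), map_mul (ev _ _), map_mul (ev _ _), h1_ev_C, h1_ev_C, h1_ev_X0,
      h1_ev_X1, h1_ev_X1, h1_map_Np, h1_io1_X, h1_io1_mA, C_pow, C_pow]
    refine h1_comp_ev1 h1_hyz_S ?_
    have h := h1_Tp_mul_Pp
    rwa [C_pow, C_pow] at h
  induction Q using MvPolynomial.induction_on with
  | C p => rw [h1_jo1_C, h1_gS_C, h1_ev_C, h1_ev_C]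
  | add p q hp hq =>
    rw [map_add jo1, map_add gS, map_add (ev (mL 0) yL), map_add (ev (mA 1) Polynomial.X),
      map_add (MvPolynomial.map io1), hp, hq]
  | mul_X p i hp =>
    rw [map_mul jo1, map_mul gS, map_mul (ev (mL 0) yL), map_mul (ev (mA 1) Polynomial.X),
      map_mul (MvPolynomial.map io1), hp]
    match i with
    | 0 => rw [h0]
    | 1 => rw [h1]

/-- `y⁴ κ = G(ι₁ κ₁)`. -/
theorem gS_kap : gS (jo1 (kap (mA 1) Polynomial.X)) = C (C (yL ^ 4)) * kap (mL 0) yL := by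
  unfold kap
  rw [map_sub jo1, map_mul jo1, map_mul jo1, h1_jo1_C, h1_jo1_C, h1_jo1_X, h1_jo1_X, map_sub gS, map_mul gS,
    map_mul gS, h1_gS_C, h1_gS_C, h1_gS_X0, h1_gS_X1, h1_map_Tp, h1_map_Np, h1_io1_X, h1_io1_mA]
  have h := h1_Tp_mul_Pp
  have hT := h1_Tp_inv
  rw [C_pow, C_pow] at h
  rw [C_pow] at hT
  have h' := congrArg (C : SX LL → MX LL) h
  have hT' := congrArg (C : SX LL → MX LL) hT
  rw [C_mul, C_sub, C_mul, C_mul, C_pow, C_pow] at h'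
  rw [C_mul, C_pow] at hT'
  rw [C_mul, C_pow, C_pow, C_pow, C_pow, C_pow, C_pow, C_pow, C_pow]
  exact h1_comp_kap2 (h1_comp_kap0 h1_hyz_M hT' h') (h1_comp_kap1 h1_hyz_M hT') rfl

theorem h1_yL_pow_three : (LaurentPolynomial.T (((4 : ℕ) : ℤ) - 1) : LL) = yL ^ 3 := by
  rw [yL, LaurentPolynomial.T_pow]
  congr 1

theorem h1_zL_eq : (LaurentPolynomial.T (((0 : ℕ) : ℤ) - 1) : LL) = zL := by
  rw [zL]
  congr 1

theorem VA_zero : VA 0 := by
  intro Q hQ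
  obtain ⟨c, hc, rfl⟩ := mem_WW_zero hQ
  obtain ⟨α, β, hα, hβ, h⟩ := laurent_split_S 4 hc
  refine ⟨C α, C_mem_WW hα, C β, C_mem_WW hβ, ?_⟩
  rw [h1_jo0_C, h1_jo1_C, h1_gS_C, ← C_mul, ← C_add, h, h1_yL_pow_three]

theorem VB_zero : VB 0 := by
  intro Q hQ
  obtain ⟨c, hc, rfl⟩ := mem_WW_zero hQ
  obtain ⟨α, β, hα, hβ, h⟩ := laurent_split_S 0 hc
  refine ⟨C α, C_mem_WW hα, C β, C_mem_WW hβ, ?_⟩
  rw [h1_jo0_C, h1_jo1_C, h1_gS_C, ← C_mul, ← C_add, h, h1_zL_eq]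

theorem h1_zPp_homogeneous : (C (zL ^ 3) * Pp (mL 0) yL : SX LL).IsHomogeneous 2 := by
  have h := (isHomogeneous_C (Fin 2) (zL ^ 3 : LL)).mul (Pp_homogeneous (mL 0) yL)
  rwa [zero_add] at h

theorem h1_gS_X1_pow {n : ℕ} {c : SX LL} (hc : c.IsHomogeneous 0) :
    ∃ Q' ∈ WW LL n 2, gS (C c * X 1 ^ (n + 1))
      = C (C ((yL ^ 8) ^ (n + 1)) * c) * X 1 ^ (n + 1) + X 0 * Q' :=
  subst_X1_pow (R := LL) (n := n) (a := 0) (zL ^ 4) (yL ^ 8) h1_zPp_homogeneous c hc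

theorem VA_succ {n : ℕ} (h : VB n) : VA (n + 1) := by
  intro Q hQ
  obtain ⟨c, hc, Q', hQ', rfl⟩ := mem_WW_succ hQ
  obtain ⟨α, β, hα, hβ, hc'⟩ := laurent_split_S (3 + 8 * (n + 1) + 1) hc
  obtain ⟨Q1, hQ1, hQ1'⟩ := h1_gS_X1_pow (n := n) (hβ.map io1)
  have hm : Q' - C (C (yL ^ 3)) * Q1 ∈ WW LL n 2 :=
    Submodule.sub_mem _ hQ' (CC_mul_mem_WW _ hQ1)
  obtain ⟨B0, hB0, B1, hB1, hB⟩ := h (Q' - C (C (yL ^ 3)) * Q1) hm
  refine ⟨C α * X 1 ^ (n + 1) + X 0 * B0,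
    Submodule.add_mem _ (X1_pow_mem_WW hα) (X0_mul_mem_WW hB0),
    C β * X 1 ^ (n + 1) + X 0 * B1,
    Submodule.add_mem _ (X1_pow_mem_WW hβ) (X0_mul_mem_WW hB1), ?_⟩
  have g1 : gS (jo1 (C β * X 1 ^ (n + 1)))
      = C (C ((yL ^ 8) ^ (n + 1)) * MvPolynomial.map io1 β) * X 1 ^ (n + 1) + X 0 * Q1 := by
    rw [← hQ1', map_mul jo1, map_pow jo1, h1_jo1_C, h1_jo1_X]
  have hT : (LaurentPolynomial.T (((3 + 8 * (n + 1) + 1 : ℕ) : ℤ) - 1) : LL)
      = yL ^ 3 * (yL ^ 8) ^ (n + 1) := by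
    rw [← pow_mul, ← pow_add, yL, LaurentPolynomial.T_pow]
    congr 1
    push_cast
    ring
  rw [hT] at hc'
  have hc2 := congrArg (C : SX LL → MX LL) hc'
  rw [C_add, C_mul, C_mul, C_mul, C_pow, C_pow] at hc2
  rw [C_mul] at g1
  have g2 : gS (jo1 (X 0 * B1)) = C (C zL) ^ 4 * X 0 * gS (jo1 B1) := by
    rw [map_mul jo1, map_mul gS, h1_jo1_X, h1_gS_X0, C_pow, C_pow]
  rw [C_pow, C_pow] at hB
  rw [map_add jo1, map_add gS, map_add jo0, map_mul jo0, map_mul jo0, map_pow jo0, h1_jo0_C, h1_jo0_X,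
    h1_jo0_X, C_pow, C_pow]
  exact h1_comp_VA h1_hyz_M hB g1 g2 hc2

theorem VB_succ {n : ℕ} (h : VA n) : VB (n + 1) := by
  intro Q hQ
  obtain ⟨α, β, hα, hβ, hc⟩ := laurent_split_S 0 (ev_homogeneous (mL 0) yL hQ)
  obtain ⟨Qa, hQa, hea⟩ := surj (mA 0) Polynomial.X (h1_mA_sq 0) (Om_ne_zero_A 0) (n + 1) 2 le_rfl hα
  obtain ⟨Qb, hQb, heb⟩ := surj (mA 1) Polynomial.X (h1_mA_sq 1) (Om_ne_zero_A 1) (n + 1) 2 le_rfl hβ
  have hT : (LaurentPolynomial.T (((0 : ℕ) : ℤ) - 1) : LL) = zL := by simp [zL]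
  rw [hT] at hc
  have hD : Q - jo0 Qa - C (C zL) * gS (jo1 Qb) ∈ WW LL (n + 1) (0 + 2) :=
    Submodule.sub_mem _ (Submodule.sub_mem _ hQ (jo0_mem_WW hQa))
      (CC_mul_mem_WW _ (gS_mem_WW (jo1_mem_WW hQb)))
  have he : ev (mL 0) yL (Q - jo0 Qa - C (C zL) * gS (jo1 Qb)) = 0 := by
    have h1 : ev (mL 0) yL (jo0 Qa) = MvPolynomial.map io0 α := by
      rw [← hea, map_ev, h1_io0_X, h1_io0_mA]
      rfl
    rw [map_sub, map_sub, map_mul, h1_ev_C, ev_gS_jo1, heb, h1, hc]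
    ring
  obtain ⟨Q', hQ', hD'⟩ := ker (mL 0) yL (h1_mL_sq 0) Om_ne_zero_L n 0 hD he
  obtain ⟨B0, hB0, B1, hB1, hB⟩ := h Q' hQ'
  refine ⟨Qa + kap (mA 0) Polynomial.X * B0, Submodule.add_mem _ hQa (kap_mul_mem_WW _ _ hB0),
    Qb + kap (mA 1) Polynomial.X * B1, Submodule.add_mem _ hQb (kap_mul_mem_WW _ _ hB1), ?_⟩
  have hk : jo0 (kap (mA 0) Polynomial.X) = kap (mL 0) yL := by
    have := map_kap io0 (mA 0) Polynomial.X
    rw [h1_io0_X, h1_io0_mA] at this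
    exact this
  rw [map_add jo0, map_mul jo0, hk, map_add jo1, map_mul jo1, map_add gS, map_mul gS, gS_kap]
  rw [C_pow, C_pow] at hB ⊢
  exact h1_comp_VB h1_hyz_M hD' hB

theorem VA_all (n : ℕ) : VA n ∧ VB n := by
  induction n with
  | zero => exact ⟨VA_zero, VB_zero⟩
  | succ n ih => exact ⟨VA_succ ih.2, VB_succ ih.1⟩

end Crest.Agent.R258
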