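import Crest.Agent.R258.Defs

/-!
Row 258 (S0396), ampleness algebra, part 1: Laurent polynomials in two variables, the graded
pieces `OO r d` (sections of `O(d)` over a region `r`), vanishing of the first Cech cohomology of
`O(d)`, `d ≥ -1`, and generation of `O(d)`, `d ≥ 0`, modulo the two linear forms of a point.
-/

set_option autoImplicit false

noncomputable section

namespace Crest.Agent.R258

open Crest.AlgGeometry.QuadricBundle

/-- Laurent polynomials in `x, y`. -/
abbrev Lam : Type := AddMonoidAlgebra ℂ (ℤ × ℤ)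

/-- A region: for each factor one of the two charts or (`none`) their overlap. -/
abbrev Reg : Type := Option (Fin 2) × Option (Fin 2)

/-- exponent condition for a section of `O(d)`. -/
def cnd (s : Option (Fin 2)) (d i : ℤ) : Prop :=
  (s = some 0 → 0 ≤ i) ∧ (s = some 1 → i ≤ d)

theorem cnd_none (d i : ℤ) : cnd none d i := by simp [cnd]

theorem cnd_add {s : Option (Fin 2)} {d d' i i' : ℤ} (h : cnd s d i) (h' : cnd s d' i') :
    cnd s (d + d') (i + i') :=
  ⟨fun e => add_nonneg (h.1 e) (h'.1 e), fun e => add_le_add (h.2 e) (h'.2 e)⟩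

/-- sections of `O(d)` over the region `r`. -/
def OO (r : Reg) (d : ℤ × ℤ) : Submodule ℂ Lam where
  carrier := {q | ∀ e : ℤ × ℤ, q.coeff e ≠ 0 → cnd r.1 d.1 e.1 ∧ cnd r.2 d.2 e.2}
  zero_mem' := by intro e he; simp at he
  add_mem' := by
    intro a b ha hb e he
    by_cases h : a.coeff e = 0
    · apply hb e
      intro h'
      apply he
      rw [AddMonoidAlgebra.coeff_add, Finsupp.add_apply, h, h', add_zero]
    · exact ha e h
  smul_mem' := by
    intro c a ha e he
    apply ha e
    intro h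
    apply he
    rw [AddMonoidAlgebra.coeff_smul, Finsupp.smul_apply, h, smul_zero]

theorem mem_OO {r : Reg} {d : ℤ × ℤ} {q : Lam} :
    q ∈ OO r d ↔ ∀ e : ℤ × ℤ, q.coeff e ≠ 0 → cnd r.1 d.1 e.1 ∧ cnd r.2 d.2 e.2 := Iff.rfl

/-- the monomial `x ^ i y ^ j`. -/
def mon (i j : ℤ) : Lam := AddMonoidAlgebra.single (i, j) 1

theorem mon_mul (i j i' j' : ℤ) : mon i j * mon i' j' = mon (i + i') (j + j') := by
  unfold mon
  rw [AddMonoidAlgebra.single_mul_single]
  simp

theorem mon_zero : mon 0 0 = 1 := rfl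

theorem mon_mem {r : Reg} {d : ℤ × ℤ} {i j : ℤ} (h1 : cnd r.1 d.1 i) (h2 : cnd r.2 d.2 j) :
    mon i j ∈ OO r d := by
  intro e he
  have : (i, j) = e := by
    by_contra hne
    apply he
    unfold mon
    rw [AddMonoidAlgebra.coeff_single, Finsupp.single_apply, if_neg hne]
  subst this
  exact ⟨h1, h2⟩

theorem one_mem_OO (r : Reg) : (1 : Lam) ∈ OO r 0 := by
  rw [← mon_zero]
  exact mon_mem ⟨fun _ => le_rfl, fun _ => le_rfl⟩ ⟨fun _ => le_rfl, fun _ => le_rfl⟩

theorem mul_mem_OO {r : Reg} {d d' : ℤ × ℤ} {a b : Lam} (ha : a ∈ OO r d) (hb : b ∈ OO r d') :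
    a * b ∈ OO r (d + d') := by
  classical
  intro e he
  have h1 := AddMonoidAlgebra.support_coeff_mul_subset a b (Finsupp.mem_support_iff.mpr he)
  obtain ⟨e1, he1, e2, he2, rfl⟩ := Finset.mem_add.mp h1
  have k1 := ha e1 (Finsupp.mem_support_iff.mp he1)
  have k2 := hb e2 (Finsupp.mem_support_iff.mp he2)
  exact ⟨cnd_add k1.1 k2.1, cnd_add k1.2 k2.2⟩

theorem algebraMap_mem_OO (r : Reg) (c : ℂ) : algebraMap ℂ Lam c ∈ OO r 0 := by
  rw [Algebra.algebraMap_eq_smul_one]
  exact (OO r 0).smul_mem c (one_mem_OO r)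

/-- functions over the region. -/
def OA (r : Reg) : Subalgebra ℂ Lam where
  carrier := OO r 0
  mul_mem' := by
    intro a b ha hb
    have := mul_mem_OO ha hb
    rwa [add_zero] at this
  one_mem' := one_mem_OO r
  add_mem' := by
    intro a b ha hb
    exact (OO r 0).add_mem ha hb
  zero_mem' := (OO r 0).zero_mem
  algebraMap_mem' := algebraMap_mem_OO r

theorem mem_OA {r : Reg} {q : Lam} : q ∈ OA r ↔ q ∈ OO r 0 := Iff.rfl

theorem OA_mul_OO {r : Reg} {d : ℤ × ℤ} {a b : Lam} (ha : a ∈ OO r d) (hb : b ∈ OA r) :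
    a * b ∈ OO r d := by
  have := mul_mem_OO ha hb
  rwa [add_zero] at this

/-! ### regions of charts -/

/-- the region `U_α ∩ U_β`. -/
def rg (α β : Chart) : Reg :=
  (if α.1 = β.1 then some α.1 else none, if α.2 = β.2 then some α.2 else none)

theorem cnd_rg_left {a b : Fin 2} {d i : ℤ} (h : cnd (some a) d i) :
    cnd (if a = b then some a else none) d i := by
  split_ifs
  · exact h
  · exact cnd_none d i

theorem cnd_rg_right {a b : Fin 2} {d i : ℤ} (h : cnd (some b) d i) :
    cnd (if a = b then some a else none) d i := by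
  split_ifs with h1
  · rw [h1]; exact h
  · exact cnd_none d i

theorem rg_self (α : Chart) : rg α α = (some α.1, some α.2) := by simp [rg]

theorem OO_left (α β : Chart) (d : ℤ × ℤ) : OO (rg α α) d ≤ OO (rg α β) d := by
  intro q hq e he
  have h := hq e he
  rw [rg_self] at h
  exact ⟨cnd_rg_left h.1, cnd_rg_left h.2⟩

theorem OO_right (α β : Chart) (d : ℤ × ℤ) : OO (rg β β) d ≤ OO (rg α β) d := by
  intro q hq e he
  have h := hq e he
  rw [rg_self] at h
  exact ⟨cnd_rg_right h.1, cnd_rg_right h.2⟩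

/-! ### `H¹(O(d)) = 0` for `d ≥ -1` -/

/-- restriction of the support to a subset. -/
def filt (P : ℤ × ℤ → Prop) [DecidablePred P] : Lam →ₗ[ℂ] Lam where
  toFun q := AddMonoidAlgebra.ofCoeff (q.coeff.filter P)
  map_add' a b := by
    rw [AddMonoidAlgebra.coeff_add, Finsupp.filter_add]; rfl
  map_smul' c a := by
    rw [AddMonoidAlgebra.coeff_smul, Finsupp.filter_smul]; rfl

theorem filt_coeff (P : ℤ × ℤ → Prop) [DecidablePred P] (q : Lam) (e : ℤ × ℤ) :
    (filt P q).coeff e = if P e then q.coeff e else 0 := by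
  change (q.coeff.filter P) e = _
  rw [Finsupp.filter_apply]

/-- quadrant of the chart `γ`. -/
def quad (γ : Chart) (e : ℤ × ℤ) : Prop := (γ.1 = 0 ↔ e.1 < 0) ∧ (γ.2 = 0 ↔ e.2 < 0)

instance (γ : Chart) : DecidablePred (quad γ) := fun e => by
  unfold quad; infer_instance

/-- the quadrant containing a given exponent. -/
def quadOf (e : ℤ × ℤ) : Chart := (if e.1 < 0 then 0 else 1, if e.2 < 0 then 0 else 1)

theorem quad_iff (γ : Chart) (e : ℤ × ℤ) : quad γ e ↔ γ = quadOf e := by
  obtain ⟨a, b⟩ := γ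
  unfold quad quadOf
  by_cases h1 : e.1 < 0 <;> by_cases h2 : e.2 < 0 <;> fin_cases a <;> fin_cases b <;> simp [h1, h2]

theorem sum_quad_coeff (c : Chart → Lam) (e : ℤ × ℤ) :
    (∑ γ, filt (quad γ) (c γ)).coeff e = (c (quadOf e)).coeff e := by
  rw [AddMonoidAlgebra.coeff_sum, Finsupp.finsetSum_apply]
  rw [Finset.sum_eq_single (quadOf e)]
  · rw [filt_coeff, if_pos ((quad_iff _ _).mpr rfl)]
  · intro γ _ hγ
    rw [filt_coeff, if_neg (fun h => hγ ((quad_iff _ _).mp h))]
  · intro h; exact absurd (Finset.mem_univ _) h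

theorem H1_OO {d : ℤ × ℤ} (h1 : -1 ≤ d.1) (h2 : -1 ≤ d.2) (c : Chart → Chart → Lam)
    (hc : ∀ α β, c α β ∈ OO (rg α β) d) (hcoc : ∀ α β γ, c α β + c β γ = c α γ) :
    ∃ b : Chart → Lam, (∀ α, b α ∈ OO (rg α α) d) ∧ ∀ α β, c α β = b α - b β := by
  refine ⟨fun α => ∑ γ, filt (quad γ) (c α γ), fun α e he => ?_, fun α β => ?_⟩
  · rw [sum_quad_coeff] at he
    have h := hc α (quadOf e) e he
    have hq := (quad_iff (quadOf e) e).mpr rfl
    rw [rg_self]
    obtain ⟨a, b⟩ := α
    generalize quadOf e = γ at h hq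
    obtain ⟨a', b'⟩ := γ
    have key : ∀ (a a' : Fin 2) (dd i : ℤ), -1 ≤ dd →
        cnd (if a = a' then some a else none) dd i → (a' = 0 ↔ i < 0) → cnd (some a) dd i := by
      intro a a' dd i hd hcn hqa
      fin_cases a <;> fin_cases a' <;> simp [cnd] at hcn hqa ⊢ <;> omega
    exact ⟨key a a' d.1 e.1 h1 h.1 hq.1, key b b' d.2 e.2 h2 h.2 hq.2⟩
  · apply AddMonoidAlgebra.coeff_injective
    ext e
    rw [AddMonoidAlgebra.coeff_sub, Finsupp.sub_apply, sum_quad_coeff, sum_quad_coeff,
      ← hcoc α β (quadOf e), AddMonoidAlgebra.coeff_add, Finsupp.add_apply]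
    ring

/-! ### generation of `O(d)`, `d ≥ 0` -/

/-- a submodule containing the monomials of `O(d)` contains `O(d)`. -/
theorem OO_le_of_mon {r : Reg} {d : ℤ × ℤ} {V : Submodule ℂ Lam}
    (h : ∀ i j, cnd r.1 d.1 i → cnd r.2 d.2 j → mon i j ∈ V) : OO r d ≤ V := by
  intro q hq
  rw [← AddMonoidAlgebra.sum_coeff_single q]
  refine V.sum_mem fun e he => ?_
  have hk := hq e (Finsupp.mem_support_iff.mp he)
  have : AddMonoidAlgebra.single e (q.coeff e) = q.coeff e • mon e.1 e.2 := by
    unfold mon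
    rw [AddMonoidAlgebra.smul_single]
    simp
  rw [this]
  exact V.smul_mem _ (h _ _ hk.1 hk.2)

/-- the linear form in `x` vanishing at the point with coordinate `c` of the chart `a`. -/
def lin1 (a : Fin 2) (c : ℂ) : Lam := if a = 0 then mon 1 0 - c • 1 else 1 - c • mon 1 0

/-- the linear form in `y` vanishing at the point with coordinate `c` of the chart `b`. -/
def lin2 (b : Fin 2) (c : ℂ) : Lam := if b = 0 then mon 0 1 - c • 1 else 1 - c • mon 0 1

theorem mon_mem_iff {α : Chart} {d : ℤ × ℤ} {i j : ℤ} (h1 : cnd (some α.1) d.1 i)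
    (h2 : cnd (some α.2) d.2 j) : mon i j ∈ OO (rg α α) d := by
  rw [rg_self]; exact mon_mem h1 h2

/-- local generator of `O(d)` at the chart `α`. -/
def gen (α : Chart) (d : ℤ × ℤ) : Lam :=
  mon (if α.1 = 0 then 0 else d.1) (if α.2 = 0 then 0 else d.2)

theorem gen_mem (α : Chart) (d : ℤ × ℤ) : gen α d ∈ OO (rg α α) d := by
  unfold gen
  apply mon_mem_iff
  · split_ifs with h
    · simp [cnd, h]
    · have : α.1 = 1 := by omega
      simp [cnd, this]
  · split_ifs with h
    · simp [cnd, h]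
    · have : α.2 = 1 := by omega
      simp [cnd, this]

theorem gen_global (α : Chart) {d : ℤ × ℤ} (h1 : 0 ≤ d.1) (h2 : 0 ≤ d.2) (β : Chart) :
    gen α d ∈ OO (rg β β) d := by
  unfold gen
  apply mon_mem_iff <;> constructor <;> intro _ <;> split_ifs <;> simp [h1, h2]

/-- submodule of those elements which are global modulo the point. -/
def VGG (α : Chart) (d : ℤ × ℤ) (l1 l2 : Lam) : Submodule ℂ Lam where
  carrier := {q | ∃ g, (∀ β, g ∈ OO (rg β β) d) ∧ ∃ q1 ∈ OO (rg α α) (d - (1, 0)),
    ∃ q2 ∈ OO (rg α α) (d - (0, 1)), q = g + l1 * q1 + l2 * q2}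
  zero_mem' := ⟨0, fun _ => Submodule.zero_mem _, 0, Submodule.zero_mem _, 0,
    Submodule.zero_mem _, by ring⟩
  add_mem' := by
    rintro a b ⟨g, hg, q1, h1, q2, h2, rfl⟩ ⟨g', hg', q1', h1', q2', h2', rfl⟩
    exact ⟨g + g', fun β => Submodule.add_mem _ (hg β) (hg' β), q1 + q1',
      Submodule.add_mem _ h1 h1', q2 + q2', Submodule.add_mem _ h2 h2', by ring⟩
  smul_mem' := by
    rintro c a ⟨g, hg, q1, h1, q2, h2, rfl⟩
    refine ⟨c • g, fun β => Submodule.smul_mem _ _ (hg β), c • q1, Submodule.smul_mem _ _ h1,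
      c • q2, Submodule.smul_mem _ _ h2, ?_⟩
    simp only [smul_add, mul_smul_comm]

theorem GG_OO {d : ℤ × ℤ} (hd1 : 0 ≤ d.1) (hd2 : 0 ≤ d.2) (α : Chart) (c1 c2 : ℂ) :
    OO (rg α α) d ≤ VGG α d (lin1 α.1 c1) (lin2 α.2 c2) := by
  set V := VGG α d (lin1 α.1 c1) (lin2 α.2 c2) with hV
  have hgen : gen α d ∈ V := ⟨gen α d, gen_global α hd1 hd2, 0, Submodule.zero_mem _, 0,
    Submodule.zero_mem _, by ring⟩
  have hl1 : ∀ q ∈ OO (rg α α) (d - (1, 0)), lin1 α.1 c1 * q ∈ V := fun q hq =>
    ⟨0, fun _ => Submodule.zero_mem _, q, hq, 0, Submodule.zero_mem _, by ring⟩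
  have hl2 : ∀ q ∈ OO (rg α α) (d - (0, 1)), lin2 α.2 c2 * q ∈ V := fun q hq =>
    ⟨0, fun _ => Submodule.zero_mem _, 0, Submodule.zero_mem _, q, hq, by ring⟩
  -- the distinguished exponents
  set i0 : ℤ := if α.1 = 0 then 0 else d.1 with hi0
  set j0 : ℤ := if α.2 = 0 then 0 else d.2 with hj0
  have hc0 : cnd (some α.1) d.1 i0 := by
    rw [hi0]; split_ifs with h
    · simp [cnd, h]
    · have : α.1 = 1 := by omega
      simp [cnd, this]
  -- `y` direction
  have hY : ∀ j, cnd (some α.2) d.2 j → mon i0 j ∈ V := by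
    have hgen' : mon i0 j0 ∈ V := hgen
    by_cases h : α.2 = 0
    · have e0 : j0 = 0 := by rw [hj0, if_pos h]
      have hn : ∀ n : ℕ, mon i0 (n : ℤ) ∈ V := by
        intro n
        induction n with
        | zero => rw [e0] at hgen'; exact_mod_cast hgen'
        | succ n ih =>
          have hm : mon i0 (n : ℤ) ∈ OO (rg α α) (d - (0, 1)) := by
            apply mon_mem_iff
            · simpa using hc0
            · simp [cnd, h]
          have e : mon i0 ((n + 1 : ℕ) : ℤ) = lin2 α.2 c2 * mon i0 n + c2 • mon i0 n := by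
            rw [lin2, if_pos h, sub_mul, mon_mul, smul_mul_assoc, one_mul]
            push_cast
            rw [zero_add, add_comm (1 : ℤ) n]
            abel
          rw [e]
          exact V.add_mem (hl2 _ hm) (V.smul_mem _ ih)
      intro j hj
      obtain ⟨n, rfl⟩ := Int.eq_ofNat_of_zero_le (hj.1 (by rw [h]))
      exact hn n
    · have h' : α.2 = 1 := by omega
      have e0 : j0 = d.2 := by rw [hj0, if_neg h]
      have hn : ∀ n : ℕ, mon i0 (d.2 - n) ∈ V := by
        intro n
        induction n with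
        | zero => rw [e0] at hgen'; simpa using hgen'
        | succ n ih =>
          have hm : mon i0 (d.2 - (n + 1 : ℕ)) ∈ OO (rg α α) (d - (0, 1)) := by
            apply mon_mem_iff
            · simpa using hc0
            · simp [cnd, h']
          have e : mon i0 (d.2 - (n + 1 : ℕ)) =
              lin2 α.2 c2 * mon i0 (d.2 - (n + 1 : ℕ)) + c2 • mon i0 (d.2 - n) := by
            rw [lin2, if_neg h, sub_mul, one_mul, smul_mul_assoc, mon_mul]
            have : (1 : ℤ) + (d.2 - (n + 1 : ℕ)) = d.2 - n := by push_cast; ring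
            rw [this, zero_add]
            abel
          rw [e]
          exact V.add_mem (hl2 _ hm) (V.smul_mem _ ih)
      intro j hj
      have hj' := hj.2 (by rw [h'])
      obtain ⟨n, hn'⟩ := Int.eq_ofNat_of_zero_le (sub_nonneg.mpr hj')
      have : j = d.2 - n := by omega
      rw [this]; exact hn n
  -- `x` direction
  apply OO_le_of_mon
  rw [rg_self]
  intro i j hi hj
  have hYj := hY j hj
  by_cases h : α.1 = 0
  · have e0 : i0 = 0 := by rw [hi0, if_pos h]
    have hn : ∀ n : ℕ, mon (n : ℤ) j ∈ V := by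
      intro n
      induction n with
      | zero => rw [e0] at hYj; exact_mod_cast hYj
      | succ n ih =>
        have hm : mon (n : ℤ) j ∈ OO (rg α α) (d - (1, 0)) := by
          apply mon_mem_iff
          · simp [cnd, h]
          · simpa using hj
        have e : mon ((n + 1 : ℕ) : ℤ) j = lin1 α.1 c1 * mon n j + c1 • mon n j := by
          rw [lin1, if_pos h, sub_mul, mon_mul, smul_mul_assoc, one_mul]
          push_cast
          rw [zero_add, add_comm (1 : ℤ) n]
          abel
        rw [e]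
        exact V.add_mem (hl1 _ hm) (V.smul_mem _ ih)
    obtain ⟨n, rfl⟩ := Int.eq_ofNat_of_zero_le (hi.1 (by simp [h]))
    exact hn n
  · have h' : α.1 = 1 := by omega
    have e0 : i0 = d.1 := by rw [hi0, if_neg h]
    have hn : ∀ n : ℕ, mon (d.1 - n) j ∈ V := by
      intro n
      induction n with
      | zero => rw [e0] at hYj; simpa using hYj
      | succ n ih =>
        have hm : mon (d.1 - (n + 1 : ℕ)) j ∈ OO (rg α α) (d - (1, 0)) := by
          apply mon_mem_iff
          · simp [cnd, h']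
          · simpa using hj
        have e : mon (d.1 - (n + 1 : ℕ)) j =
            lin1 α.1 c1 * mon (d.1 - (n + 1 : ℕ)) j + c1 • mon (d.1 - n) j := by
          rw [lin1, if_neg h, sub_mul, one_mul, smul_mul_assoc, mon_mul]
          have : (1 : ℤ) + (d.1 - (n + 1 : ℕ)) = d.1 - n := by push_cast; ring
          rw [this, zero_add]
          abel
        rw [e]
        exact V.add_mem (hl1 _ hm) (V.smul_mem _ ih)
    have hi' := hi.2 (by simp [h'])
    obtain ⟨n, hn'⟩ := Int.eq_ofNat_of_zero_le (sub_nonneg.mpr hi')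
    have : i = d.1 - n := by omega
    rw [this]; exact hn n

end Crest.Agent.R258
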