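import Mathlib
import Crest.Prelude.Def_QuadricBundle

/-!
# Maximum principle for functionals on a Griffiths-positive bundle (result 258)
-/

set_option autoImplicit false

namespace Crest.Agent.R258

open Crest.AlgGeometry.QuadricBundle Filter Topology Complex

open scoped ComplexConjugate ComplexOrder

theorem ContDiffAt_deriv_aux {a : ℝ → ℝ} {t₀ : ℝ} (ha : ContDiffAt ℝ 2 a t₀) :
    DifferentiableAt ℝ (deriv a) t₀ := by
  have h : ContDiffAt ℝ 1 (fderiv ℝ a) t₀ := ha.fderiv_right (by norm_num)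
  have h2 : ContDiffAt ℝ 1 (fun t => fderiv ℝ a t 1) t₀ := h.clm_apply contDiffAt_const
  exact h2.differentiableAt (by norm_num)

/-- second derivative comparison at a touching point -/
theorem deriv_deriv_le_of_touch {a u : ℝ → ℝ} {t₀ : ℝ} (ha : ContDiffAt ℝ 2 a t₀)
    (hu : ContDiffAt ℝ 2 u t₀) (hle : ∀ᶠ t in 𝓝 t₀, u t ≤ a t) (heq : u t₀ = a t₀) :
    deriv (deriv u) t₀ ≤ deriv (deriv a) t₀ := by
  by_contra hcon
  push Not at hcon
  have hd : ContDiffAt ℝ 2 (fun t => a t - u t) t₀ := ha.sub hu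
  have hmin : IsLocalMin (fun t => a t - u t) t₀ := by
    filter_upwards [hle] with t ht
    simp only [heq, sub_self]
    linarith
  have h1 : deriv (fun t => a t - u t) t₀ = 0 := hmin.deriv_eq_zero
  have h2 : deriv (deriv (fun t => a t - u t)) t₀ = deriv (deriv a) t₀ - deriv (deriv u) t₀ := by
    have e1 : ∀ᶠ t in 𝓝 t₀, DifferentiableAt ℝ a t := by
      have := (ha.eventually (by simp)).mono fun t ht => ht.differentiableAt (by norm_num)
      exact this
    have e2 : ∀ᶠ t in 𝓝 t₀, DifferentiableAt ℝ u t := by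
      have := (hu.eventually (by simp)).mono fun t ht => ht.differentiableAt (by norm_num)
      exact this
    have e3 : deriv (fun t => a t - u t) =ᶠ[𝓝 t₀] fun t => deriv a t - deriv u t := by
      filter_upwards [e1, e2] with t h1 h2
      exact deriv_fun_sub h1 h2
    rw [e3.deriv_eq]
    exact deriv_fun_sub (ContDiffAt_deriv_aux ha) (ContDiffAt_deriv_aux hu)
  have hneg : deriv (deriv (fun t => a t - u t)) t₀ < 0 := by
    rw [h2]; linarith
  have hmax := isLocalMax_of_deriv_deriv_neg hneg h1 hd.continuousAt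
  have hconst : (fun t => a t - u t) =ᶠ[𝓝 t₀] fun _ => a t₀ - u t₀ := by
    filter_upwards [hmin, hmax] with t h3 h4
    exact le_antisymm h4 h3
  have h5 : deriv (fun t => a t - u t) =ᶠ[𝓝 t₀] fun _ => 0 := by
    have := hconst.deriv
    simpa using this
  have h6 : deriv (deriv (fun t => a t - u t)) t₀ = 0 := by
    rw [h5.deriv_eq]; simp
  linarith

section norm

variable {r : ℕ}

theorem hNormSq_eq {H : MetricData r} {α : Chart} {q : Fin 2 → ℂ} (v : Fin r → ℂ) :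
    hNormSq H α q v = (star (fun i => conj (v i)) ⬝ᵥ (H α q).mulVec (fun i => conj (v i))).re := by
  unfold hNormSq
  congr 1
  simp only [dotProduct, Matrix.mulVec, Pi.star_apply, RCLike.star_def, Complex.conj_conj,
    Finset.mul_sum]
  refine Finset.sum_congr rfl fun i _ => Finset.sum_congr rfl fun j _ => ?_
  ring

theorem hNormSq_pos {H : MetricData r} {α : Chart} {q : Fin 2 → ℂ} (hH : (H α q).PosDef)
    {v : Fin r → ℂ} (hv : v ≠ 0) : 0 < hNormSq H α q v := by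
  rw [hNormSq_eq]
  have hv' : (fun i => conj (v i)) ≠ 0 := by
    intro h
    apply hv
    funext i
    have := congrFun h i
    simpa using this
  have := hH.dotProduct_mulVec_pos hv'
  exact (Complex.pos_iff.mp this).1

theorem hNormSq_zero {H : MetricData r} {α : Chart} {q : Fin 2 → ℂ} :
    hNormSq H α q 0 = 0 := by
  simp [hNormSq]

theorem hNormSq_nonneg {H : MetricData r} {α : Chart} {q : Fin 2 → ℂ} (hH : (H α q).PosDef)
    (v : Fin r → ℂ) : 0 ≤ hNormSq H α q v := by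
  by_cases hv : v = 0
  · rw [hv, hNormSq_zero]
  · exact (hNormSq_pos hH hv).le

theorem hNormSq_smul {H : MetricData r} {α : Chart} {q : Fin 2 → ℂ} (c : ℂ) (v : Fin r → ℂ) :
    hNormSq H α q (c • v) = ‖c‖ ^ 2 * hNormSq H α q v := by
  unfold hNormSq
  have h1 : (∑ i, ∑ j, H α q i j * (c • v) i * conj ((c • v) j)) =
      ((‖c‖ ^ 2 : ℝ) : ℂ) * ∑ i, ∑ j, H α q i j * v i * conj (v j) := by
    rw [Finset.mul_sum]
    refine Finset.sum_congr rfl fun i _ => ?_
    rw [Finset.mul_sum]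
    refine Finset.sum_congr rfl fun j _ => ?_
    have h2 : ((‖c‖ ^ 2 : ℝ) : ℂ) = c * conj c := by
      rw [Complex.mul_conj, Complex.normSq_eq_norm_sq]
    rw [h2]
    simp only [Pi.smul_apply, smul_eq_mul, map_mul]
    ring
  rw [h1, Complex.re_ofReal_mul]

theorem continuous_hNormSq {g : Transition r} {H : MetricData r} (hH : IsHermitianMetric g H)
    (α : Chart) : Continuous fun qv : (Fin 2 → ℂ) × (Fin r → ℂ) => hNormSq H α qv.1 qv.2 := by
  unfold hNormSq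
  refine Complex.continuous_re.comp ?_
  refine continuous_finsetSum _ fun i _ => continuous_finsetSum _ fun j _ => ?_
  refine Continuous.mul (Continuous.mul ?_ ?_) ?_
  · exact (hH.smooth α i j).continuous.comp continuous_fst
  · exact (continuous_apply i).comp continuous_snd
  · exact Complex.continuous_conj.comp ((continuous_apply j).comp continuous_snd)

theorem continuous_hNormSq_line {g : Transition r} {H : MetricData r} (hH : IsHermitianMetric g H)
    (α : Chart) (b ξ : Fin 2 → ℂ) :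
    Continuous fun zw : ℂ × (Fin r → ℂ) => hNormSq H α (b + zw.1 • ξ) zw.2 := by
  have h0 : Continuous (fun z : ℂ => b + z • ξ) := by fun_prop
  have h1 : Continuous (fun zw : ℂ × (Fin r → ℂ) => ((b + zw.1 • ξ, zw.2) :
      (Fin 2 → ℂ) × (Fin r → ℂ))) :=
    (h0.comp continuous_fst).prodMk continuous_snd
  have h2 := Continuous.comp (g := fun qv : (Fin 2 → ℂ) × (Fin r → ℂ) => hNormSq H α qv.1 qv.2)
    (continuous_hNormSq hH α) h1
  exact h2

theorem contDiffAt_hNormSq {g : Transition r} {H : MetricData r} (hH : IsHermitianMetric g H)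
    (α : Chart) {c : ℝ → (Fin 2 → ℂ)} {S : ℝ → (Fin r → ℂ)} {t₀ : ℝ}
    (hc : ContDiffAt ℝ 2 c t₀) (hS : ContDiffAt ℝ 2 S t₀) :
    ContDiffAt ℝ 2 (fun t => hNormSq H α (c t) (S t)) t₀ := by
  unfold hNormSq
  have hre : ContDiff ℝ 2 (fun z : ℂ => z.re) := Complex.reCLM.contDiff
  refine hre.contDiffAt.comp t₀ ?_
  refine ContDiffAt.sum fun i _ => ContDiffAt.sum fun j _ => ?_
  have h1 : ContDiffAt ℝ 2 (fun t => H α (c t) i j) t₀ := by
    have h2 : ContDiff ℝ 2 (fun p => H α p i j) := (hH.smooth α i j).of_le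
      (WithTop.coe_le_coe.mpr (le_top : (2 : ℕ∞) ≤ ⊤))
    exact h2.contDiffAt.comp t₀ hc
  have h3 : ∀ k, ContDiffAt ℝ 2 (fun t => S t k) t₀ := fun k => (contDiffAt_pi.mp hS) k
  have h4 : ContDiffAt ℝ 2 (fun t => conj (S t j)) t₀ := by
    have h5 : ContDiff ℝ 2 (fun z : ℂ => conj z) := Complex.conjCLE.contDiff
    exact h5.contDiffAt.comp t₀ (h3 j)
  exact (h1.mul (h3 i)).mul h4

end norm

/-- harmonicity of the real part, in the form needed: the two second derivatives cancel. -/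
theorem deriv_deriv_re_line {f : ℂ → ℂ} {z₀ : ℂ} (hf : AnalyticAt ℂ f z₀) (c ζ : ℂ) (k : ℝ) :
    ContDiffAt ℝ 2 (fun t : ℝ => 2 * (conj c * f (z₀ + (t : ℂ) * ζ)).re - k) 0 ∧
    deriv (deriv (fun t : ℝ => 2 * (conj c * f (z₀ + (t : ℂ) * ζ)).re - k)) 0 =
      2 * (conj c * (ζ ^ 2 * deriv (deriv f) z₀)).re := by
  -- the line
  have hline : ∀ t : ℝ, HasDerivAt (fun t : ℝ => z₀ + (t : ℂ) * ζ) ζ t := by
    intro t
    have h1 : HasDerivAt (fun t : ℝ => (t : ℂ)) 1 t := Complex.ofRealCLM.hasDerivAt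
    have h2 := (h1.mul_const ζ).const_add z₀
    simpa using h2
  have hlc : Continuous (fun t : ℝ => z₀ + (t : ℂ) * ζ) := by fun_prop
  have h0 : z₀ + ((0 : ℝ) : ℂ) * ζ = z₀ := by simp
  -- differentiability near z₀
  have hev : ∀ᶠ z in 𝓝 z₀, AnalyticAt ℂ f z := hf.eventually_analyticAt
  have hevt : ∀ᶠ t : ℝ in 𝓝 0, AnalyticAt ℂ f (z₀ + (t : ℂ) * ζ) := by
    have : Tendsto (fun t : ℝ => z₀ + (t : ℂ) * ζ) (𝓝 0) (𝓝 z₀) := by
      have := hlc.tendsto 0
      rwa [h0] at this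
    exact this.eventually hev
  have hre : ∀ (F : ℝ → ℂ) (F' : ℂ) (t : ℝ), HasDerivAt F F' t →
      HasDerivAt (fun t => 2 * (conj c * F t).re - k) (2 * (conj c * F').re) t := by
    intro F F' t hF
    have h1 : HasDerivAt (fun t => conj c * F t) (conj c * F') t := hF.const_mul _
    have h2 : HasDerivAt (fun t => (conj c * F t).re) (conj c * F').re t :=
      (Complex.reCLM.hasFDerivAt.comp_hasDerivAt t h1)
    exact (h2.const_mul 2).sub_const k
  have hd1 : ∀ᶠ t : ℝ in 𝓝 0, HasDerivAt (fun t : ℝ => 2 * (conj c * f (z₀ + (t : ℂ) * ζ)).re - k)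
      (2 * (conj c * (deriv f (z₀ + (t : ℂ) * ζ) * ζ)).re) t := by
    filter_upwards [hevt] with t ht
    refine hre _ _ t ?_
    have h3 := ht.differentiableAt.hasDerivAt
    exact h3.scomp_of_eq t (hline t) rfl |>.congr_deriv (by rw [smul_eq_mul, mul_comm])
  have hderiv : deriv (fun t : ℝ => 2 * (conj c * f (z₀ + (t : ℂ) * ζ)).re - k) =ᶠ[𝓝 0]
      fun t : ℝ => 2 * (conj c * (deriv f (z₀ + (t : ℂ) * ζ) * ζ)).re := by
    filter_upwards [hd1] with t ht
    exact ht.deriv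
  constructor
  · have h4 : ContDiffAt ℂ 2 f z₀ := hf.contDiffAt
    have h5 : ContDiffAt ℝ 2 f z₀ := h4.restrict_scalars ℝ
    have h6 : ContDiffAt ℝ 2 (fun t : ℝ => z₀ + (t : ℂ) * ζ) 0 := by
      have : ContDiff ℝ 2 (fun t : ℝ => (t : ℂ)) := Complex.ofRealCLM.contDiff
      exact (contDiff_const.add (this.mul contDiff_const)).contDiffAt
    have h7 : ContDiffAt ℝ 2 (fun t : ℝ => f (z₀ + (t : ℂ) * ζ)) 0 := by
      have h8 : ContDiffAt ℝ 2 f (z₀ + ((0 : ℝ) : ℂ) * ζ) := by rw [h0]; exact h5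
      exact h8.comp 0 h6
    have h9 : ContDiff ℝ 2 (fun z : ℂ => z.re) := Complex.reCLM.contDiff
    have h10 : ContDiffAt ℝ 2 (fun t : ℝ => (conj c * f (z₀ + (t : ℂ) * ζ)).re) 0 :=
      h9.contDiffAt.comp 0 (contDiffAt_const.mul h7)
    exact (contDiffAt_const.mul h10).sub contDiffAt_const
  · rw [hderiv.deriv_eq]
    have h3 : HasDerivAt (deriv f) (deriv (deriv f) z₀) (z₀ + ((0 : ℝ) : ℂ) * ζ) := by
      rw [h0]
      exact hf.deriv.differentiableAt.hasDerivAt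
    have h4 : HasDerivAt (fun t : ℝ => deriv f (z₀ + (t : ℂ) * ζ)) (deriv (deriv f) z₀ * ζ) 0 :=
      h3.scomp_of_eq 0 (hline 0) rfl |>.congr_deriv (by rw [smul_eq_mul, mul_comm])
    have h5 := hre (fun t : ℝ => deriv f (z₀ + (t : ℂ) * ζ) * ζ) (deriv (deriv f) z₀ * ζ * ζ) 0
      (h4.mul_const ζ)
    have h6 : (fun t : ℝ => 2 * (conj c * (deriv f (z₀ + (t : ℂ) * ζ) * ζ)).re) =
        fun t : ℝ => (2 * (conj c * (deriv f (z₀ + (t : ℂ) * ζ) * ζ)).re - k) + k := by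
      funext t; ring
    rw [h6]
    have h7 := (h5.add_const k).deriv
    rw [h7]
    ring_nf

/-- The local obstruction: a touching configuration contradicts Griffiths positivity. -/
theorem no_touch {r : ℕ} {g : Transition r} {H : MetricData r} (hH : IsHermitianMetric g H)
    (hG : IsGriffithsPositive H) (α : Chart) (b ξ : Fin 2 → ℂ) (hξ : ξ ≠ 0)
    (τ : ℂ → Fin r → ℂ) (z₀ : ℂ) (hτ : ∀ i, AnalyticAt ℂ (fun z => τ z i) z₀)
    (w₀ : Fin r → ℂ) (hw₀ : w₀ ≠ 0) (M : ℝ) (hM : 0 < M)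
    (hle : ∀ᶠ z in 𝓝 z₀, ∀ w : Fin r → ℂ,
      ‖∑ i, τ z i * w i‖ ^ 2 ≤ M * hNormSq H α (b + z • ξ) w)
    (heq : ‖∑ i, τ z₀ i * w₀ i‖ ^ 2 = M * hNormSq H α (b + z₀ • ξ) w₀) : False := by
  obtain ⟨U, s, hU, hpU, hs, hsp, hlevi⟩ := hG α (b + z₀ • ξ) ξ w₀ hξ hw₀
  -- the section along the line
  have hLc : Continuous (fun z : ℂ => b + z • ξ) := by fun_prop
  have hLd : Differentiable ℂ (fun z : ℂ => b + z • ξ) := by fun_prop
  set S : ℂ → Fin r → ℂ := fun z => s (b + z • ξ) with hS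
  have hSan : ∀ i, AnalyticAt ℂ (fun z => S z i) z₀ := by
    intro i
    have h1 : DifferentiableOn ℂ (fun z => S z i) ((fun z : ℂ => b + z • ξ) ⁻¹' U) := by
      intro z hz
      have h2 : DifferentiableAt ℂ s (b + z • ξ) := (hs _ hz).differentiableAt (hU.mem_nhds hz)
      have h3 : DifferentiableAt ℂ S z := h2.comp z (hLd z)
      exact ((differentiableAt_pi.mp h3) i).differentiableWithinAt
    exact h1.analyticAt ((hU.preimage hLc).mem_nhds hpU)
  set f : ℂ → ℂ := fun z => ∑ i, τ z i * S z i with hf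
  have hfan : AnalyticAt ℂ f z₀ := by
    have : AnalyticAt ℂ (fun z => ∑ i, τ z i * S z i) z₀ :=
      Finset.analyticAt_fun_sum _ fun i _ => (hτ i).mul (hSan i)
    exact this
  set c : ℂ := f z₀ with hc
  have hcval : c = ∑ i, τ z₀ i * w₀ i := by
    rw [hc, hf]
    simp only [hS, hsp]
  -- comparison functions along the two real lines
  have hcmp : ∀ ζ : ℂ, (deriv (deriv (fun t : ℝ =>
      2 * (conj c * f (z₀ + (t : ℂ) * ζ)).re - ‖c‖ ^ 2)) 0) ≤
      M * secondDerivAlong (fun q => hNormSq H α q (s q)) (b + z₀ • ξ) (ζ • ξ) := by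
    intro ζ
    have hline : ∀ t : ℝ, b + (z₀ + (t : ℂ) * ζ) • ξ = b + z₀ • ξ + (t : ℂ) • (ζ • ξ) := by
      intro t
      rw [add_smul, mul_smul, add_assoc]
    have hlc : Continuous (fun t : ℝ => z₀ + (t : ℂ) * ζ) := by fun_prop
    have h0 : z₀ + ((0 : ℝ) : ℂ) * ζ = z₀ := by simp
    have ht0 : Tendsto (fun t : ℝ => z₀ + (t : ℂ) * ζ) (𝓝 0) (𝓝 z₀) := by
      have := hlc.tendsto 0
      rwa [h0] at this
    -- smoothness of the norm of the section
    have hAt : ContDiffAt ℝ 2 (fun t : ℝ => hNormSq H α (b + z₀ • ξ + (t : ℂ) • (ζ • ξ))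
        (s (b + z₀ • ξ + (t : ℂ) • (ζ • ξ)))) 0 := by
      refine contDiffAt_hNormSq hH α ?_ ?_
      · have h1 : ContDiff ℝ 2 (fun t : ℝ => (t : ℂ)) := Complex.ofRealCLM.contDiff
        exact (contDiff_const.add (h1.smul contDiff_const)).contDiffAt
      · have h2 : ∀ i, ContDiffAt ℝ 2 (fun z : ℂ => S z i) z₀ := fun i =>
          ((hSan i).contDiffAt (n := 2)).restrict_scalars ℝ
        have h3 : ContDiffAt ℝ 2 (fun t : ℝ => z₀ + (t : ℂ) * ζ) 0 := by
          have : ContDiff ℝ 2 (fun t : ℝ => (t : ℂ)) := Complex.ofRealCLM.contDiff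
          exact (contDiff_const.add (this.mul contDiff_const)).contDiffAt
        have h4 : ContDiffAt ℝ 2 (fun t : ℝ => S (z₀ + (t : ℂ) * ζ)) 0 := by
          rw [contDiffAt_pi]
          intro i
          have h5 : ContDiffAt ℝ 2 (fun z : ℂ => S z i) (z₀ + ((0 : ℝ) : ℂ) * ζ) := by
            rw [h0]; exact h2 i
          exact h5.comp 0 h3
        have h6 : (fun t : ℝ => S (z₀ + (t : ℂ) * ζ)) =
            fun t : ℝ => s (b + z₀ • ξ + (t : ℂ) • (ζ • ξ)) := by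
          funext t
          simp only [hS]
          rw [hline t]
        rwa [h6] at h4
    have hMA : ContDiffAt ℝ 2 (fun t : ℝ => M * hNormSq H α (b + z₀ • ξ + (t : ℂ) • (ζ • ξ))
        (s (b + z₀ • ξ + (t : ℂ) • (ζ • ξ)))) 0 := contDiffAt_const.mul hAt
    have hu := (deriv_deriv_re_line hfan c ζ (‖c‖ ^ 2)).1
    have hle' : ∀ᶠ t : ℝ in 𝓝 0, 2 * (conj c * f (z₀ + (t : ℂ) * ζ)).re - ‖c‖ ^ 2 ≤
        M * hNormSq H α (b + z₀ • ξ + (t : ℂ) • (ζ • ξ))
          (s (b + z₀ • ξ + (t : ℂ) • (ζ • ξ))) := by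
      filter_upwards [ht0.eventually hle] with t ht
      have h7 := ht (S (z₀ + (t : ℂ) * ζ))
      have h8 : 2 * (conj c * f (z₀ + (t : ℂ) * ζ)).re - ‖c‖ ^ 2 ≤
          ‖f (z₀ + (t : ℂ) * ζ)‖ ^ 2 := by
        have h9 := Complex.re_le_norm (conj c * f (z₀ + (t : ℂ) * ζ))
        rw [norm_mul, Complex.norm_conj] at h9
        nlinarith [sq_nonneg (‖c‖ - ‖f (z₀ + (t : ℂ) * ζ)‖)]
      refine h8.trans ?_
      rw [hline t] at h7
      simp only [hS, hline t] at h7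
      simp only [hf, hS, hline t]
      exact h7
    have heq' : 2 * (conj c * f (z₀ + ((0 : ℝ) : ℂ) * ζ)).re - ‖c‖ ^ 2 =
        M * hNormSq H α (b + z₀ • ξ + ((0 : ℝ) : ℂ) • (ζ • ξ))
          (s (b + z₀ • ξ + ((0 : ℝ) : ℂ) • (ζ • ξ))) := by
      rw [h0]
      have h10 : b + z₀ • ξ + ((0 : ℝ) : ℂ) • (ζ • ξ) = b + z₀ • ξ := by simp
      rw [h10, hsp, ← heq, ← hcval, ← hc]
      have h11 : (conj c * c).re = ‖c‖ ^ 2 := by
        rw [mul_comm, Complex.mul_conj, Complex.normSq_eq_norm_sq, Complex.ofReal_re]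
      rw [h11]; ring
    have h12 := deriv_deriv_le_of_touch hMA hu hle' heq'
    have h13 : deriv (deriv (fun t : ℝ => M * hNormSq H α (b + z₀ • ξ + (t : ℂ) • (ζ • ξ))
        (s (b + z₀ • ξ + (t : ℂ) • (ζ • ξ))))) 0 =
        M * secondDerivAlong (fun q => hNormSq H α q (s q)) (b + z₀ • ξ) (ζ • ξ) := by
      unfold secondDerivAlong
      have h14 : deriv (fun t : ℝ => M * hNormSq H α (b + z₀ • ξ + (t : ℂ) • (ζ • ξ))
        (s (b + z₀ • ξ + (t : ℂ) • (ζ • ξ)))) = fun t => M * deriv (fun t : ℝ =>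
        hNormSq H α (b + z₀ • ξ + (t : ℂ) • (ζ • ξ))
        (s (b + z₀ • ξ + (t : ℂ) • (ζ • ξ)))) t := by
        funext t
        exact deriv_const_mul_field M
      rw [h14]
      exact deriv_const_mul_field M
    rw [h13] at h12
    exact h12
  have h1 := hcmp 1
  have h2 := hcmp Complex.I
  rw [(deriv_deriv_re_line hfan c 1 (‖c‖ ^ 2)).2] at h1
  rw [(deriv_deriv_re_line hfan c Complex.I (‖c‖ ^ 2)).2] at h2
  rw [one_smul] at h1
  have h3 : (conj c * (1 ^ 2 * deriv (deriv f) z₀)).re +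
      (conj c * (Complex.I ^ 2 * deriv (deriv f) z₀)).re = 0 := by
    rw [Complex.I_sq, one_pow, one_mul, neg_one_mul, mul_neg, Complex.neg_re]
    ring
  have h4 : leviAlong (fun q => hNormSq H α q (s q)) (b + z₀ • ξ) ξ =
      secondDerivAlong (fun q => hNormSq H α q (s q)) (b + z₀ • ξ) ξ +
      secondDerivAlong (fun q => hNormSq H α q (s q)) (b + z₀ • ξ) (Complex.I • ξ) := rfl
  rw [h4] at hlevi
  nlinarith

/-- **Maximum principle** for `‖σ·w‖² ω / h(w)` on a compact subset of a complex line. -/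
theorem max_principle {r : ℕ} {g : Transition r} {H : MetricData r} (hH : IsHermitianMetric g H)
    (hG : IsGriffithsPositive H) (α : Chart) (b ξ : Fin 2 → ℂ) (hξ : ξ ≠ 0) (K : Set ℂ)
    (hK : IsCompact K) (σ : ℂ → Fin r → ℂ) (hσ : Differentiable ℂ σ) (ω : ℂ → ℝ)
    (hω : ContinuousOn ω K) (hω0 : ∀ z ∈ K, 0 ≤ ω z)
    (hloc : ∀ z₀ ∈ interior K, ∃ ψ : ℂ → ℂ, AnalyticAt ℂ ψ z₀ ∧ ∀ᶠ z in 𝓝 z₀, ω z = ‖ψ z‖ ^ 2)
    (M : ℝ) (hM : 0 ≤ M)
    (hbd : ∀ z ∈ K, z ∉ interior K → ∀ w : Fin r → ℂ,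
      ‖∑ i, σ z i * w i‖ ^ 2 * ω z ≤ M * hNormSq H α (b + z • ξ) w) :
    ∀ z ∈ K, ∀ w : Fin r → ℂ,
      ‖∑ i, σ z i * w i‖ ^ 2 * ω z ≤ M * hNormSq H α (b + z • ξ) w := by
  intro z₁ hz₁ w₁
  by_contra hcon
  push Not at hcon
  have hw₁ : w₁ ≠ 0 := by
    rintro rfl
    rw [hNormSq_zero] at hcon
    simp at hcon
  -- the quotient
  set Φ : ℂ × (Fin r → ℂ) → ℝ := fun zw =>
    ‖∑ i, σ zw.1 i * zw.2 i‖ ^ 2 * ω zw.1 / hNormSq H α (b + zw.1 • ξ) zw.2 with hΦ
  set Sph : Set (Fin r → ℂ) := Metric.sphere 0 1 with hSph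
  have hSphc : IsCompact Sph := isCompact_sphere 0 1
  have hSph0 : ∀ w ∈ Sph, w ≠ 0 := by
    intro w hw h
    rw [hSph, mem_sphere_zero_iff_norm, h, norm_zero] at hw
    exact zero_ne_one hw
  have hpos : ∀ z : ℂ, ∀ w ∈ Sph, 0 < hNormSq H α (b + z • ξ) w := fun z w hw =>
    hNormSq_pos (hH.posDef α _) (hSph0 w hw)
  have hLc : Continuous (fun z : ℂ => b + z • ξ) := by fun_prop
  have hcontΦ : ContinuousOn Φ (K ×ˢ Sph) := by
    refine ContinuousOn.div ?_ ?_ ?_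
    · refine ContinuousOn.mul ?_ ?_
      · refine Continuous.continuousOn ?_
        refine (continuous_norm.comp ?_).pow 2
        refine continuous_finsetSum _ fun i _ => Continuous.mul ?_ ?_
        · exact (continuous_apply i).comp (hσ.continuous.comp continuous_fst)
        · exact (continuous_apply i).comp continuous_snd
      · exact hω.comp continuous_fst.continuousOn fun zw h => h.1
    · exact (continuous_hNormSq_line hH α b ξ).continuousOn
    · rintro ⟨z, w⟩ ⟨_, hw⟩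
      exact (hpos z w hw).ne'
  -- homogeneity
  have hhom : ∀ (M' : ℝ) (z : ℂ), (∀ w ∈ Sph, ‖∑ i, σ z i * w i‖ ^ 2 * ω z ≤
      M' * hNormSq H α (b + z • ξ) w) → ∀ w : Fin r → ℂ,
      ‖∑ i, σ z i * w i‖ ^ 2 * ω z ≤ M' * hNormSq H α (b + z • ξ) w := by
    intro M' z h w
    by_cases hw : w = 0
    · rw [hw, hNormSq_zero]; simp
    · have hn : 0 < ‖w‖ := norm_pos_iff.mpr hw
      set u : Fin r → ℂ := ((‖w‖ : ℂ)⁻¹) • w with hu
      have huS : u ∈ Sph := by
        rw [hSph, mem_sphere_zero_iff_norm, hu, norm_smul, norm_inv, Complex.norm_real,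
          Real.norm_eq_abs, abs_of_pos hn, inv_mul_cancel₀ hn.ne']
      have hwu : w = (‖w‖ : ℂ) • u := by
        rw [hu, smul_smul, mul_inv_cancel₀, one_smul]
        exact_mod_cast hn.ne'
      have h1 := h u huS
      have h2 : ∑ i, σ z i * w i = (‖w‖ : ℂ) * ∑ i, σ z i * u i := by
        rw [Finset.mul_sum]
        refine Finset.sum_congr rfl fun i _ => ?_
        conv_lhs => rw [hwu]
        simp only [Pi.smul_apply, smul_eq_mul]
        ring
      have h3 : hNormSq H α (b + z • ξ) w = ‖w‖ ^ 2 * hNormSq H α (b + z • ξ) u := by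
        conv_lhs => rw [hwu]
        rw [hNormSq_smul, Complex.norm_real, Real.norm_eq_abs, abs_of_pos hn]
      rw [h2, h3, norm_mul, Complex.norm_real, Real.norm_eq_abs, abs_of_pos hn, mul_pow]
      calc ‖w‖ ^ 2 * ‖∑ i, σ z i * u i‖ ^ 2 * ω z =
          ‖w‖ ^ 2 * (‖∑ i, σ z i * u i‖ ^ 2 * ω z) := by ring
        _ ≤ ‖w‖ ^ 2 * (M' * hNormSq H α (b + z • ξ) u) :=
          mul_le_mul_of_nonneg_left h1 (sq_nonneg _)
        _ = _ := by ring
  -- a violating point of the compact set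
  obtain ⟨u₁, hu₁S, hu₁⟩ : ∃ u ∈ Sph, M * hNormSq H α (b + z₁ • ξ) u <
      ‖∑ i, σ z₁ i * u i‖ ^ 2 * ω z₁ := by
    by_contra hno
    push Not at hno
    exact absurd (hhom M z₁ hno w₁) (not_le.mpr hcon)
  obtain ⟨⟨z₀, w₀⟩, ⟨hz₀, hw₀S⟩, hmax⟩ := (hK.prod hSphc).exists_isMaxOn
    ⟨(z₁, u₁), hz₁, hu₁S⟩ hcontΦ
  set M' : ℝ := Φ (z₀, w₀) with hM'
  have hMM' : M < M' := by
    have h1 : Φ (z₁, u₁) ≤ M' := hmax ⟨hz₁, hu₁S⟩
    have h2 : M < Φ (z₁, u₁) := by
      rw [hΦ]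
      simp only
      rw [lt_div_iff₀ (hpos z₁ u₁ hu₁S)]
      exact hu₁
    linarith
  have hz₀int : z₀ ∈ interior K := by
    by_contra hnot
    have h1 := hbd z₀ hz₀ hnot w₀
    have h2 : M' ≤ M := by
      rw [hM', hΦ]
      simp only
      rw [div_le_iff₀ (hpos z₀ w₀ hw₀S)]
      exact h1
    linarith
  have hM'pos : 0 < M' := lt_of_le_of_lt hM hMM'
  have hglob : ∀ z ∈ K, ∀ w : Fin r → ℂ,
      ‖∑ i, σ z i * w i‖ ^ 2 * ω z ≤ M' * hNormSq H α (b + z • ξ) w := by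
    intro z hz
    refine hhom M' z fun w hw => ?_
    have h1 : Φ (z, w) ≤ M' := hmax ⟨hz, hw⟩
    rw [hΦ] at h1
    simp only at h1
    rwa [div_le_iff₀ (hpos z w hw)] at h1
  obtain ⟨ψ, hψ, hωψ⟩ := hloc z₀ hz₀int
  refine no_touch hH hG α b ξ hξ (fun z i => ψ z * σ z i) z₀ ?_ w₀ (hSph0 w₀ hw₀S) M' hM'pos
    ?_ ?_
  · intro i
    refine hψ.mul ?_
    have h1 : Differentiable ℂ (fun z => σ z i) := differentiable_pi.mp hσ i
    exact h1.analyticAt z₀
  · filter_upwards [hωψ, isOpen_interior.mem_nhds hz₀int] with z hz hzK w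
    have h1 := hglob z (interior_subset hzK) w
    have h2 : ∑ i, ψ z * σ z i * w i = ψ z * ∑ i, σ z i * w i := by
      rw [Finset.mul_sum]
      exact Finset.sum_congr rfl fun i _ => by ring
    rw [h2, norm_mul, mul_pow, mul_comm, ← hz]
    exact h1
  · have h2 : ∑ i, ψ z₀ * σ z₀ i * w₀ i = ψ z₀ * ∑ i, σ z₀ i * w₀ i := by
      rw [Finset.mul_sum]
      exact Finset.sum_congr rfl fun i _ => by ring
    rw [h2, norm_mul, mul_pow, mul_comm, ← hωψ.self_of_nhds, hM', hΦ]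
    simp only
    rw [div_mul_cancel₀ _ (hpos z₀ w₀ hw₀S).ne']

end Crest.Agent.R258
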