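import Crest.Agent.R258.Growth
import Crest.Agent.R258.Pullback
import Crest.Agent.R258.MaxPrinciple

/-!
Row 258 (S0396): dual norms of the functionals `s₁ = (0,1)`, `s₂ = (f, v)`, `e = (1, 0)` on
`ψ_N^* E (1,1)` as functions on the chart `(0,0)`: maximum principle in each variable, growth.
-/

set_option autoImplicit false

noncomputable section

open Crest Crest.AlgGeometry Crest.AlgGeometry.QuadricBundle
open Set Filter Topology
open scoped ComplexConjugate ComplexOrder

namespace Crest.Agent.R258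

/-- Continuity of the dual norm square. -/
theorem continuous_dualNormSq {T : Type*} [TopologicalSpace T]
    {A : T → Matrix (Fin 2) (Fin 2) ℂ} {f : T → Fin 2 → ℂ}
    (hA : ∀ i j, Continuous fun t => A t i j) (hf : ∀ i, Continuous fun t => f t i)
    (hpos : ∀ t, (A t).PosDef) : Continuous fun t => dualNormSq (A t) (f t) := by
  have hconj : ∀ {k : T → ℂ}, Continuous k → Continuous fun t => (starRingEnd ℂ) (k t) :=
    fun hk => Complex.continuous_conj.comp hk
  have hre : ∀ {k : T → ℂ}, Continuous k → Continuous fun t => (k t).re :=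
    fun hk => Complex.continuous_re.comp hk
  have hn : ∀ {k : T → ℂ}, Continuous k → Continuous fun t => Complex.normSq (k t) :=
    fun hk => Complex.continuous_normSq.comp hk
  unfold dualNormSq
  refine Continuous.div ?_ ?_ ?_
  · unfold mForm
    exact (((hre (hA 1 1)).mul (hn (hf 0))).sub
      (continuous_const.mul (hre (((hA 0 1).mul (hf 1)).mul (hconj (hf 0)))))).add
        ((hre (hA 0 0)).mul (hn (hf 1)))
  · unfold rdet
    exact ((hre (hA 0 0)).mul (hre (hA 1 1))).sub (hn (hA 0 1))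
  · intro q
    exact (posDef_facts (hpos q)).2.2.2.2.2.ne'

theorem continuous_dualNormSq_metric {g : Transition 2} {H : MetricData 2}
    (hH : IsHermitianMetric g H) (α : Chart) {T : Type*} [TopologicalSpace T]
    {l : T → Fin 2 → ℂ} (hl : Continuous l) {f : T → Fin 2 → ℂ} (hf : Continuous f) :
    Continuous fun t => dualNormSq (H α (l t)) (f t) :=
  continuous_dualNormSq (fun i j => (hH.smooth α i j).continuous.comp hl)
    (fun i => (continuous_apply i).comp hf) (fun t => hH.posDef α _)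

/-- Dual norms of holomorphic functionals along complex lines satisfy the maximum principle. -/
theorem mpfun_line {g : Transition 2} {H : MetricData 2} (hH : IsHermitianMetric g H)
    (hG : IsGriffithsPositive H) (α : Chart) (b ξ : Fin 2 → ℂ) (hξ : ξ ≠ 0)
    {σ : (Fin 2 → ℂ) → Fin 2 → ℂ} (hσ : Differentiable ℂ σ) :
    MPfun (fun z => dualNormSq (H α (b + z • ξ)) (σ (b + z • ξ))) := by
  have hlin : Differentiable ℂ (fun z : ℂ => b + z • ξ) := by fun_prop
  refine ⟨fun z => dualNormSq_nonneg (hH.posDef α _) _, ?_, ?_⟩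
  · exact continuous_dualNormSq_metric hH α hlin.continuous (hσ.continuous.comp hlin.continuous)
  · intro K hK ω hω hω0 hloc M hM hbd z hz
    have key := max_principle hH hG α b ξ hξ K hK (fun z => σ (b + z • ξ)) (hσ.comp hlin) ω hω hω0
      hloc M hM ?_ z hz
    · rcases (hω0 z hz).eq_or_lt with h0 | h0
      · rw [← h0, mul_zero]; exact hM
      · rw [← le_div_iff₀ h0]
        refine dualNormSq_le_of_forall (hH.posDef α _) (fun w => ?_) (by positivity)
        have h4 := key w
        rw [hNormSq_eq_nForm (hH.posDef α _), Fin.sum_univ_two, ← Complex.normSq_eq_norm_sq] at h4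
        rw [div_mul_eq_mul_div, le_div_iff₀ h0]
        exact h4
    · intro w hw hwi x
      rw [hNormSq_eq_nForm (hH.posDef α _), Fin.sum_univ_two, ← Complex.normSq_eq_norm_sq]
      have h5 := normSq_apply_le (hH.posDef α (b + w • ξ)) (σ (b + w • ξ)) x
      have h6 := hbd w hw hwi
      have h7 := nForm_nonneg (hH.posDef α (b + w • ξ)) x
      calc _ ≤ dualNormSq (H α (b + w • ξ)) (σ (b + w • ξ)) * nForm (H α (b + w • ξ)) x * ω w :=
            mul_le_mul_of_nonneg_right h5 (hω0 w hw)
        _ = (dualNormSq (H α (b + w • ξ)) (σ (b + w • ξ)) * ω w) * nForm (H α (b + w • ξ)) x := by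
            ring
        _ ≤ _ := mul_le_mul_of_nonneg_right h6 h7


/-! ### Chart change and growth -/

/-- Transformation of dual norms of a twisted family of functionals. -/
theorem dualNormSq_chart {g : Transition 2} {H : MetricData 2} (hg : IsHoloCocycle g)
    (hH : IsHermitianMetric g H) {a b : ℤ} {σ : Chart → (Fin 2 → ℂ) → Fin 2 → ℂ}
    (hσ : ∀ α β, ∀ p ∈ overlap α β,
      (g α β p).transpose.mulVec (σ α p) = lineTrans a b α β p • σ β (tau α β p))
    {α β : Chart} {p : Fin 2 → ℂ} (hp : p ∈ overlap α β) :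
    dualNormSq (H α p) (σ α p) =
      Complex.normSq (lineTrans a b α β p) * dualNormSq (H β (tau α β p)) (σ β (tau α β p)) := by
  rw [← dualNormSq_compat hg hH hp (σ α p), hσ α β p hp, dualNormSq_smul]

theorem growth_x {g : Transition 2} {H : MetricData 2} (hg : IsHoloCocycle g)
    (hH : IsHermitianMetric g H) {a : ℕ} {b : ℤ} {σ : Chart → (Fin 2 → ℂ) → Fin 2 → ℂ}
    (hσc : ∀ α, Continuous (σ α))
    (hσ : ∀ α β, ∀ p ∈ overlap α β,
      (g α β p).transpose.mulVec (σ α p) = lineTrans a b α β p • σ β (tau α β p)) (y : ℂ) :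
    ∃ C : ℝ, ∀ x : ℂ, 1 ≤ ‖x‖ →
      dualNormSq (H (0, 0) ![x, y]) (σ (0, 0) ![x, y]) ≤ C * ‖x‖ ^ (2 * a) := by
  have hl : Continuous fun z : ℂ => (![z, y] : Fin 2 → ℂ) := by fun_prop
  have hc : Continuous fun z : ℂ => dualNormSq (H (1, 0) ![z, y]) (σ (1, 0) ![z, y]) :=
    continuous_dualNormSq_metric hH (1, 0) hl ((hσc (1, 0)).comp hl)
  obtain ⟨C, hC⟩ := (isCompact_closedBall (0 : ℂ) 1).bddAbove_image hc.continuousOn
  refine ⟨C, fun x hx => ?_⟩
  have hx0 : x ≠ 0 := by
    rintro rfl; simp at hx; linarith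
  have hp : (![x, y] : Fin 2 → ℂ) ∈ overlap ((0, 0) : Chart) ((1, 0) : Chart) := by
    simp [overlap, hx0]
  have htau : tau ((0, 0) : Chart) ((1, 0) : Chart) ![x, y] = ![x⁻¹, y] := by
    simp [tau]
  have hline : lineTrans (a : ℤ) b ((0, 0) : Chart) ((1, 0) : Chart) ![x, y] = x ^ a := by
    simp [lineTrans]
  rw [dualNormSq_chart hg hH hσ hp, htau, hline, Complex.normSq_eq_norm_sq, norm_pow, ← pow_mul,
    mul_comm a 2, mul_comm C]
  refine mul_le_mul_of_nonneg_left ?_ (by positivity)
  apply hC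
  refine ⟨x⁻¹, ?_, rfl⟩
  simp only [Metric.mem_closedBall, dist_zero_right, norm_inv]
  exact inv_le_one_of_one_le₀ hx

theorem growth_y {g : Transition 2} {H : MetricData 2} (hg : IsHoloCocycle g)
    (hH : IsHermitianMetric g H) {a : ℤ} {b : ℕ} {σ : Chart → (Fin 2 → ℂ) → Fin 2 → ℂ}
    (hσc : ∀ α, Continuous (σ α))
    (hσ : ∀ α β, ∀ p ∈ overlap α β,
      (g α β p).transpose.mulVec (σ α p) = lineTrans a b α β p • σ β (tau α β p)) (x : ℂ) :
    ∃ C : ℝ, ∀ y : ℂ, 1 ≤ ‖y‖ →
      dualNormSq (H (0, 0) ![x, y]) (σ (0, 0) ![x, y]) ≤ C * ‖y‖ ^ (2 * b) := by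
  have hl : Continuous fun z : ℂ => (![x, z] : Fin 2 → ℂ) := by fun_prop
  have hc : Continuous fun z : ℂ => dualNormSq (H (0, 1) ![x, z]) (σ (0, 1) ![x, z]) :=
    continuous_dualNormSq_metric hH (0, 1) hl ((hσc (0, 1)).comp hl)
  obtain ⟨C, hC⟩ := (isCompact_closedBall (0 : ℂ) 1).bddAbove_image hc.continuousOn
  refine ⟨C, fun y hy => ?_⟩
  have hy0 : y ≠ 0 := by
    rintro rfl; simp at hy; linarith
  have hp : (![x, y] : Fin 2 → ℂ) ∈ overlap ((0, 0) : Chart) ((0, 1) : Chart) := by
    simp [overlap, hy0]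
  have htau : tau ((0, 0) : Chart) ((0, 1) : Chart) ![x, y] = ![x, y⁻¹] := by
    simp [tau]
  have hline : lineTrans a (b : ℤ) ((0, 0) : Chart) ((0, 1) : Chart) ![x, y] = y ^ b := by
    simp [lineTrans]
  rw [dualNormSq_chart hg hH hσ hp, htau, hline, Complex.normSq_eq_norm_sq, norm_pow, ← pow_mul,
    mul_comm b 2, mul_comm C]
  refine mul_le_mul_of_nonneg_left ?_ (by positivity)
  apply hC
  refine ⟨y⁻¹, ?_, rfl⟩
  simp only [Metric.mem_closedBall, dist_zero_right, norm_inv]
  exact inv_le_one_of_one_le₀ hy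

/-- A family of functionals on `E` transforming by `lineTrans a b` gives one on
`ψ_N^* E (1,1)` transforming by `lineTrans (N a + 1) (N b + 1)`. -/
theorem pullTwist_functional {g : Transition 2} {a b : ℤ} {σ : Chart → (Fin 2 → ℂ) → Fin 2 → ℂ}
    (hσ : ∀ α β, ∀ p ∈ overlap α β,
      (g α β p).transpose.mulVec (σ α p) = lineTrans a b α β p • σ β (tau α β p)) (N : ℕ) :
    ∀ α β, ∀ p ∈ overlap α β,
      (pullTwist N g α β p).transpose.mulVec (σ α (powMap N p)) =
        lineTrans (N * a + 1) (N * b + 1) α β p • σ β (powMap N (tau α β p)) := by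
  intro α β p hp
  have h1 := hσ α β (powMap N p) (powMap_mem_overlap hp)
  rw [pullTwist, Matrix.transpose_smul, Matrix.smul_mulVec, h1, tau_powMap, smul_smul,
    lineTrans_powMap, mul_comm, lineTrans_mul _ _ _ _ hp]

end Crest.Agent.R258
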