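import Crest.Agent.R258.Lam

/-!
Row 258 (S0396), ampleness algebra, part 2: normal forms.

`Nf r k0 k1 A B n d` = `{∑ i ≤ n, q_i A^(n-i) B^i : q_i ∈ O(d + (n-i) k0 + i k1) over r}`, defined by
recursion on `n`; a "system" `Sys` is a sub line bundle `A` with local complements `B α` and the
quotient map `ld`; `Sys.H1`, `Sys.GG` and the induction steps `Sys.H1_succ`, `Sys.GG_succ`.
-/

set_option autoImplicit false

noncomputable section

namespace Crest.Agent.R258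

open Crest.AlgGeometry.QuadricBundle

/-- forms in two symbols over the Laurent polynomials. -/
abbrev RR : Type := MvPolynomial (Fin 2) Lam

/-- constants. -/
abbrev cst : Lam →ₗ[ℂ] RR := (Algebra.linearMap Lam RR).restrictScalars ℂ

theorem cst_apply (q : Lam) : cst q = MvPolynomial.C q := rfl

theorem cst_mul (a b : Lam) : cst (a * b) = cst a * cst b := by
  simp only [cst_apply, MvPolynomial.C_mul]

theorem cst_one : cst 1 = 1 := MvPolynomial.C_1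

/-- normal forms of degree `n`. -/
def Nf (r : Reg) (k0 k1 : ℤ × ℤ) (A B : RR) : ℕ → ℤ × ℤ → Submodule ℂ RR
  | 0, d => (OO r d).map cst
  | n + 1, d => (Nf r k0 k1 A B n (d + k0)).map (LinearMap.mulLeft ℂ A) ⊔
      (OO r (d + (n + 1) • k1)).map ((LinearMap.mulRight ℂ (B ^ (n + 1))).comp cst)

section nf
variable {r : Reg} {k0 k1 : ℤ × ℤ} {A B : RR}

theorem mem_Nf_zero {d : ℤ × ℤ} {G : RR} :
    G ∈ Nf r k0 k1 A B 0 d ↔ ∃ q ∈ OO r d, cst q = G := by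
  unfold Nf; exact Submodule.mem_map

theorem mem_Nf_succ {n : ℕ} {d : ℤ × ℤ} {G : RR} :
    G ∈ Nf r k0 k1 A B (n + 1) d ↔ ∃ G' ∈ Nf r k0 k1 A B n (d + k0),
      ∃ q ∈ OO r (d + (n + 1) • k1), G = A * G' + cst q * B ^ (n + 1) := by
  rw [Nf, Submodule.mem_sup]
  constructor
  · rintro ⟨y, ⟨G', hG', rfl⟩, z, ⟨q, hq, rfl⟩, rfl⟩
    exact ⟨G', hG', q, hq, rfl⟩
  · rintro ⟨G', hG', q, hq, rfl⟩
    exact ⟨_, ⟨G', hG', rfl⟩, _, ⟨q, hq, rfl⟩, rfl⟩

theorem Nf_cast {n : ℕ} {d d' : ℤ × ℤ} {G : RR} (h : G ∈ Nf r k0 k1 A B n d) (e : d = d') :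
    G ∈ Nf r k0 k1 A B n d' := e ▸ h

theorem OO_cast {d d' : ℤ × ℤ} {q : Lam} (h : q ∈ OO r d) (e : d = d') : q ∈ OO r d' := e ▸ h

theorem A_mul_mem {n : ℕ} {d : ℤ × ℤ} {G : RR} (h : G ∈ Nf r k0 k1 A B n (d + k0)) :
    A * G ∈ Nf r k0 k1 A B (n + 1) d :=
  mem_Nf_succ.mpr ⟨G, h, 0, Submodule.zero_mem _, by simp⟩

theorem cst_mul_B_pow_mem {n : ℕ} {d : ℤ × ℤ} {q : Lam} (h : q ∈ OO r (d + n • k1)) :
    cst q * B ^ n ∈ Nf r k0 k1 A B n d := by
  cases n with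
  | zero => exact mem_Nf_zero.mpr ⟨q, OO_cast h (by simp), by simp⟩
  | succ n => exact mem_Nf_succ.mpr ⟨0, Submodule.zero_mem _, q, h, by simp⟩

theorem cst_mem {d : ℤ × ℤ} {q : Lam} (h : q ∈ OO r d) : cst q ∈ Nf r k0 k1 A B 0 d :=
  mem_Nf_zero.mpr ⟨q, h, rfl⟩

theorem mul_aux {k : ℕ} {d : ℤ × ℤ} {q : Lam} (hq : q ∈ OO r (d + k • k1)) (m : ℕ) :
    ∀ {d' : ℤ × ℤ} {G : RR}, G ∈ Nf r k0 k1 A B m d' →
      cst q * B ^ k * G ∈ Nf r k0 k1 A B (k + m) (d + d') := by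
  induction m with
  | zero =>
    intro d' G hG
    obtain ⟨q', hq', rfl⟩ := mem_Nf_zero.mp hG
    have : cst q * B ^ k * cst q' = cst (q * q') * B ^ k := by rw [cst_mul]; ring
    rw [this]
    apply cst_mul_B_pow_mem
    exact OO_cast (mul_mem_OO hq hq') (by abel)
  | succ m ih =>
    intro d' G hG
    obtain ⟨G', hG', q', hq', rfl⟩ := mem_Nf_succ.mp hG
    have e : cst q * B ^ k * (A * G' + cst q' * B ^ (m + 1)) =
        A * (cst q * B ^ k * G') + cst (q * q') * B ^ (k + m + 1) := by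
      rw [cst_mul]; ring
    rw [e, ← add_assoc k m 1]
    refine mem_Nf_succ.mpr ⟨_, Nf_cast (ih hG') (by abel), _, OO_cast (mul_mem_OO hq hq') ?_, rfl⟩
    have : (k + m + 1) • k1 = k • k1 + (m + 1) • k1 := by rw [add_assoc, add_smul]
    rw [this]; abel

theorem mul_mem_Nf (n : ℕ) : ∀ {m : ℕ} {d d' : ℤ × ℤ} {G H : RR}, G ∈ Nf r k0 k1 A B n d →
    H ∈ Nf r k0 k1 A B m d' → G * H ∈ Nf r k0 k1 A B (n + m) (d + d') := by
  induction n with
  | zero =>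
    intro m d d' G H hG hH
    obtain ⟨q, hq, rfl⟩ := mem_Nf_zero.mp hG
    have := mul_aux (k := 0) (OO_cast hq (d' := d + 0 • k1) (by simp)) m hH
    simpa using this
  | succ n ih =>
    intro m d d' G H hG hH
    obtain ⟨G', hG', q, hq, rfl⟩ := mem_Nf_succ.mp hG
    have e : (A * G' + cst q * B ^ (n + 1)) * H = A * (G' * H) + cst q * B ^ (n + 1) * H := by ring
    rw [e]
    refine Submodule.add_mem _ ?_ (mul_aux hq m hH)
    have h1 := ih hG' hH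
    have e2 : n + 1 + m = n + m + 1 := by ring
    rw [e2]
    exact A_mul_mem (Nf_cast h1 (by abel))

theorem A_mem : A ∈ Nf r k0 k1 A B 1 (-k0) := by
  have h : (1 : RR) ∈ Nf r k0 k1 A B 0 (-k0 + k0) := by
    rw [← cst_one]
    exact cst_mem (OO_cast (one_mem_OO r) (by simp))
  have := A_mul_mem (A := A) h
  simpa using this

theorem B_mem : B ∈ Nf r k0 k1 A B 1 (-k1) := by
  have h := cst_mul_B_pow_mem (r := r) (k0 := k0) (k1 := k1) (A := A) (B := B) (n := 1) (d := -k1)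
    (q := 1) (OO_cast (one_mem_OO r) (by simp))
  simpa [cst_one] using h

theorem lin_mem {d : ℤ × ℤ} {a b : Lam} (ha : a ∈ OO r (d + k0)) (hb : b ∈ OO r (d + k1)) :
    cst a * A + cst b * B ∈ Nf r k0 k1 A B 1 d := by
  refine mem_Nf_succ.mpr ⟨cst a, cst_mem ha, b, OO_cast hb (by simp), by simp [mul_comm]⟩

theorem pow_mem_Nf {d : ℤ × ℤ} {G : RR} (h : G ∈ Nf r k0 k1 A B 1 d) (n : ℕ) :
    G ^ n ∈ Nf r k0 k1 A B n (n • d) := by
  induction n with
  | zero =>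
    have := cst_mem (k0 := k0) (k1 := k1) (A := A) (B := B) (one_mem_OO r)
    simpa [cst_one] using this
  | succ n ih =>
    rw [pow_succ, succ_nsmul]
    exact mul_mem_Nf n ih h

/-- change of frame. -/
theorem Nf_le {k0' k1' : ℤ × ℤ} {A' B' : RR} (hA : A ∈ Nf r k0' k1' A' B' 1 (-k0))
    (hB : B ∈ Nf r k0' k1' A' B' 1 (-k1)) (n : ℕ) :
    ∀ d, Nf r k0 k1 A B n d ≤ Nf r k0' k1' A' B' n d := by
  induction n with
  | zero =>
    intro d G hG
    obtain ⟨q, hq, rfl⟩ := mem_Nf_zero.mp hG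
    exact cst_mem hq
  | succ n ih =>
    intro d G hG
    obtain ⟨G', hG', q, hq, rfl⟩ := mem_Nf_succ.mp hG
    refine Submodule.add_mem _ ?_ ?_
    · have := mul_mem_Nf 1 hA (ih _ hG')
      rw [add_comm 1 n] at this
      exact Nf_cast this (by abel)
    · have := mul_mem_Nf 0 (cst_mem hq) (pow_mem_Nf hB (n + 1))
      rw [zero_add] at this
      refine Nf_cast this ?_
      rw [smul_neg]; abel

/-- change of region. -/
theorem Nf_mono {r' : Reg} (h : ∀ d, OO r d ≤ OO r' d) (n : ℕ) :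
    ∀ d, Nf r k0 k1 A B n d ≤ Nf r' k0 k1 A B n d := by
  induction n with
  | zero =>
    intro d G hG
    obtain ⟨q, hq, rfl⟩ := mem_Nf_zero.mp hG
    exact cst_mem (h _ hq)
  | succ n ih =>
    intro d G hG
    obtain ⟨G', hG', q, hq, rfl⟩ := mem_Nf_succ.mp hG
    exact mem_Nf_succ.mpr ⟨G', ih _ hG', q, h _ hq, rfl⟩

end nf

/-- a sub line bundle (dual degree `k0`) with quotient (dual degree `k1`). -/
structure Sys where
  k0 : ℤ × ℤ
  k1 : ℤ × ℤ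
  A : RR
  B : Chart → RR
  ld : RR →ₐ[Lam] Lam
  ldA : ld A = 0
  ldB : ∀ α, ld (B α) = 1
  A_ne : A ≠ 0
  reg : ∀ α β, B β ∈ Nf (rg α β) k0 k1 A (B α) 1 (-k1)

namespace Sys
variable (S : Sys)

/-- sections of `Symⁿ E (d)` over `U_α ∩ U_β`. -/
def F (α β : Chart) (n : ℕ) (d : ℤ × ℤ) : Submodule ℂ RR := Nf (rg α β) S.k0 S.k1 S.A (S.B α) n d

/-- vanishing of the Cech cohomology. -/
def H1 (n : ℕ) (d : ℤ × ℤ) : Prop :=
  ∀ c : Chart → Chart → RR, (∀ α β, c α β ∈ S.F α β n d) → (∀ α β γ, c α β + c β γ = c α γ) →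
    ∃ b : Chart → RR, (∀ α, b α ∈ S.F α α n d) ∧ ∀ α β, c α β = b α - b β

/-- global generation at a point (given by the two linear forms `l1`, `l2`) of the chart `α`. -/
def GG (n : ℕ) (d : ℤ × ℤ) (α : Chart) (l1 l2 : Lam) : Prop :=
  ∀ G ∈ S.F α α n d, ∃ Γ, (∀ β, Γ ∈ S.F β β n d) ∧ ∃ G1 ∈ S.F α α n (d - (1, 0)),
    ∃ G2 ∈ S.F α α n (d - (0, 1)), G = Γ + cst l1 * G1 + cst l2 * G2

theorem ld_cst (q : Lam) : S.ld (cst q) = q := by
  exact S.ld.commutes q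

theorem F_zero {α β : Chart} {d : ℤ × ℤ} {G : RR} :
    G ∈ S.F α β 0 d ↔ ∃ q ∈ OO (rg α β) d, cst q = G := mem_Nf_zero

theorem F_succ {α β : Chart} {n : ℕ} {d : ℤ × ℤ} {G : RR} :
    G ∈ S.F α β (n + 1) d ↔ ∃ G' ∈ S.F α β n (d + S.k0),
      ∃ q ∈ OO (rg α β) (d + (n + 1) • S.k1), G = S.A * G' + cst q * S.B α ^ (n + 1) := mem_Nf_succ

/-- leading coefficient. -/
theorem ld_mem {α β : Chart} {n : ℕ} {d : ℤ × ℤ} {G : RR} (h : G ∈ S.F α β (n + 1) d) :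
    S.ld G ∈ OO (rg α β) (d + (n + 1) • S.k1) := by
  obtain ⟨G', _, q, hq, rfl⟩ := S.F_succ.mp h
  rw [map_add, map_mul, map_mul, map_pow, S.ldA, S.ldB, S.ld_cst]
  simpa using hq

theorem ld_zero {α β : Chart} {n : ℕ} {d : ℤ × ℤ} {G : RR} (h : G ∈ S.F α β (n + 1) d)
    (h0 : S.ld G = 0) : ∃ G' ∈ S.F α β n (d + S.k0), G = S.A * G' := by
  obtain ⟨G', hG', q, hq, rfl⟩ := S.F_succ.mp h
  rw [map_add, map_mul, map_mul, map_pow, S.ldA, S.ldB, S.ld_cst] at h0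
  have : q = 0 := by simpa using h0
  exact ⟨G', hG', by simp [this]⟩

theorem left_mem {α β : Chart} {n : ℕ} {d : ℤ × ℤ} {q : Lam}
    (hq : q ∈ OO (rg α β) (d + n • S.k1)) : cst q * S.B α ^ n ∈ S.F α β n d :=
  cst_mul_B_pow_mem hq

theorem right_mem {α β : Chart} {n : ℕ} {d : ℤ × ℤ} {q : Lam}
    (hq : q ∈ OO (rg α β) (d + n • S.k1)) : cst q * S.B β ^ n ∈ S.F α β n d := by
  have h1 := pow_mem_Nf (S.reg α β) n
  have h2 := mul_mem_Nf 0 (cst_mem hq) h1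
  rw [zero_add] at h2
  refine Nf_cast h2 ?_
  rw [smul_neg]; abel

theorem ld_B_pow (α : Chart) (q : Lam) (n : ℕ) : S.ld (cst q * S.B α ^ n) = q := by
  rw [map_mul, map_pow, S.ldB, S.ld_cst, one_pow, mul_one]

theorem H1_zero {d : ℤ × ℤ} (h1 : -1 ≤ d.1) (h2 : -1 ≤ d.2) : S.H1 0 d := by
  intro c hc hcoc
  choose q hq hqc using fun α β => S.F_zero.mp (hc α β)
  have hinj : Function.Injective (cst : Lam → RR) := MvPolynomial.C_injective _ _
  obtain ⟨b, hb, hb'⟩ := H1_OO h1 h2 q hq (fun α β γ => by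
    apply hinj
    rw [map_add, hqc, hqc, hqc, hcoc])
  refine ⟨fun α => cst (b α), fun α => S.F_zero.mpr ⟨b α, hb α, rfl⟩, fun α β => ?_⟩
  rw [← hqc, hb', map_sub]

theorem H1_succ {n : ℕ} {d : ℤ × ℤ} (hn : S.H1 n (d + S.k0))
    (h1 : -1 ≤ (d + (n + 1) • S.k1).1) (h2 : -1 ≤ (d + (n + 1) • S.k1).2) : S.H1 (n + 1) d := by
  intro c hc hcoc
  obtain ⟨b, hb, hb'⟩ := H1_OO h1 h2 (fun α β => S.ld (c α β)) (fun α β => S.ld_mem (hc α β))
    (fun α β γ => by rw [← map_add, hcoc])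
  set c' : Chart → Chart → RR := fun α β =>
    c α β - cst (b α) * S.B α ^ (n + 1) + cst (b β) * S.B β ^ (n + 1) with hc'
  have hmem : ∀ α β, c' α β ∈ S.F α β (n + 1) d := fun α β =>
    Submodule.add_mem _ (Submodule.sub_mem _ (hc α β) (S.left_mem (OO_left α β _ (hb α))))
      (S.right_mem (OO_right α β _ (hb β)))
  have hld : ∀ α β, S.ld (c' α β) = 0 := by
    intro α β
    simp only [hc']
    rw [map_add, map_sub, S.ld_B_pow, S.ld_B_pow, hb']
    ring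
  choose g hg hgA using fun α β => S.ld_zero (hmem α β) (hld α β)
  obtain ⟨b', hb1, hb2⟩ := hn g hg (fun α β γ => by
    apply mul_left_cancel₀ S.A_ne
    rw [mul_add, ← hgA, ← hgA, ← hgA]
    simp only [hc']
    rw [← hcoc α β γ]; ring)
  refine ⟨fun α => cst (b α) * S.B α ^ (n + 1) + S.A * b' α, fun α => ?_, fun α β => ?_⟩
  · exact Submodule.add_mem _ (S.left_mem (hb α)) (A_mul_mem (hb1 α))
  · have h := hgA α β
    rw [hb2] at h
    simp only [hc'] at h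
    linear_combination h

theorem GG_zero {d : ℤ × ℤ} (h1 : 0 ≤ d.1) (h2 : 0 ≤ d.2) (α : Chart) (c1 c2 : ℂ) :
    S.GG 0 d α (lin1 α.1 c1) (lin2 α.2 c2) := by
  intro G hG
  obtain ⟨q, hq, rfl⟩ := S.F_zero.mp hG
  obtain ⟨g, hg, q1, hq1, q2, hq2, rfl⟩ := GG_OO h1 h2 α c1 c2 hq
  refine ⟨cst g, fun β => S.F_zero.mpr ⟨g, hg β, rfl⟩, cst q1, S.F_zero.mpr ⟨q1, hq1, rfl⟩,
    cst q2, S.F_zero.mpr ⟨q2, hq2, rfl⟩, ?_⟩
  rw [map_add, map_add, cst_mul, cst_mul]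

/-- lifting of global sections of the quotient. -/
theorem exists_lift {n : ℕ} {d : ℤ × ℤ} (hn : S.H1 n (d + S.k0)) {g : Lam}
    (hg : ∀ β, g ∈ OO (rg β β) (d + (n + 1) • S.k1)) :
    ∃ Γ, (∀ β, Γ ∈ S.F β β (n + 1) d) ∧ S.ld Γ = g := by
  set c : Chart → Chart → RR := fun α β =>
    cst g * S.B α ^ (n + 1) - cst g * S.B β ^ (n + 1) with hc
  have hmem : ∀ α β, c α β ∈ S.F α β (n + 1) d := fun α β =>
    Submodule.sub_mem _ (S.left_mem (OO_left α β _ (hg α))) (S.right_mem (OO_right α β _ (hg β)))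
  have hld : ∀ α β, S.ld (c α β) = 0 := by
    intro α β
    simp only [hc]
    rw [map_sub, S.ld_B_pow, S.ld_B_pow, sub_self]
  choose c' hc' hcA using fun α β => S.ld_zero (hmem α β) (hld α β)
  obtain ⟨b, hb1, hb2⟩ := hn c' hc' (fun α β γ => by
    apply mul_left_cancel₀ S.A_ne
    rw [mul_add, ← hcA, ← hcA, ← hcA]
    simp only [hc]
    ring)
  have hind : ∀ β, cst g * S.B (0, 0) ^ (n + 1) - S.A * b (0, 0) =
      cst g * S.B β ^ (n + 1) - S.A * b β := by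
    intro β
    have h := hcA (0, 0) β
    rw [hb2] at h
    simp only [hc] at h
    linear_combination h
  refine ⟨cst g * S.B (0, 0) ^ (n + 1) - S.A * b (0, 0), fun β => ?_, ?_⟩
  · rw [hind β]
    exact Submodule.sub_mem _ (S.left_mem (hg β)) (A_mul_mem (hb1 β))
  · rw [map_sub, S.ld_B_pow, map_mul, S.ldA, zero_mul, sub_zero]

theorem GG_succ {n : ℕ} {d : ℤ × ℤ} {α : Chart} {c1 c2 : ℂ} (hn : S.H1 n (d + S.k0))
    (hG : S.GG n (d + S.k0) α (lin1 α.1 c1) (lin2 α.2 c2))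
    (h1 : 0 ≤ (d + (n + 1) • S.k1).1) (h2 : 0 ≤ (d + (n + 1) • S.k1).2) :
    S.GG (n + 1) d α (lin1 α.1 c1) (lin2 α.2 c2) := by
  intro G hGm
  obtain ⟨g, hg, q1, hq1, q2, hq2, hq⟩ := GG_OO h1 h2 α c1 c2 (S.ld_mem hGm)
  obtain ⟨Γ, hΓ, hΓl⟩ := S.exists_lift hn hg
  set l1 := lin1 α.1 c1
  set l2 := lin2 α.2 c2
  have m1 : cst q1 * S.B α ^ (n + 1) ∈ S.F α α (n + 1) (d - (1, 0)) :=
    S.left_mem (OO_cast hq1 (by abel))
  have m2 : cst q2 * S.B α ^ (n + 1) ∈ S.F α α (n + 1) (d - (0, 1)) :=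
    S.left_mem (OO_cast hq2 (by abel))
  have hl1 : l1 ∈ OO (rg α α) (1, 0) := by
    simp only [l1, lin1]
    split_ifs with h
    · refine Submodule.sub_mem _ (mon_mem_iff ?_ ?_) (Submodule.smul_mem _ _ ?_)
      · constructor <;> intro <;> simp
      · constructor <;> intro <;> simp
      · rw [← mon_zero]
        apply mon_mem_iff <;> constructor <;> intro <;> simp
    · refine Submodule.sub_mem _ ?_ (Submodule.smul_mem _ _ (mon_mem_iff ?_ ?_))
      · rw [← mon_zero]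
        apply mon_mem_iff <;> constructor <;> intro <;> simp
      · constructor <;> intro <;> simp
      · constructor <;> intro <;> simp
  have hl2 : l2 ∈ OO (rg α α) (0, 1) := by
    simp only [l2, lin2]
    split_ifs with h
    · refine Submodule.sub_mem _ (mon_mem_iff ?_ ?_) (Submodule.smul_mem _ _ ?_)
      · constructor <;> intro <;> simp
      · constructor <;> intro <;> simp
      · rw [← mon_zero]
        apply mon_mem_iff <;> constructor <;> intro <;> simp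
    · refine Submodule.sub_mem _ ?_ (Submodule.smul_mem _ _ (mon_mem_iff ?_ ?_))
      · rw [← mon_zero]
        apply mon_mem_iff <;> constructor <;> intro <;> simp
      · constructor <;> intro <;> simp
      · constructor <;> intro <;> simp
  have hl1' : ∀ {H : RR}, H ∈ S.F α α (n + 1) (d - (1, 0)) → cst l1 * H ∈ S.F α α (n + 1) d := by
    intro H hH
    have := mul_mem_Nf 0 (cst_mem hl1) hH
    rw [zero_add] at this
    exact Nf_cast this (by abel)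
  have hl2' : ∀ {H : RR}, H ∈ S.F α α (n + 1) (d - (0, 1)) → cst l2 * H ∈ S.F α α (n + 1) d := by
    intro H hH
    have := mul_mem_Nf 0 (cst_mem hl2) hH
    rw [zero_add] at this
    exact Nf_cast this (by abel)
  set D : RR := G - Γ - cst l1 * (cst q1 * S.B α ^ (n + 1)) -
    cst l2 * (cst q2 * S.B α ^ (n + 1)) with hD
  have hDm : D ∈ S.F α α (n + 1) d :=
    Submodule.sub_mem _ (Submodule.sub_mem _ (Submodule.sub_mem _ hGm (hΓ α)) (hl1' m1)) (hl2' m2)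
  have hDl : S.ld D = 0 := by
    rw [hD, map_sub, map_sub, map_sub, map_mul S.ld (cst l1), map_mul S.ld (cst l2), S.ld_B_pow,
      S.ld_B_pow, S.ld_cst, S.ld_cst, hΓl, hq]
    ring
  obtain ⟨G', hG', hGA⟩ := S.ld_zero hDm hDl
  obtain ⟨Γ', hΓ', G1, hG1, G2, hG2, hG3⟩ := hG G' hG'
  refine ⟨Γ + S.A * Γ', fun β => Submodule.add_mem _ (hΓ β) (A_mul_mem (hΓ' β)),
    cst q1 * S.B α ^ (n + 1) + S.A * G1,
    Submodule.add_mem _ m1 (A_mul_mem (Nf_cast hG1 (by abel))),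
    cst q2 * S.B α ^ (n + 1) + S.A * G2,
    Submodule.add_mem _ m2 (A_mul_mem (Nf_cast hG2 (by abel))), ?_⟩
  rw [hG3] at hGA
  rw [hD] at hGA
  linear_combination hGA

end Sys

/-- two systems with the same sections. -/
theorem Sys.H1_congr {S S' : Sys} (h : ∀ α β n d, S.F α β n d = S'.F α β n d) {n : ℕ} {d : ℤ × ℤ}
    (hS : S.H1 n d) : S'.H1 n d := by
  intro c hc hcoc
  obtain ⟨b, hb, hb'⟩ := hS c (fun α β => (h α β n d) ▸ hc α β) hcoc
  exact ⟨b, fun α => (h α α n d) ▸ hb α, hb'⟩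

theorem Sys.GG_congr {S S' : Sys} (h : ∀ α β n d, S.F α β n d = S'.F α β n d) {n : ℕ} {d : ℤ × ℤ}
    {α : Chart} {l1 l2 : Lam} (hS : S.GG n d α l1 l2) : S'.GG n d α l1 l2 := by
  intro G hG
  obtain ⟨Γ, hΓ, G1, hG1, G2, hG2, e⟩ := hS G ((h α α n d) ▸ hG)
  exact ⟨Γ, fun β => (h β β n d) ▸ hΓ β, G1, (h α α n _) ▸ hG1, G2, (h α α n _) ▸ hG2, e⟩

end Crest.Agent.R258
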