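import Crest.Agent.R258.Metric
import Crest.Agent.R258.Relaxed

/-!
Row 258 (S0396): from Griffiths positive metrics on all `ψ_N^* E (1,1)` to `RelData`.
-/

set_option autoImplicit false

noncomputable section

open Crest Crest.AlgGeometry Crest.AlgGeometry.QuadricBundle
open Set Filter Topology

namespace Crest.Agent.R258

/-! ### Push forward by `(x, y) ↦ (x ^ n, y ^ n)` -/

/-- `n`-th roots of `X`. -/
def rts (n : ℕ) (X : ℂ) : Set ℂ := {x | x ^ n = X}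

theorem mem_rts {n : ℕ} {X x : ℂ} : x ∈ rts n X ↔ x ^ n = X := Iff.rfl

theorem isCompact_rts {n : ℕ} (hn : n ≠ 0) (X : ℂ) : IsCompact (rts n X) := by
  refine IsCompact.of_isClosed_subset (isCompact_closedBall (0 : ℂ) (max 1 ‖X‖)) ?_ ?_
  · exact isClosed_eq (by fun_prop) continuous_const
  · intro x hx
    have hx' : x ^ n = X := hx
    rw [Metric.mem_closedBall, dist_zero_right]
    by_contra hcon
    push Not at hcon
    have h1 : 1 < ‖x‖ := lt_of_le_of_lt (le_max_left _ _) hcon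
    have h2 : ‖X‖ < ‖x‖ := lt_of_le_of_lt (le_max_right _ _) hcon
    have h3 : ‖x‖ ≤ ‖x‖ ^ n := le_self_pow₀ h1.le hn
    rw [← norm_pow, hx'] at h3
    linarith

theorem rts_nonempty {n : ℕ} (hn : n ≠ 0) (X : ℂ) : (rts n X).Nonempty :=
  IsAlgClosed.exists_pow_nat_eq X (Nat.pos_of_ne_zero hn)

/-- Sup over the fibre of `(x, y) ↦ (x ^ n, y ^ n)`. -/
def push (n : ℕ) (F : ℂ → ℂ → ℝ) (X Y : ℂ) : ℝ :=
  sSup ((fun p : ℂ × ℂ => F p.1 p.2) '' (rts n X ×ˢ rts n Y))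

theorem le_push {n : ℕ} (hn : n ≠ 0) {F : ℂ → ℂ → ℝ}
    (hF : Continuous fun p : ℂ × ℂ => F p.1 p.2) (x y : ℂ) :
    F x y ≤ push n F (x ^ n) (y ^ n) := by
  refine le_csSup ?_ ⟨(x, y), ⟨mem_rts.mpr rfl, mem_rts.mpr rfl⟩, rfl⟩
  exact ((isCompact_rts hn _).prod (isCompact_rts hn _)).bddAbove_image hF.continuousOn

theorem exists_push {n : ℕ} (hn : n ≠ 0) {F : ℂ → ℂ → ℝ}
    (hF : Continuous fun p : ℂ × ℂ => F p.1 p.2) (X Y : ℂ) :
    ∃ x y, x ^ n = X ∧ y ^ n = Y ∧ push n F X Y = F x y := by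
  have hK := ((isCompact_rts hn X).prod (isCompact_rts hn Y)).image_of_continuousOn
    hF.continuousOn
  obtain ⟨⟨x, y⟩, hxy, h⟩ := hK.sSup_mem (((rts_nonempty hn X).prod (rts_nonempty hn Y)).image _)
  exact ⟨x, y, hxy.1, hxy.2, h.symm⟩

/-- Sup over the closed unit bidisc. -/
def supBi (F : ℂ → ℂ → ℝ) : ℝ :=
  sSup ((fun p : ℂ × ℂ => F p.1 p.2) '' (Metric.closedBall (0 : ℂ) 1 ×ˢ Metric.closedBall (0 : ℂ) 1))

theorem le_supBi {F : ℂ → ℂ → ℝ} (hF : Continuous fun p : ℂ × ℂ => F p.1 p.2) {x y : ℂ}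
    (hx : ‖x‖ ≤ 1) (hy : ‖y‖ ≤ 1) : F x y ≤ supBi F := by
  refine le_csSup ?_ ⟨(x, y), ⟨by simpa using hx, by simpa using hy⟩, rfl⟩
  exact ((isCompact_closedBall _ _).prod (isCompact_closedBall _ _)).bddAbove_image
    hF.continuousOn

theorem exists_supBi {F : ℂ → ℂ → ℝ} (hF : Continuous fun p : ℂ × ℂ => F p.1 p.2) :
    ∃ x y : ℂ, ‖x‖ ≤ 1 ∧ ‖y‖ ≤ 1 ∧ supBi F = F x y := by
  have hK := ((isCompact_closedBall (0 : ℂ) 1).prod
    (isCompact_closedBall (0 : ℂ) 1)).image_of_continuousOn hF.continuousOn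
  obtain ⟨⟨x, y⟩, hxy, h⟩ := hK.sSup_mem ⟨F 0 0, (0, 0), by simp, rfl⟩
  exact ⟨x, y, by simpa using hxy.1, by simpa using hxy.2, h.symm⟩

/-! ### The data of one metric -/

/-- Squared dual norms on the chart `(0,0)` of one metric on `ψ_n^* E (1,1)`. -/
structure SliceData (n : ℕ) (f v : ℂ → ℂ → ℂ) (P Q E : ℂ → ℂ → ℝ) : Prop where
  cP : Continuous fun p : ℂ × ℂ => P p.1 p.2
  cQ : Continuous fun p : ℂ × ℂ => Q p.1 p.2
  cE : Continuous fun p : ℂ × ℂ => E p.1 p.2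
  posP : 0 < P 0 0
  Px : ∀ y, MPfun fun x => P x y
  Py : ∀ x, MPfun fun y => P x y
  Qx : ∀ y, MPfun fun x => Q x y
  Qy : ∀ x, MPfun fun y => Q x y
  Ex : ∀ y, MPfun fun x => E x y
  grPx : ∀ y, ∃ C : ℝ, ∀ x : ℂ, 1 ≤ ‖x‖ → P x y ≤ C * ‖x‖ ^ (2 * 1)
  grPy : ∀ x, ∃ C : ℝ, ∀ y : ℂ, 1 ≤ ‖y‖ → P x y ≤ C * ‖y‖ ^ (2 * (n * 8 + 1))
  grQx : ∀ y, ∃ C : ℝ, ∀ x : ℂ, 1 ≤ ‖x‖ → Q x y ≤ C * ‖x‖ ^ (2 * (n * 4 + 1))
  grQy : ∀ x, ∃ C : ℝ, ∀ y : ℂ, 1 ≤ ‖y‖ → Q x y ≤ C * ‖y‖ ^ (2 * 1)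
  tri1 : ∀ x y, Real.sqrt (Q x y) ≤
    ‖v (x ^ n) (y ^ n)‖ * Real.sqrt (P x y) + ‖f (x ^ n) (y ^ n)‖ * Real.sqrt (E x y)
  tri2 : ∀ x y, ‖v (x ^ n) (y ^ n)‖ * Real.sqrt (P x y) ≤
    Real.sqrt (Q x y) + ‖f (x ^ n) (y ^ n)‖ * Real.sqrt (E x y)
  tri3 : ∀ x y, ‖f (x ^ n) (y ^ n)‖ * Real.sqrt (E x y) ≤
    Real.sqrt (Q x y) + ‖v (x ^ n) (y ^ n)‖ * Real.sqrt (P x y)

theorem MPfun.global_le {u : ℂ → ℝ} (hu : MPfun u) {C m : ℝ} {a b : ℕ} (hab : a < b) (hm : 0 ≤ m)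
    (hgr : ∀ z, 1 ≤ ‖z‖ → u z ≤ C * ‖z‖ ^ (2 * a)) (h1 : ∀ z, ‖z‖ = 1 → u z ≤ m) (z : ℂ) :
    u z ≤ m * max 1 ‖z‖ ^ (2 * b) := by
  rcases le_total 1 ‖z‖ with h | h
  · rw [max_eq_right h]
    exact hu.outside hab hm hgr h1 z h
  · rw [max_eq_left h, one_pow, mul_one]
    exact hu.disc one_pos hm h1 z h

/-- root of the radius -/
theorem exists_root_radius {n : ℕ} (hn : n ≠ 0) {R : ℝ} (hR : 0 < R) :
    ∃ R' : ℝ, 0 < R' ∧ R' ^ n = R := by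
  refine ⟨R ^ ((n : ℝ)⁻¹), by positivity, ?_⟩
  exact Real.rpow_inv_natCast_pow hR.le hn

section

variable {n : ℕ} {f v : ℂ → ℂ → ℂ} {P Q E : ℂ → ℂ → ℝ}

/-- normalising constant -/
def nrmC (P Q : ℂ → ℂ → ℝ) : ℝ :=
  supBi (fun x y => Real.sqrt (P x y)) + supBi (fun x y => Real.sqrt (Q x y))

/-- normalised push forward -/
def pushN (n : ℕ) (P Q F : ℂ → ℂ → ℝ) : ℂ → ℂ → ℝ :=
  push n (fun x y => Real.sqrt (F x y) / nrmC P Q)

theorem cont_sqrt {F : ℂ → ℂ → ℝ} (hF : Continuous fun p : ℂ × ℂ => F p.1 p.2) :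
    Continuous fun p : ℂ × ℂ => Real.sqrt (F p.1 p.2) := hF.sqrt

theorem supBi_sqrt_nonneg (F : ℂ → ℂ → ℝ) (hF : Continuous fun p : ℂ × ℂ => F p.1 p.2) :
    0 ≤ supBi (fun x y => Real.sqrt (F x y)) :=
  (Real.sqrt_nonneg (F 0 0)).trans
    (le_supBi (F := fun x y => Real.sqrt (F x y)) (cont_sqrt hF) (x := 0) (y := 0) (by simp) (by simp))

theorem SliceData.nrmC_pos (h : SliceData n f v P Q E) : 0 < nrmC P Q := by
  have h1 : Real.sqrt (P 0 0) ≤ supBi (fun x y => Real.sqrt (P x y)) :=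
    le_supBi (F := fun x y => Real.sqrt (P x y)) (cont_sqrt h.cP) (x := 0) (y := 0)
      (by simp) (by simp)
  have h2 := supBi_sqrt_nonneg Q h.cQ
  have h3 := Real.sqrt_pos.mpr h.posP
  unfold nrmC
  linarith

variable (hn : n ≠ 0) (h : SliceData n f v P Q E)

include hn in
theorem le_pushN {F : ℂ → ℂ → ℝ} (hF : Continuous fun p : ℂ × ℂ => F p.1 p.2) (x y : ℂ) :
    Real.sqrt (F x y) / nrmC P Q ≤ pushN n P Q F (x ^ n) (y ^ n) :=
  le_push hn (F := fun x y => Real.sqrt (F x y) / nrmC P Q) (hF.sqrt.div_const _) x y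

include hn in
theorem exists_pushN {F : ℂ → ℂ → ℝ} (hF : Continuous fun p : ℂ × ℂ => F p.1 p.2) (X Y : ℂ) :
    ∃ x y, x ^ n = X ∧ y ^ n = Y ∧ pushN n P Q F X Y = Real.sqrt (F x y) / nrmC P Q :=
  exists_push hn (F := fun x y => Real.sqrt (F x y) / nrmC P Q) (hF.sqrt.div_const _) X Y

include hn h in
theorem SliceData.pushN_nonneg {F : ℂ → ℂ → ℝ} (hF : Continuous fun p : ℂ × ℂ => F p.1 p.2)
    (X Y : ℂ) : 0 ≤ pushN n P Q F X Y := by
  obtain ⟨x, y, -, -, hxy⟩ := exists_pushN (P := P) (Q := Q) hn hF X Y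
  rw [hxy]
  exact div_nonneg (Real.sqrt_nonneg _) h.nrmC_pos.le

include hn h in
theorem SliceData.sq_le_of_pushN_le {F : ℂ → ℂ → ℝ} (hF : Continuous fun p : ℂ × ℂ => F p.1 p.2)
    {x y : ℂ} {m : ℝ} (hm : pushN n P Q F (x ^ n) (y ^ n) ≤ m) :
    F x y ≤ (m * nrmC P Q) ^ 2 := by
  have h1 := (le_pushN (P := P) (Q := Q) hn hF x y).trans hm
  rw [div_le_iff₀ h.nrmC_pos] at h1
  have h2 := Real.sqrt_le_left (le_trans (Real.sqrt_nonneg _) h1) |>.mp h1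
  exact h2

include h in
theorem SliceData.pushN_le_of_sq {F : ℂ → ℂ → ℝ} {x y : ℂ} {m : ℝ} (hm : 0 ≤ m)
    (h1 : F x y ≤ (m * nrmC P Q) ^ 2) : Real.sqrt (F x y) / nrmC P Q ≤ m := by
  rw [div_le_iff₀ h.nrmC_pos]
  exact (Real.sqrt_le_left (mul_nonneg hm h.nrmC_pos.le)).mpr h1

include hn in
theorem norm_bound_aux {x : ℂ} {ρ : ℝ} (hρ : 1 ≤ ρ) (hx : ‖x ^ n‖ ≤ ρ) :
    max 1 ‖x‖ ^ n ≤ ρ ∧ max 1 ‖x‖ ≤ ρ := by
  have h1 : max 1 ‖x‖ ^ n ≤ ρ := by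
    rcases le_total 1 ‖x‖ with h | h
    · rw [max_eq_right h, ← norm_pow]; exact hx
    · rw [max_eq_left h, one_pow]; exact hρ
  exact ⟨h1, (le_self_pow₀ (le_max_left _ _) hn).trans h1⟩

include hn h in
theorem SliceData.growthP (ρ : ℝ) (X Y : ℂ) (hρ : 1 ≤ ρ) (hX : ‖X‖ ≤ ρ) (hY : ‖Y‖ ≤ ρ) :
    pushN n P Q P X Y ≤ ρ ^ 12 := by
  obtain ⟨x, y, rfl, rfl, hxy⟩ := exists_pushN (P := P) (Q := Q) hn h.cP X Y
  rw [hxy]
  obtain ⟨hx1, hx2⟩ := norm_bound_aux hn hρ hX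
  obtain ⟨hy1, hy2⟩ := norm_bound_aux hn hρ hY
  set S := supBi (fun x y => Real.sqrt (P x y)) with hS
  have hS0 : 0 ≤ S := supBi_sqrt_nonneg P h.cP
  have hSM : S ≤ nrmC P Q := by
    have := supBi_sqrt_nonneg Q h.cQ
    unfold nrmC; linarith
  have hM := h.nrmC_pos
  refine h.pushN_le_of_sq (by positivity) ?_
  -- bound on the circle in `x`
  have hcirc : ∀ x' : ℂ, ‖x'‖ = 1 → P x' y ≤ S ^ 2 * max 1 ‖y‖ ^ (2 * (n * 8 + 2)) := by
    intro x' hx'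
    obtain ⟨C, hC⟩ := h.grPy x'
    refine (h.Py x').global_le (a := n * 8 + 1) (b := n * 8 + 2) (by omega) (by positivity) hC ?_ y
    intro y' hy'
    have := le_supBi (F := fun x y => Real.sqrt (P x y)) (cont_sqrt h.cP) (x := x') (y := y')
      hx'.le hy'.le
    exact (Real.sqrt_le_left hS0).mp this
  obtain ⟨C, hC⟩ := h.grPx y
  have hfin := (h.Px y).global_le (a := 1) (b := 2) (by omega)
    (m := S ^ 2 * max 1 ‖y‖ ^ (2 * (n * 8 + 2))) (by positivity) hC hcirc x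
  refine hfin.trans ?_
  have e1 : max 1 ‖y‖ ^ (2 * (n * 8 + 2)) = (max 1 ‖y‖ ^ n) ^ 16 * max 1 ‖y‖ ^ 4 := by
    rw [← pow_mul, ← pow_add]; congr 1; ring
  rw [e1]
  have hmx : 0 ≤ max 1 ‖x‖ := by positivity
  have hmy : 0 ≤ max 1 ‖y‖ := by positivity
  have hS2 : S ^ 2 ≤ nrmC P Q ^ 2 := by gcongr
  calc S ^ 2 * ((max 1 ‖y‖ ^ n) ^ 16 * max 1 ‖y‖ ^ 4) * max 1 ‖x‖ ^ (2 * 2)
      ≤ nrmC P Q ^ 2 * (ρ ^ 16 * ρ ^ 4) * ρ ^ (2 * 2) := by gcongr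
    _ = (ρ ^ 12 * nrmC P Q) ^ 2 := by ring

include hn h in
theorem SliceData.growthQ (ρ : ℝ) (X Y : ℂ) (hρ : 1 ≤ ρ) (hX : ‖X‖ ≤ ρ) (hY : ‖Y‖ ≤ ρ) :
    pushN n P Q Q X Y ≤ ρ ^ 12 := by
  obtain ⟨x, y, rfl, rfl, hxy⟩ := exists_pushN (P := P) (Q := Q) hn h.cQ X Y
  rw [hxy]
  obtain ⟨hx1, hx2⟩ := norm_bound_aux hn hρ hX
  obtain ⟨hy1, hy2⟩ := norm_bound_aux hn hρ hY
  set S := supBi (fun x y => Real.sqrt (Q x y)) with hS
  have hS0 : 0 ≤ S := supBi_sqrt_nonneg Q h.cQ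
  have hSM : S ≤ nrmC P Q := by
    have := supBi_sqrt_nonneg P h.cP
    unfold nrmC; linarith
  have hM := h.nrmC_pos
  refine h.pushN_le_of_sq (by positivity) ?_
  have hcirc : ∀ x' : ℂ, ‖x'‖ = 1 → Q x' y ≤ S ^ 2 * max 1 ‖y‖ ^ (2 * 2) := by
    intro x' hx'
    obtain ⟨C, hC⟩ := h.grQy x'
    refine (h.Qy x').global_le (a := 1) (b := 2) (by omega) (by positivity) hC ?_ y
    intro y' hy'
    have := le_supBi (F := fun x y => Real.sqrt (Q x y)) (cont_sqrt h.cQ) (x := x') (y := y')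
      hx'.le hy'.le
    exact (Real.sqrt_le_left hS0).mp this
  obtain ⟨C, hC⟩ := h.grQx y
  have hfin := (h.Qx y).global_le (a := n * 4 + 1) (b := n * 4 + 2) (by omega)
    (m := S ^ 2 * max 1 ‖y‖ ^ (2 * 2)) (by positivity) hC hcirc x
  refine hfin.trans ?_
  have e1 : max 1 ‖x‖ ^ (2 * (n * 4 + 2)) = (max 1 ‖x‖ ^ n) ^ 8 * max 1 ‖x‖ ^ 4 := by
    rw [← pow_mul, ← pow_add]; congr 1; ring
  rw [e1]
  have hmx : 0 ≤ max 1 ‖x‖ := by positivity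
  have hmy : 0 ≤ max 1 ‖y‖ := by positivity
  have hS2 : S ^ 2 ≤ nrmC P Q ^ 2 := by gcongr
  calc S ^ 2 * max 1 ‖y‖ ^ (2 * 2) * ((max 1 ‖x‖ ^ n) ^ 8 * max 1 ‖x‖ ^ 4)
      ≤ nrmC P Q ^ 2 * ρ ^ (2 * 2) * (ρ ^ 8 * ρ ^ 4) := by gcongr
    _ = nrmC P Q ^ 2 * ρ ^ 16 := by ring
    _ ≤ nrmC P Q ^ 2 * ρ ^ 24 := by
        gcongr
        norm_num
    _ = (ρ ^ 12 * nrmC P Q) ^ 2 := by ring

theorem sq_rpow_aux {a b : ℝ} (n : ℕ) (hb : 0 ≤ b) :
    (a * b ^ ((2 : ℝ) / n)) ^ 2 = a ^ 2 * b ^ ((4 : ℝ) / n) := by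
  rw [mul_pow]
  congr 1
  rw [← Real.rpow_natCast, ← Real.rpow_mul hb]
  congr 1
  push_cast
  ring

include hn h in
theorem SliceData.ncP (X' Y : ℂ) (ε m : ℝ) (hε : 0 < ε) (hm : 0 ≤ m)
    (h1 : ∀ X, dist X X' ≤ ε → pushN n P Q P X Y ≤ m) (X : ℂ) (hX : ε ≤ dist X X') :
    pushN n P Q P X Y ≤ m * (dist X X' / ε) ^ ((2 : ℝ) / n) := by
  obtain ⟨x, y, rfl, rfl, hxy⟩ := exists_pushN (P := P) (Q := Q) hn h.cP X Y
  rw [hxy]
  have hM := h.nrmC_pos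
  have hd : 0 ≤ dist (x ^ n) X' / ε := by positivity
  refine h.pushN_le_of_sq (by positivity) ?_
  obtain ⟨C, hC⟩ := h.grPx y
  have key := (h.Px y).nearConst (C := C) (m := (m * nrmC P Q) ^ 2) (Nat.pos_of_ne_zero hn) hε
    (by positivity) X' (fun z hz => by simpa using hC z hz)
    (fun z hz => h.sq_le_of_pushN_le hn h.cP (h1 _ hz)) x hX
  refine key.trans (le_of_eq ?_)
  rw [mul_right_comm, sq_rpow_aux n hd]

include hn h in
theorem SliceData.ncQ (X Y' : ℂ) (ε m : ℝ) (hε : 0 < ε) (hm : 0 ≤ m)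
    (h1 : ∀ Y, dist Y Y' ≤ ε → pushN n P Q Q X Y ≤ m) (Y : ℂ) (hY : ε ≤ dist Y Y') :
    pushN n P Q Q X Y ≤ m * (dist Y Y' / ε) ^ ((2 : ℝ) / n) := by
  obtain ⟨x, y, rfl, rfl, hxy⟩ := exists_pushN (P := P) (Q := Q) hn h.cQ X Y
  rw [hxy]
  have hM := h.nrmC_pos
  have hd : 0 ≤ dist (y ^ n) Y' / ε := by positivity
  refine h.pushN_le_of_sq (by positivity) ?_
  obtain ⟨C, hC⟩ := h.grQy x
  have key := (h.Qy x).nearConst (C := C) (m := (m * nrmC P Q) ^ 2) (Nat.pos_of_ne_zero hn) hε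
    (by positivity) Y' (fun z hz => by simpa using hC z hz)
    (fun z hz => h.sq_le_of_pushN_le hn h.cQ (h1 _ hz)) y hY
  refine key.trans (le_of_eq ?_)
  rw [mul_right_comm, sq_rpow_aux n hd]

include hn h in
theorem SliceData.mpE (Y : ℂ) (R m : ℝ) (hR : 0 < R)
    (h1 : ∀ X : ℂ, ‖X‖ = R → pushN n P Q E X Y ≤ m) (X : ℂ) (hX : ‖X‖ ≤ R) :
    pushN n P Q E X Y ≤ m := by
  have hm : 0 ≤ m := (h.pushN_nonneg hn h.cE (R : ℂ) Y).trans
    (h1 (R : ℂ) (by simp [abs_of_pos hR]))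
  obtain ⟨x, y, rfl, rfl, hxy⟩ := exists_pushN (P := P) (Q := Q) hn h.cE X Y
  rw [hxy]
  obtain ⟨R', hR'0, hR'⟩ := exists_root_radius hn hR
  refine h.pushN_le_of_sq hm ?_
  refine (h.Ex y).disc hR'0 (by positivity) (fun z hz => ?_) x ?_
  · exact h.sq_le_of_pushN_le hn h.cE
      (h1 _ (by rw [norm_pow, hz, hR']))
  · rw [norm_pow, ← hR'] at hX
    exact le_of_pow_le_pow_left₀ hn hR'0.le hX

include hn h in
theorem SliceData.mpQ (Y : ℂ) (m : ℝ)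
    (h1 : ∀ X : ℂ, ‖X‖ = 1 → pushN n P Q Q X Y ≤ m) (X : ℂ) (hX : ‖X‖ ≤ 1) :
    pushN n P Q Q X Y ≤ m := by
  have hm : 0 ≤ m := (h.pushN_nonneg hn h.cQ 1 Y).trans (h1 1 (by simp))
  obtain ⟨x, y, rfl, rfl, hxy⟩ := exists_pushN (P := P) (Q := Q) hn h.cQ X Y
  rw [hxy]
  refine h.pushN_le_of_sq hm ?_
  refine (h.Qx y).disc one_pos (by positivity) (fun z hz => ?_) x ?_
  · exact h.sq_le_of_pushN_le hn h.cQ
      (h1 _ (by rw [norm_pow, hz, one_pow]))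
  · rw [norm_pow] at hX
    exact le_of_pow_le_pow_left₀ hn one_pos.le (by simpa using hX)

include hn h in
theorem SliceData.mpP (X : ℂ) (m : ℝ)
    (h1 : ∀ Y : ℂ, ‖Y‖ = 1 → pushN n P Q P X Y ≤ m) (Y : ℂ) (hY : ‖Y‖ ≤ 1) :
    pushN n P Q P X Y ≤ m := by
  have hm : 0 ≤ m := (h.pushN_nonneg hn h.cP X 1).trans (h1 1 (by simp))
  obtain ⟨x, y, rfl, rfl, hxy⟩ := exists_pushN (P := P) (Q := Q) hn h.cP X Y
  rw [hxy]
  refine h.pushN_le_of_sq hm ?_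
  refine (h.Py x).disc one_pos (by positivity) (fun z hz => ?_) y ?_
  · exact h.sq_le_of_pushN_le hn h.cP
      (h1 _ (by rw [norm_pow, hz, one_pow]))
  · rw [norm_pow] at hY
    exact le_of_pow_le_pow_left₀ hn one_pos.le (by simpa using hY)

include hn h in
theorem SliceData.annQ (Y : ℂ) (r R m : ℝ) (hr : 0 < r) (hrR : r < R)
    (h1 : ∀ X : ℂ, ‖X‖ = r → pushN n P Q Q X Y ≤ m * r ^ 2)
    (h2 : ∀ X : ℂ, ‖X‖ = R → pushN n P Q Q X Y ≤ m * R ^ 2)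
    (X : ℂ) (hX1 : r ≤ ‖X‖) (hX2 : ‖X‖ ≤ R) :
    pushN n P Q Q X Y ≤ m * ‖X‖ ^ 2 := by
  have hm : 0 ≤ m := by
    have h3 := (h.pushN_nonneg hn h.cQ (r : ℂ) Y).trans (h1 (r : ℂ) (by simp [abs_of_pos hr]))
    exact nonneg_of_mul_nonneg_left h3 (by positivity)
  obtain ⟨x, y, rfl, rfl, hxy⟩ := exists_pushN (P := P) (Q := Q) hn h.cQ X Y
  rw [hxy]
  obtain ⟨r', hr'0, hr'⟩ := exists_root_radius hn hr
  obtain ⟨R', hR'0, hR'⟩ := exists_root_radius hn (hr.trans hrR)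
  have hM := h.nrmC_pos
  refine h.pushN_le_of_sq (by positivity) ?_
  have e1 : ∀ z : ℂ, (m * ‖z ^ n‖ ^ 2 * nrmC P Q) ^ 2 = (m * nrmC P Q) ^ 2 * ‖z‖ ^ (2 * (2 * n)) := by
    intro z
    rw [norm_pow, show 2 * (2 * n) = n * 4 by ring, pow_mul]
    ring
  have key := (h.Qx y).annulus (r := r') (R := R') (m := (m * nrmC P Q) ^ 2) (b := 2 * n) hr'0
    (by positivity) ?_ ?_ x ?_ ?_
  · rw [e1 x]; exact key
  · intro z hz
    rw [← e1 z]
    refine h.sq_le_of_pushN_le hn h.cQ ?_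
    rw [norm_pow, hz, hr']
    exact h1 _ (by rw [norm_pow, hz, hr'])
  · intro z hz
    rw [← e1 z]
    refine h.sq_le_of_pushN_le hn h.cQ ?_
    rw [norm_pow, hz, hR']
    exact h2 _ (by rw [norm_pow, hz, hR'])
  · rw [norm_pow, ← hr'] at hX1
    exact le_of_pow_le_pow_left₀ hn (norm_nonneg _) hX1
  · rw [norm_pow, ← hR'] at hX2
    exact le_of_pow_le_pow_left₀ hn hR'0.le hX2

include hn h in
theorem SliceData.norm_le (a b : ℝ)
    (h1 : ∀ X Y : ℂ, ‖X‖ ≤ 1 → ‖Y‖ ≤ 1 → pushN n P Q P X Y ≤ a)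
    (h2 : ∀ X Y : ℂ, ‖X‖ ≤ 1 → ‖Y‖ ≤ 1 → pushN n P Q Q X Y ≤ b) : 1 ≤ a + b := by
  have hM := h.nrmC_pos
  obtain ⟨x, y, hx, hy, hxy⟩ := exists_supBi (F := fun x y => Real.sqrt (P x y)) (cont_sqrt h.cP)
  obtain ⟨z, w, hz, hw, hzw⟩ := exists_supBi (F := fun x y => Real.sqrt (Q x y)) (cont_sqrt h.cQ)
  have hpw : ∀ t : ℂ, ‖t‖ ≤ 1 → ‖t ^ n‖ ≤ 1 := fun t ht => by
    rw [norm_pow]; exact pow_le_one₀ (norm_nonneg _) ht
  have k1 := (le_pushN (P := P) (Q := Q) hn h.cP x y).trans (h1 _ _ (hpw x hx) (hpw y hy))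
  have k2 := (le_pushN (P := P) (Q := Q) hn h.cQ z w).trans (h2 _ _ (hpw z hz) (hpw w hw))
  rw [div_le_iff₀ hM] at k1 k2
  have hsum : nrmC P Q = Real.sqrt (P x y) + Real.sqrt (Q z w) := by
    unfold nrmC
    rw [hxy, hzw]
  have : 1 * nrmC P Q ≤ (a + b) * nrmC P Q := by
    rw [one_mul, add_mul]
    linarith
  exact le_of_mul_le_mul_right this hM

end

/-- One `SliceData` for every exponent gives `RelData`. -/
theorem relData_of_sliceData {f v : ℂ → ℂ → ℂ} {P Q E : ℕ → ℂ → ℂ → ℝ}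
    (h : ∀ N, SliceData (N + 1) f v (P N) (Q N) (E N)) :
    RelData f v (fun N => pushN (N + 1) (P N) (Q N) (P N))
      (fun N => pushN (N + 1) (P N) (Q N) (Q N)) (fun N => pushN (N + 1) (P N) (Q N) (E N)) where
  P_nonneg N X Y := (h N).pushN_nonneg N.succ_ne_zero (h N).cP X Y
  Q_nonneg N X Y := (h N).pushN_nonneg N.succ_ne_zero (h N).cQ X Y
  E_nonneg N X Y := (h N).pushN_nonneg N.succ_ne_zero (h N).cE X Y
  tri1 N X Y := by
    have hM := (h N).nrmC_pos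
    obtain ⟨x, y, rfl, rfl, hxy⟩ := exists_pushN (P := P N) (Q := Q N) N.succ_ne_zero (h N).cQ X Y
    rw [hxy]
    have k1 := le_pushN (P := P N) (Q := Q N) N.succ_ne_zero (h N).cP x y
    have k2 := le_pushN (P := P N) (Q := Q N) N.succ_ne_zero (h N).cE x y
    calc Real.sqrt (Q N x y) / nrmC (P N) (Q N) ≤
        (‖v (x ^ (N + 1)) (y ^ (N + 1))‖ * Real.sqrt (P N x y) +
          ‖f (x ^ (N + 1)) (y ^ (N + 1))‖ * Real.sqrt (E N x y)) / nrmC (P N) (Q N) := by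
          gcongr
          exact (h N).tri1 x y
      _ = ‖v (x ^ (N + 1)) (y ^ (N + 1))‖ * (Real.sqrt (P N x y) / nrmC (P N) (Q N)) +
          ‖f (x ^ (N + 1)) (y ^ (N + 1))‖ * (Real.sqrt (E N x y) / nrmC (P N) (Q N)) := by ring
      _ ≤ _ := by gcongr
  tri2 N X Y := by
    have hM := (h N).nrmC_pos
    obtain ⟨x, y, rfl, rfl, hxy⟩ := exists_pushN (P := P N) (Q := Q N) N.succ_ne_zero (h N).cP X Y
    rw [hxy]
    have k1 := le_pushN (P := P N) (Q := Q N) N.succ_ne_zero (h N).cQ x y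
    have k2 := le_pushN (P := P N) (Q := Q N) N.succ_ne_zero (h N).cE x y
    calc ‖v (x ^ (N + 1)) (y ^ (N + 1))‖ * (Real.sqrt (P N x y) / nrmC (P N) (Q N))
        = (‖v (x ^ (N + 1)) (y ^ (N + 1))‖ * Real.sqrt (P N x y)) / nrmC (P N) (Q N) := by ring
      _ ≤ (Real.sqrt (Q N x y) + ‖f (x ^ (N + 1)) (y ^ (N + 1))‖ * Real.sqrt (E N x y))
          / nrmC (P N) (Q N) := by
          gcongr
          exact (h N).tri2 x y
      _ = Real.sqrt (Q N x y) / nrmC (P N) (Q N) +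
          ‖f (x ^ (N + 1)) (y ^ (N + 1))‖ * (Real.sqrt (E N x y) / nrmC (P N) (Q N)) := by ring
      _ ≤ _ := by gcongr
  tri3 N X Y := by
    have hM := (h N).nrmC_pos
    obtain ⟨x, y, rfl, rfl, hxy⟩ := exists_pushN (P := P N) (Q := Q N) N.succ_ne_zero (h N).cE X Y
    rw [hxy]
    have k1 := le_pushN (P := P N) (Q := Q N) N.succ_ne_zero (h N).cQ x y
    have k2 := le_pushN (P := P N) (Q := Q N) N.succ_ne_zero (h N).cP x y
    calc ‖f (x ^ (N + 1)) (y ^ (N + 1))‖ * (Real.sqrt (E N x y) / nrmC (P N) (Q N))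
        = (‖f (x ^ (N + 1)) (y ^ (N + 1))‖ * Real.sqrt (E N x y)) / nrmC (P N) (Q N) := by ring
      _ ≤ (Real.sqrt (Q N x y) + ‖v (x ^ (N + 1)) (y ^ (N + 1))‖ * Real.sqrt (P N x y))
          / nrmC (P N) (Q N) := by
          gcongr
          exact (h N).tri3 x y
      _ = Real.sqrt (Q N x y) / nrmC (P N) (Q N) +
          ‖v (x ^ (N + 1)) (y ^ (N + 1))‖ * (Real.sqrt (P N x y) / nrmC (P N) (Q N)) := by ring
      _ ≤ _ := by gcongr
  growthP N ρ X Y h1 h2 h3 := (h N).growthP N.succ_ne_zero ρ X Y h1 h2 h3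
  growthQ N ρ X Y h1 h2 h3 := (h N).growthQ N.succ_ne_zero ρ X Y h1 h2 h3
  ncP N X' Y ε m hε hm h1 X hX := by
    have := (h N).ncP N.succ_ne_zero X' Y ε m hε hm h1 X hX
    push_cast at this
    exact this
  ncQ N X Y' ε m hε hm h1 Y hY := by
    have := (h N).ncQ N.succ_ne_zero X Y' ε m hε hm h1 Y hY
    push_cast at this
    exact this
  mpE N Y R m hR h1 X hX := (h N).mpE N.succ_ne_zero Y R m hR h1 X hX
  mpQ N Y m h1 X hX := (h N).mpQ N.succ_ne_zero Y m h1 X hX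
  mpP N X m h1 Y hY := (h N).mpP N.succ_ne_zero X m h1 Y hY
  annQ N Y r R m hr hrR h1 h2 X hX1 hX2 := (h N).annQ N.succ_ne_zero Y r R m hr hrR h1 h2 X hX1 hX2
  norm N a b h1 h2 := (h N).norm_le N.succ_ne_zero a b h1 h2


/-! ### `SliceData` of one metric -/

theorem sqrt_dualNormSq_smul (A : Matrix (Fin 2) (Fin 2) ℂ) (c : ℂ) (f : Fin 2 → ℂ) :
    Real.sqrt (dualNormSq A (c • f)) = ‖c‖ * Real.sqrt (dualNormSq A f) := by
  rw [dualNormSq_smul, Complex.normSq_eq_norm_sq, Real.sqrt_mul (by positivity),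
    Real.sqrt_sq (norm_nonneg _)]

open scoped ComplexOrder in
theorem tri_aux {A : Matrix (Fin 2) (Fin 2) ℂ} (hA : A.PosDef) {a b c : Fin 2 → ℂ} (s t : ℂ)
    (h : a = s • b + t • c) : Real.sqrt (dualNormSq A a) ≤
      ‖s‖ * Real.sqrt (dualNormSq A b) + ‖t‖ * Real.sqrt (dualNormSq A c) := by
  rw [h, ← sqrt_dualNormSq_smul, ← sqrt_dualNormSq_smul]
  exact sqrt_dualNormSq_add_le hA _ _

theorem line_x (z y : ℂ) : (![0, y] : Fin 2 → ℂ) + z • ![1, 0] = ![z, y] := by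
  funext i; fin_cases i <;> simp

theorem line_y (x z : ℂ) : (![x, 0] : Fin 2 → ℂ) + z • ![0, 1] = ![x, z] := by
  funext i; fin_cases i <;> simp

theorem mpfun_x {g : Transition 2} {H : MetricData 2} (hH : IsHermitianMetric g H)
    (hG : IsGriffithsPositive H) (α : Chart) (y : ℂ)
    {σ : (Fin 2 → ℂ) → Fin 2 → ℂ} (hσ : Differentiable ℂ σ) :
    MPfun (fun z => dualNormSq (H α ![z, y]) (σ ![z, y])) := by
  have := mpfun_line hH hG α ![0, y] ![1, 0] (by simp) hσ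
  simpa only [line_x] using this

theorem mpfun_y {g : Transition 2} {H : MetricData 2} (hH : IsHermitianMetric g H)
    (hG : IsGriffithsPositive H) (α : Chart) (x : ℂ)
    {σ : (Fin 2 → ℂ) → Fin 2 → ℂ} (hσ : Differentiable ℂ σ) :
    MPfun (fun z => dualNormSq (H α ![x, z]) (σ ![x, z])) := by
  have := mpfun_line hH hG α ![x, 0] ![0, 1] (by simp) hσ
  simpa only [line_y] using this

theorem sliceData_of_metric {g : Transition 2} {s2 : Chart → (Fin 2 → ℂ) → Fin 2 → ℂ}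
    (hs2 : ∀ α, Differentiable ℂ (s2 α))
    (h1g : ∀ α β, ∀ p ∈ overlap α β,
      (g α β p).transpose.mulVec ![0, 1] = lineTrans 0 8 α β p • ![0, 1])
    (h2g : ∀ α β, ∀ p ∈ overlap α β,
      (g α β p).transpose.mulVec (s2 α p) = lineTrans 4 0 α β p • s2 β (tau α β p))
    {N : ℕ} (hg : IsHoloCocycle (pullTwist N g)) {H : MetricData 2}
    (hH : IsHermitianMetric (pullTwist N g) H) (hG : IsGriffithsPositive H) :
    SliceData N (fun X Y => s2 (0, 0) ![X, Y] 0) (fun X Y => s2 (0, 0) ![X, Y] 1)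
      (fun x y => dualNormSq (H (0, 0) ![x, y]) ![0, 1])
      (fun x y => dualNormSq (H (0, 0) ![x, y]) (s2 (0, 0) (powMap N ![x, y])))
      (fun x y => dualNormSq (H (0, 0) ![x, y]) ![1, 0]) := by
  have hl : Continuous fun p : ℂ × ℂ => (![p.1, p.2] : Fin 2 → ℂ) := by fun_prop
  have hpd : ∀ α, Differentiable ℂ fun p => s2 α (powMap N p) :=
    fun α => (hs2 α).comp (differentiable_powMap N)
  have hcst : ∀ c : Fin 2 → ℂ, Differentiable ℂ fun _ : Fin 2 → ℂ => c :=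
    fun c => differentiable_const c
  have h1' := pullTwist_functional (g := g) (a := 0) (b := 8) (σ := fun _ _ => ![0, 1]) h1g N
  have h2' := pullTwist_functional (g := g) (a := 4) (b := 0) (σ := s2) h2g N
  have hpow : ∀ x y : ℂ, powMap N ![x, y] = ![x ^ N, y ^ N] := by
    intro x y; funext i; fin_cases i <;> simp [powMap]
  have hdec : ∀ x y : ℂ, s2 (0, 0) (powMap N ![x, y]) =
      s2 (0, 0) ![x ^ N, y ^ N] 1 • ![0, 1] + s2 (0, 0) ![x ^ N, y ^ N] 0 • ![1, 0] := by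
    intro x y; rw [hpow]; funext i; fin_cases i <;> simp
  refine
    { cP := continuous_dualNormSq_metric hH (0, 0) hl continuous_const
      cQ := continuous_dualNormSq_metric hH (0, 0) hl ((hpd (0, 0)).continuous.comp hl)
      cE := continuous_dualNormSq_metric hH (0, 0) hl continuous_const
      posP := dualNormSq_pos (hH.posDef _ _) (by simp)
      Px := fun y => mpfun_x hH hG (0, 0) y (hcst _)
      Py := fun y => mpfun_y hH hG (0, 0) y (hcst _)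
      Qx := fun y => mpfun_x hH hG (0, 0) y (hpd _)
      Qy := fun y => mpfun_y hH hG (0, 0) y (hpd _)
      Ex := fun y => mpfun_x hH hG (0, 0) y (hcst _)
      grPx := ?_
      grPy := ?_
      grQx := ?_
      grQy := ?_
      tri1 := ?_
      tri2 := ?_
      tri3 := ?_ }
  · intro y
    refine growth_x (a := 1) (b := (N : ℤ) * 8 + 1) hg hH (σ := fun _ _ => ![0, 1])
      (fun _ => continuous_const) ?_ y
    intro α β p hp
    rw [h1' α β p hp]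
    norm_num
  · intro x
    refine growth_y (a := 1) (b := N * 8 + 1) hg hH (σ := fun _ _ => ![0, 1])
      (fun _ => continuous_const) ?_ x
    intro α β p hp
    rw [h1' α β p hp]
    norm_num
  · intro y
    refine growth_x (a := N * 4 + 1) (b := 1) hg hH (σ := fun α p => s2 α (powMap N p))
      (fun α => (hpd α).continuous) ?_ y
    intro α β p hp
    rw [h2' α β p hp]
    norm_num
  · intro x
    refine growth_y (a := (N : ℤ) * 4 + 1) (b := 1) hg hH (σ := fun α p => s2 α (powMap N p))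
      (fun α => (hpd α).continuous) ?_ x
    intro α β p hp
    rw [h2' α β p hp]
    norm_num
  · intro x y
    exact tri_aux (hH.posDef _ _) _ _ (hdec x y)
  · intro x y
    have h0 : s2 (0, 0) ![x ^ N, y ^ N] 1 • (![0, 1] : Fin 2 → ℂ) =
        (1 : ℂ) • s2 (0, 0) (powMap N ![x, y]) +
          (-(s2 (0, 0) ![x ^ N, y ^ N] 0)) • (![1, 0] : Fin 2 → ℂ) := by
      rw [hdec x y]; funext i; fin_cases i <;> simp
    have := tri_aux (hH.posDef (0, 0) ![x, y]) _ _ h0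
    rw [sqrt_dualNormSq_smul, norm_one, one_mul, norm_neg] at this
    exact this
  · intro x y
    have h0 : s2 (0, 0) ![x ^ N, y ^ N] 0 • (![1, 0] : Fin 2 → ℂ) =
        (1 : ℂ) • s2 (0, 0) (powMap N ![x, y]) +
          (-(s2 (0, 0) ![x ^ N, y ^ N] 1)) • (![0, 1] : Fin 2 → ℂ) := by
      rw [hdec x y]; funext i; fin_cases i <;> simp
    have := tri_aux (hH.posDef (0, 0) ![x, y]) _ _ h0
    rw [sqrt_dualNormSq_smul, norm_one, one_mul, norm_neg] at this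
    exact this

/-- **Analysis output**: Griffiths positive metrics on all `ψ_{N+1}^* E (1,1)` give `RelData`. -/
theorem exists_relData_of_metrics {g : Transition 2} {s2 : Chart → (Fin 2 → ℂ) → Fin 2 → ℂ}
    (hs2 : ∀ α, Differentiable ℂ (s2 α))
    (h1g : ∀ α β, ∀ p ∈ overlap α β,
      (g α β p).transpose.mulVec ![0, 1] = lineTrans 0 8 α β p • ![0, 1])
    (h2g : ∀ α β, ∀ p ∈ overlap α β,
      (g α β p).transpose.mulVec (s2 α p) = lineTrans 4 0 α β p • s2 β (tau α β p))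
    (hg : IsHoloCocycle g)
    (hmet : ∀ N : ℕ, ∃ H : MetricData 2, IsHermitianMetric (pullTwist (N + 1) g) H ∧
      IsGriffithsPositive H) :
    ∃ P Q E : ℕ → ℂ → ℂ → ℝ,
      RelData (fun X Y => s2 (0, 0) ![X, Y] 0) (fun X Y => s2 (0, 0) ![X, Y] 1) P Q E := by
  choose H hH hG using hmet
  refine ⟨_, _, _, relData_of_sliceData (fun N => sliceData_of_metric hs2 h1g h2g
    (isHoloCocycle_pullTwist (N + 1) hg) (hH N) (hG N))⟩

end Crest.Agent.R258
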