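import Crest.Prelude.Def_QuadricBundle
import Crest.Agent.R258.CircleMean

/-!
Relation between `leviAlong` (Prelude) on `ℂ²` and `lap2` of one-dimensional complex slices.
-/

namespace Crest.Agent.R258

open Crest.AlgGeometry.QuadricBundle
open Complex Set Filter Topology

noncomputable section

/-- `d²/dt² F(p + tξ)` at `0` is the second Fréchet derivative. -/
lemma secondDerivAlong_eq {F : (Fin 2 → ℂ) → ℝ} {p : Fin 2 → ℂ} (hF : ContDiffAt ℝ 2 F p)
    (ξ : Fin 2 → ℂ) : secondDerivAlong F p ξ = fderiv ℝ (fderiv ℝ F) p ξ ξ := by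
  unfold secondDerivAlong
  have hline : ∀ t : ℝ, HasDerivAt (fun t : ℝ => p + (t : ℂ) • ξ) ξ t := fun t => by
    have h1 : HasDerivAt (fun t : ℝ => (t : ℂ)) 1 t := Complex.ofRealCLM.hasDerivAt
    simpa using (h1.smul_const ξ).const_add p
  have hcont : Tendsto (fun t : ℝ => p + (t : ℂ) • ξ) (𝓝 0) (𝓝 p) := by
    have : p = p + ((0 : ℝ) : ℂ) • ξ := by simp
    conv_rhs => rw [this]
    exact (hline 0).continuousAt
  have hev : ∀ᶠ q in 𝓝 p, ContDiffAt ℝ 2 F q := hF.eventually (by norm_num)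
  have h1 : (deriv fun t : ℝ => F (p + (t : ℂ) • ξ)) =ᶠ[𝓝 0]
      fun t : ℝ => fderiv ℝ F (p + (t : ℂ) • ξ) ξ := by
    filter_upwards [hcont.eventually hev] with t ht
    exact ((ht.differentiableAt (by norm_num)).hasFDerivAt.comp_hasDerivAt t (hline t)).deriv
  rw [h1.deriv_eq]
  have h2 : ContDiffAt ℝ 1 (fderiv ℝ F) p := hF.fderiv_right (by norm_num)
  have h2' : HasFDerivAt (fderiv ℝ F) (fderiv ℝ (fderiv ℝ F) p) (p + ((0 : ℝ) : ℂ) • ξ) := by
    have := (h2.differentiableAt (by norm_num)).hasFDerivAt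
    simpa using this
  have h3 : HasDerivAt (fun t : ℝ => fderiv ℝ F (p + (t : ℂ) • ξ))
      (fderiv ℝ (fderiv ℝ F) p ξ) 0 := h2'.comp_hasDerivAt 0 (hline 0)
  have := (h3.clm_apply (hasDerivAt_const (0 : ℝ) ξ)).deriv
  simpa using this

lemma leviAlong_eq {F : (Fin 2 → ℂ) → ℝ} {p : Fin 2 → ℂ} (hF : ContDiffAt ℝ 2 F p)
    (ξ : Fin 2 → ℂ) : leviAlong F p ξ =
      fderiv ℝ (fderiv ℝ F) p ξ ξ + fderiv ℝ (fderiv ℝ F) p (I • ξ) (I • ξ) := by
  unfold leviAlong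
  rw [secondDerivAlong_eq hF, secondDerivAlong_eq hF]

/-- The complex line through `a` with direction `e`. -/
def lineMap (a e : Fin 2 → ℂ) (z : ℂ) : Fin 2 → ℂ := a + z • e

lemma hasFDerivAt_lineMap (a e : Fin 2 → ℂ) (z : ℂ) :
    HasFDerivAt (𝕜 := ℝ) (lineMap a e)
      ((ContinuousLinearMap.smulRight (1 : ℂ →L[ℂ] ℂ) e).restrictScalars ℝ) z := by
  have h : HasFDerivAt (𝕜 := ℂ) (lineMap a e) (ContinuousLinearMap.smulRight (1 : ℂ →L[ℂ] ℂ) e) z :=
    ((hasFDerivAt_id z).smul_const e).const_add a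
  exact h.restrictScalars ℝ

lemma contDiff_lineMap (a e : Fin 2 → ℂ) {n : WithTop ℕ∞} : ContDiff ℝ n (lineMap a e) := by
  unfold lineMap
  exact contDiff_const.add (contDiff_id.smul contDiff_const)

lemma lap2_slice {F : (Fin 2 → ℂ) → ℝ} {a e : Fin 2 → ℂ} {z : ℂ}
    (hF : ContDiffAt ℝ 2 F (lineMap a e z)) (v : ℂ) :
    lap2 (fun z => F (lineMap a e z)) z v = leviAlong F (lineMap a e z) (v • e) := by
  set L : ℂ →L[ℝ] (Fin 2 → ℂ) :=
    (ContinuousLinearMap.smulRight (1 : ℂ →L[ℂ] ℂ) e).restrictScalars ℝ with hL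
  have hLv : ∀ v : ℂ, L v = v • e := fun v => by simp [hL]
  have hcont : Tendsto (lineMap a e) (𝓝 z) (𝓝 (lineMap a e z)) :=
    (hasFDerivAt_lineMap a e z).continuousAt
  have hev : ∀ᶠ q in 𝓝 (lineMap a e z), ContDiffAt ℝ 2 F q := hF.eventually (by norm_num)
  have h1 : fderiv ℝ (fun z => F (lineMap a e z)) =ᶠ[𝓝 z]
      fun w => (fderiv ℝ F (lineMap a e w)).comp L := by
    filter_upwards [hcont.eventually hev] with w hw
    exact ((hw.differentiableAt (by norm_num)).hasFDerivAt.comp w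
      (hasFDerivAt_lineMap a e w)).fderiv
  have h2 : ContDiffAt ℝ 1 (fderiv ℝ F) (lineMap a e z) := hF.fderiv_right (by norm_num)
  have h3 : HasFDerivAt (fun w => fderiv ℝ F (lineMap a e w))
      ((fderiv ℝ (fderiv ℝ F) (lineMap a e z)).comp L) z :=
    (h2.differentiableAt (by norm_num)).hasFDerivAt.comp z (hasFDerivAt_lineMap a e z)
  have h4 : ∀ v w : ℂ, fderiv ℝ (fderiv ℝ (fun z => F (lineMap a e z))) z v w =
      fderiv ℝ (fderiv ℝ F) (lineMap a e z) (v • e) (w • e) := by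
    intro v w
    rw [h1.fderiv_eq]
    have h5 : HasFDerivAt (fun w => (fderiv ℝ F (lineMap a e w)).comp L)
        ((ContinuousLinearMap.compL ℝ ℂ (Fin 2 → ℂ) ℝ).flip L ∘L
          ((fderiv ℝ (fderiv ℝ F) (lineMap a e z)).comp L)) z :=
      (((ContinuousLinearMap.compL ℝ ℂ (Fin 2 → ℂ) ℝ).flip L).hasFDerivAt).comp z h3
    rw [h5.fderiv]
    simp [hLv]
  unfold lap2
  rw [h4, h4, leviAlong_eq hF]
  congr 2 <;> rw [smul_smul]

end

end Crest.Agent.R258
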