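import Crest.Agent.R258.AlgDefs
/-! rid 258, task WW (helper242): basic lemmas on `WW`. -/
set_option autoImplicit false
noncomputable section
namespace Crest.Agent.R258
open MvPolynomial

section
variable {R : Type*} [CommRing R]

theorem C_mem_WW {a : ℕ} {c : SX R} (hc : c.IsHomogeneous a) : (C c : MX R) ∈ WW R 0 a := by
  classical
  refine ⟨isHomogeneous_C _ _, fun m => ?_⟩
  rw [coeff_C]
  split_ifs with h
  · subst h; simpa using hc
  · exact isHomogeneous_zero _ _ _

theorem mem_WW_zero {a : ℕ} {Q : MX R} (hQ : Q ∈ WW R 0 a) :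
    ∃ c : SX R, c.IsHomogeneous a ∧ Q = C c := by
  refine ⟨Q.coeff 0, by simpa using hQ.2 0, ?_⟩
  have h := (totalDegree_eq_zero_iff_eq_C (p := Q)).1
    (Nat.le_zero.1 hQ.1.totalDegree_le)
  exact h

theorem C_mul_mem_WW {n a d : ℕ} {c : SX R} {Q : MX R} (hc : c.IsHomogeneous d)
    (hQ : Q ∈ WW R n a) : C c * Q ∈ WW R n (a + d) := by
  refine ⟨?_, fun m => ?_⟩
  · simpa using (isHomogeneous_C (Fin 2) c).mul hQ.1
  · rw [coeff_C_mul]
    have := hc.mul (hQ.2 m)
    convert this using 1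
    ring

theorem CC_mul_mem_WW {n a : ℕ} (c : R) {Q : MX R}
    (hQ : Q ∈ WW R n a) : C (C c) * Q ∈ WW R n a :=
  C_mul_mem_WW (d := 0) (isHomogeneous_C _ _) hQ

theorem X0_mul_mem_WW {n a : ℕ} {Q : MX R} (hQ : Q ∈ WW R n (a + 2)) :
    X 0 * Q ∈ WW R (n + 1) a := by
  classical
  refine ⟨?_, fun m => ?_⟩
  · have := (isHomogeneous_X (SX R) (0 : Fin 2)).mul hQ.1
    rwa [add_comm] at this
  · rw [coeff_X_mul']
    split_ifs with h
    · have h1 := hQ.2 (m - Finsupp.single 0 1)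
      have h0 : m 0 ≠ 0 := Finsupp.mem_support_iff.1 h
      convert h1 using 1
      simp only [Finsupp.coe_tsub, Pi.sub_apply, Finsupp.single_eq_same]
      omega
    · exact isHomogeneous_zero _ _ _

theorem X1_mul_mem_WW {n a : ℕ} {Q : MX R} (hQ : Q ∈ WW R n a) :
    X 1 * Q ∈ WW R (n + 1) a := by
  classical
  refine ⟨?_, fun m => ?_⟩
  · have := (isHomogeneous_X (SX R) (1 : Fin 2)).mul hQ.1
    rwa [add_comm] at this
  · rw [coeff_X_mul']
    split_ifs with h
    · have h1 := hQ.2 (m - Finsupp.single 1 1)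
      convert h1 using 1
      simp
    · exact isHomogeneous_zero _ _ _

theorem X1_pow_mem_WW {n a : ℕ} {c : SX R} (hc : c.IsHomogeneous a) :
    C c * X 1 ^ n ∈ WW R n a := by
  induction n with
  | zero => simpa using C_mem_WW hc
  | succ n ih =>
    have := X1_mul_mem_WW ih
    convert this using 1
    ring

/-- every element of `WW (n+1) a` is `c X1^(n+1) + X0 Q`. -/
theorem mem_WW_succ {n a : ℕ} {Q : MX R} (hQ : Q ∈ WW R (n + 1) a) :
    ∃ c : SX R, c.IsHomogeneous a ∧ ∃ Q' ∈ WW R n (a + 2), Q = C c * X 1 ^ (n + 1) + X 0 * Q' := by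
  classical
  refine ⟨Q.coeff (Finsupp.single 1 (n + 1)), by simpa using hQ.2 (Finsupp.single 1 (n + 1)),
    Q.divMonomial (Finsupp.single 0 1), ⟨?_, fun m => ?_⟩, ?_⟩
  · intro m hm
    rw [coeff_divMonomial] at hm
    have := hQ.1 hm
    rw [map_add, Finsupp.weight_single] at this
    simp only [Pi.one_apply, smul_eq_mul, mul_one] at this
    omega
  · rw [coeff_divMonomial]
    have := hQ.2 (Finsupp.single 0 1 + m)
    convert this using 1
    simp
    ring
  · have h := divMonomial_add_modMonomial_single Q (0 : Fin 2)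
    have h2 : Q.modMonomial (Finsupp.single 0 1) =
        C (Q.coeff (Finsupp.single 1 (n + 1))) * X 1 ^ (n + 1) := by
      ext1 m
      rw [coeff_C_mul, coeff_X_pow]
      by_cases hm : Finsupp.single 0 1 ≤ m
      · rw [coeff_modMonomial_of_le _ hm]
        have : Finsupp.single (1 : Fin 2) (n + 1) ≠ m := by
          rintro rfl
          have := hm 0
          simp at this
        rw [if_neg this, mul_zero]
      · rw [coeff_modMonomial_of_not_le _ hm]
        have hm0 : m 0 = 0 := by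
          by_contra h0
          apply hm
          intro i
          fin_cases i
          · simp; omega
          · simp
        by_cases hm1 : m 1 = n + 1
        · have : Finsupp.single (1 : Fin 2) (n + 1) = m := by
            ext i
            fin_cases i
            · simp [hm0]
            · simp [hm1]
          simp [this]
        · have : Finsupp.single (1 : Fin 2) (n + 1) ≠ m := by
            rintro rfl
            simp at hm1
          rw [if_neg this, mul_zero]
          by_contra hc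
          have := hQ.1 hc
          rw [Finsupp.weight_apply, Finsupp.sum_fintype _ _ (by simp)] at this
          simp [Fin.sum_univ_two, hm0] at this
          exact hm1 this
    rw [← h2, add_comm]
    exact h.symm

theorem map_mem_WW {R' : Type*} [CommRing R'] (φ : R →+* R') {n a : ℕ} {Q : MX R}
    (hQ : Q ∈ WW R n a) : MvPolynomial.map (MvPolynomial.map φ) Q ∈ WW R' n a := by
  refine ⟨hQ.1.map _, fun m => ?_⟩
  rw [coeff_map]
  exact (hQ.2 m).map _

theorem lin_mul_mem_WW {n a : ℕ} (v : R) {p : SX R} (hp : p.IsHomogeneous 2) {Q : MX R}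
    (hQ : Q ∈ WW R n a) : (C p * X 0 + C (C v) * X 1) * Q ∈ WW R (n + 1) a := by
  have h1 := X0_mul_mem_WW (C_mul_mem_WW hp hQ)
  have h2 := X1_mul_mem_WW (CC_mul_mem_WW v hQ)
  have := (WW R (n + 1) a).add_mem h1 h2
  convert this using 1
  ring

theorem lin_pow_mem_WW {a : ℕ} (v : R) {p : SX R} (hp : p.IsHomogeneous 2) {c : SX R}
    (hc : c.IsHomogeneous a) (n : ℕ) : C c * (C p * X 0 + C (C v) * X 1) ^ n ∈ WW R n a := by
  induction n with
  | zero => simpa using C_mem_WW hc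
  | succ n ih =>
    have := lin_mul_mem_WW v hp ih
    convert this using 1
    ring

/-- an upper triangular frame substitution preserves `WW`. -/
theorem subst_mem_WW {n a : ℕ} (u v : R) {p : SX R} (hp : p.IsHomogeneous 2) {Q : MX R}
    (hQ : Q ∈ WW R n a) :
    (aeval ![C (C u) * X 0, C p * X 0 + C (C v) * X 1] : MX R →ₐ[SX R] MX R) Q ∈ WW R n a := by
  induction n generalizing a Q with
  | zero =>
    obtain ⟨c, hc, rfl⟩ := mem_WW_zero hQ
    rw [aeval_C]
    exact C_mem_WW hc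
  | succ n ih =>
    obtain ⟨c, hc, Q', hQ', rfl⟩ := mem_WW_succ hQ
    simp only [map_add, map_mul, map_pow, aeval_C, aeval_X, Matrix.cons_val_zero,
      Matrix.cons_val_one]
    refine (WW R (n + 1) a).add_mem ?_ ?_
    · exact lin_pow_mem_WW v hp hc (n + 1)
    · have := X0_mul_mem_WW (CC_mul_mem_WW u (ih hQ'))
      convert this using 1
      ring

theorem lin_pow_eq {a : ℕ} (v : R) {p : SX R} (hp : p.IsHomogeneous 2) {c : SX R}
    (hc : c.IsHomogeneous a) (n : ℕ) : ∃ Q' ∈ WW R n (a + 2),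
      C c * (C p * X 0 + C (C v) * X 1) ^ (n + 1) = C (C (v ^ (n + 1)) * c) * X 1 ^ (n + 1) + X 0 * Q' := by
  induction n with
  | zero =>
    refine ⟨C (c * p), C_mem_WW (hc.mul hp), ?_⟩
    simp only [zero_add, pow_one, map_mul]
    ring
  | succ n ih =>
    obtain ⟨Q', hQ', h⟩ := ih
    refine ⟨C p * (C (C (v ^ (n + 1)) * c) * X 1 ^ (n + 1)) + (C p * X 0 + C (C v) * X 1) * Q',
      (WW R _ _).add_mem ?_ ?_, ?_⟩
    · refine C_mul_mem_WW hp (X1_pow_mem_WW ?_)
      simpa using (isHomogeneous_C (Fin 2) (v ^ (n + 1))).mul hc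
    · exact lin_mul_mem_WW v hp hQ'
    · rw [pow_succ, ← mul_assoc, h]
      simp only [map_mul, map_pow]
      ring

/-- the value of an upper triangular frame substitution: its `X1^(n)` part. -/
theorem subst_X1_pow {n : ℕ} (u v : R) {p : SX R} (hp : p.IsHomogeneous 2) (c : SX R)
    {a : ℕ} (hc : c.IsHomogeneous a) :
    ∃ Q' ∈ WW R n (a + 2), (aeval ![C (C u) * X 0, C p * X 0 + C (C v) * X 1] :
      MX R →ₐ[SX R] MX R) (C c * X 1 ^ (n + 1)) = C (C (v ^ (n + 1)) * c) * X 1 ^ (n + 1) + X 0 * Q' := by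
  obtain ⟨Q', hQ', h⟩ := lin_pow_eq v hp hc n
  refine ⟨Q', hQ', ?_⟩
  rw [← h]
  simp only [map_mul, map_pow, aeval_C, aeval_X, Matrix.cons_val_one]
  rfl

variable [Algebra ℚ R]

theorem algebraMap_rat_SX (q : ℚ) : algebraMap ℚ (SX R) q = C (algebraMap ℚ R q) := by
  rw [IsScalarTower.algebraMap_apply ℚ R (SX R), algebraMap_eq]

theorem hom_mono (a : R) (i j d : ℕ) (h : i + j = d) :
    (C a * (X 0 ^ i * X 1 ^ j) : SX R).IsHomogeneous d := by
  have := (isHomogeneous_C (Fin 2) a).mul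
    ((isHomogeneous_X_pow (R := R) (0 : Fin 2) i).mul (isHomogeneous_X_pow (R := R) (1 : Fin 2) j))
  simpa [h] using this

theorem Tp_homogeneous (m y : R) : (Tp m y).IsHomogeneous 2 := by
  have : Tp m y = C (algebraMap ℚ R (1 / 32) * (-((1 + y ^ 2) * (-(2 * y))))) * (X 0 ^ 2 * X 1 ^ 0)
      + C (algebraMap ℚ R (1 / 32) * (2 * y * (-(2 * y)) - (1 + y ^ 2) * del m y)) * (X 0 ^ 1 * X 1 ^ 1)
      + C (algebraMap ℚ R (1 / 32) * (2 * y * del m y)) * (X 0 ^ 0 * X 1 ^ 2) := by
    unfold Tp TT t1 t2 del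
    simp only [algebraMap_rat_SX, map_mul, map_add, map_sub, map_neg, map_pow, map_one, map_ofNat]
    ring
  rw [this]
  exact ((hom_mono _ _ _ _ (by norm_num)).add (hom_mono _ _ _ _ (by norm_num))).add
    (hom_mono _ _ _ _ (by norm_num))

theorem Np_homogeneous (m y : R) : (Np m y).IsHomogeneous 4 := by
  have : Np m y = C ((29 - 12 * m) + (algebraMap ℚ R (1 / 32) * (926 - 384 * m)) * y ^ 2) * (X 0 ^ 4 * X 1 ^ 0)
      + C ((algebraMap ℚ R (1 / 32) * (-2962 + 1231 * m)) * y + (algebraMap ℚ R (1 / 32) * (-1118 + 463 * m)) * y ^ 3) * (X 0 ^ 3 * X 1 ^ 1)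
      + C ((algebraMap ℚ R (1 / 32) * (273 - 117 * m)) + (algebraMap ℚ R (1 / 32) * (2533 - 1043 * m)) * y ^ 2) * (X 0 ^ 2 * X 1 ^ 2)
      + C ((algebraMap ℚ R (1 / 32) * (-699 + 272 * m)) * y + (algebraMap ℚ R (1 / 32) * (-89 + 38 * m)) * y ^ 3) * (X 0 ^ 1 * X 1 ^ 3)
      + C (1 + (algebraMap ℚ R (1 / 32) * (178 - 76 * m)) * y ^ 2) * (X 0 ^ 0 * X 1 ^ 4) := by
    unfold Np nu
    simp only [algebraMap_rat_SX, map_mul, map_add, map_sub, map_neg, map_pow, map_one, map_ofNat]
    ring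
  rw [this]
  exact ((((hom_mono _ _ _ _ (by norm_num)).add (hom_mono _ _ _ _ (by norm_num))).add
    (hom_mono _ _ _ _ (by norm_num))).add (hom_mono _ _ _ _ (by norm_num))).add
    (hom_mono _ _ _ _ (by norm_num))

theorem Pp_homogeneous (m y : R) : (Pp m y).IsHomogeneous 2 := by
  have : Pp m y = C ((79 + 192 * m) + y ^ 2 - y ^ 4 + y ^ 6 - y ^ 8 + (-463 + 192 * m) * y ^ 10) * (X 0 ^ 2 * X 1 ^ 0)
      + C ((-13 - 39 * m) * y + (-1 - m) * y ^ 3 + (-1 + m) * y ^ 5 + (3 - m) * y ^ 7 + (91 - 39 * m) * y ^ 9) * (X 0 ^ 1 * X 1 ^ 1)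
      + C ((12 + 13 * m) + (2 + 5 * m) * y ^ 2 + m * y ^ 4 + (-2 + m) * y ^ 6 + (-12 + 5 * m) * y ^ 8 + (-38 + 13 * m) * y ^ 10) * (X 0 ^ 0 * X 1 ^ 2) := by
    unfold Pp PP
    simp only [map_mul, map_add, map_sub, map_neg, map_pow, map_one, map_ofNat]
    ring
  rw [this]
  exact ((hom_mono _ _ _ _ (by norm_num)).add (hom_mono _ _ _ _ (by norm_num))).add
    (hom_mono _ _ _ _ (by norm_num))

theorem ev_C (m y : R) (c : SX R) : ev m y (C c) = c := by
  unfold ev; rw [aeval_C]; rfl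

theorem ev_X0 (m y : R) : ev m y (X 0) = Tp m y := by
  unfold ev; rw [aeval_X]; rfl

theorem ev_X1 (m y : R) : ev m y (X 1) = Np m y := by
  unfold ev; rw [aeval_X]; rfl

theorem ev_homogeneous (m y : R) {n a : ℕ} {Q : MX R} (hQ : Q ∈ WW R n a) :
    (ev m y Q).IsHomogeneous (4 * n + a) := by
  induction n generalizing a Q with
  | zero =>
    obtain ⟨c, hc, rfl⟩ := mem_WW_zero hQ
    rw [ev_C]; simpa using hc
  | succ n ih =>
    obtain ⟨c, hc, Q', hQ', rfl⟩ := mem_WW_succ hQ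
    rw [map_add, map_mul, map_mul, map_pow, ev_C, ev_X0, ev_X1]
    refine IsHomogeneous.add ?_ ?_
    · have := hc.mul ((Np_homogeneous m y).pow (n + 1))
      convert this using 1
      ring
    · have := (Tp_homogeneous m y).mul (ih hQ')
      convert this using 1
      ring

theorem kap_mul_mem_WW (m y : R) {n a : ℕ} {Q : MX R} (hQ : Q ∈ WW R n a) :
    kap m y * Q ∈ WW R (n + 1) (a + 2) := by
  have h1 : X 0 * (C (Np m y) * Q) ∈ WW R (n + 1) (a + 2) :=
    X0_mul_mem_WW (a := a + 2) (C_mul_mem_WW (d := 4) (Np_homogeneous m y) hQ)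
  have h2 : X 1 * (C (Tp m y) * Q) ∈ WW R (n + 1) (a + 2) :=
    X1_mul_mem_WW (C_mul_mem_WW (d := 2) (Tp_homogeneous m y) hQ)
  have := (WW R (n + 1) (a + 2)).sub_mem h1 h2
  convert this using 1
  unfold kap
  ring

theorem ev_kap (m y : R) : ev m y (kap m y) = 0 := by
  unfold kap
  rw [map_sub, map_mul, map_mul, ev_C, ev_C, ev_X0, ev_X1]
  ring

section map
variable {R' : Type*} [CommRing R'] [Algebra ℚ R'] (φ : R →+* R')

theorem map_Tp (m y : R) : MvPolynomial.map φ (Tp m y) = Tp (φ m) (φ y) := by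
  unfold Tp TT t1 t2 del
  simp only [map_mul, map_add, map_sub, map_neg, map_pow, map_one, map_ofNat,
    map_C, map_X, RingHom.map_rat_algebraMap]

theorem map_Np (m y : R) : MvPolynomial.map φ (Np m y) = Np (φ m) (φ y) := by
  unfold Np nu
  simp only [map_mul, map_add, map_sub, map_neg, map_pow, map_one, map_ofNat,
    map_C, map_X, RingHom.map_rat_algebraMap]

theorem map_Pp (m y : R) : MvPolynomial.map φ (Pp m y) = Pp (φ m) (φ y) := by
  unfold Pp PP
  simp only [map_mul, map_add, map_sub, map_neg, map_pow, map_one, map_ofNat,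
    map_C, map_X]

/-- compatibility of `ev` with maps of coefficient rings. -/
theorem map_ev (m y : R) (Q : MX R) :
    MvPolynomial.map φ (ev m y Q) = ev (φ m) (φ y) (MvPolynomial.map (MvPolynomial.map φ) Q) := by
  induction Q using MvPolynomial.induction_on with
  | C c => rw [ev_C, map_C, ev_C]
  | add p q hp hq => rw [map_add, map_add, hp, hq, map_add, map_add]
  | mul_X p i hp =>
    rw [map_mul, map_mul, hp, map_mul, map_mul, map_X]
    congr 1
    fin_cases i
    · simp only [Fin.zero_eta, ev_X0, map_Tp]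
    · simp only [Fin.mk_one, ev_X1, map_Np]

theorem map_kap (m y : R) :
    MvPolynomial.map (MvPolynomial.map φ) (kap m y) = kap (φ m) (φ y) := by
  unfold kap
  simp only [map_sub, map_mul, map_C, map_X, map_Tp, map_Np]

end map

end

theorem gS_mem_WW {n a : ℕ} {Q : MX LL} (hQ : Q ∈ WW LL n a) : gS Q ∈ WW LL n a := by
  have h : (C (zL ^ 3) * Pp (mL 0) yL : SX LL).IsHomogeneous 2 := by
    have := (isHomogeneous_C (Fin 2) (zL ^ 3)).mul (Pp_homogeneous (mL 0) yL)
    rwa [zero_add] at this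
  exact subst_mem_WW (zL ^ 4) (yL ^ 8) h hQ

theorem jo0_mem_WW {n a : ℕ} {Q : MX AA} (hQ : Q ∈ WW AA n a) : jo0 Q ∈ WW LL n a :=
  map_mem_WW _ hQ

theorem jo1_mem_WW {n a : ℕ} {Q : MX AA} (hQ : Q ∈ WW AA n a) : jo1 Q ∈ WW LL n a :=
  map_mem_WW _ hQ

end Crest.Agent.R258
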